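import Vale.Agent.P142.Defs

/-!
# P142 [CT]: the Cauchy transform of a disc
-/

open Metric Set MeasureTheory Filter Topology Finset
open scoped Real

namespace Vale.Agent.P142

namespace CtAux

/-- the kernel `1/|c|` cut off at radius `ρ` -/
noncomputable def kern (ρ : ℝ) (c : ℂ) : ℝ := if ‖c‖ < ρ then ‖c‖⁻¹ else 0

theorem ker_int {ρ : ℝ} (hρ : 0 < ρ) : Integrable (kern ρ) ∧ ∫ c, kern ρ c = 2 * π * ρ := by
  set f : ℝ → ℝ := fun y => if y < ρ then y⁻¹ else 0 with hf
  have e : kern ρ = fun c : ℂ => f ‖c‖ := rfl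
  have h1 : ∀ y ∈ Ioi (0:ℝ), y ^ (Module.finrank ℝ ℂ - 1) • f y =
      (Ioo 0 ρ).indicator (fun _ => (1:ℝ)) y := by
    intro y hy
    rw [Set.mem_Ioi] at hy
    rw [Complex.finrank_real_complex]
    simp only [hf, smul_eq_mul]
    by_cases h : y < ρ
    · rw [if_pos h, indicator_of_mem (by exact ⟨hy, h⟩)]
      norm_num
      field_simp
    · rw [if_neg h, indicator_of_notMem (fun h' => h h'.2)]
      simp
  have h2 : IntegrableOn ((Ioo 0 ρ).indicator (fun _ => (1:ℝ))) (Ioi 0) := by
    refine Integrable.integrableOn ?_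
    rw [integrable_indicator_iff measurableSet_Ioo]
    exact integrableOn_const (by simp)
  constructor
  · rw [e, integrable_fun_norm_addHaar]
    exact h2.congr_fun (fun y hy => (h1 y hy).symm) measurableSet_Ioi
  · rw [e, integral_fun_norm_addHaar, setIntegral_congr_fun measurableSet_Ioi h1,
      setIntegral_indicator measurableSet_Ioo, Ioi_inter_Ioo, Complex.finrank_real_complex]
    simp only [measureReal_def, Complex.volume_ball]
    simp [hρ.le]
    ring

theorem ker_sub {ρ : ℝ} (hρ : 0 < ρ) (F : ℂ) : Integrable (fun c => kern ρ (F - c)) ∧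
    ∫ c, kern ρ (F - c) = 2 * π * ρ :=
  ⟨(ker_int hρ).1.comp_sub_left F, by rw [integral_sub_left_eq_self (kern ρ), (ker_int hρ).2]⟩

theorem ker_nonneg (ρ : ℝ) (c : ℂ) : 0 ≤ kern ρ c := by
  unfold kern
  split_ifs <;> positivity

theorem meas (F : ℂ) : Measurable fun c : ℂ => (F - c)⁻¹ := by fun_prop

theorem avg_inside {F c : ℂ} (h : ‖c‖ < ‖F‖) :
    Real.circleAverage (fun u => (F - u * c)⁻¹) 0 1 = F⁻¹ := by
  have hne : ∀ u ∈ closedBall (0:ℂ) 1, F - u * c ≠ 0 := by
    intro u hu h0
    rw [mem_closedBall_zero_iff] at hu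
    have h1 : F = u * c := by linear_combination h0
    have h2 : ‖F‖ ≤ ‖c‖ := by
      rw [h1, norm_mul]
      exact mul_le_of_le_one_left (norm_nonneg _) hu
    linarith
  have hd : DifferentiableOn ℂ (fun u => (F - u * c)⁻¹) (closedBall 0 1) := by
    intro u hu
    exact ((by fun_prop : DifferentiableAt ℂ (fun u => F - u * c) u).inv
      (hne u hu)).differentiableWithinAt
  have := circleAverage_of_differentiable_on_off_countable (f := fun u => (F - u * c)⁻¹)
    (c := 0) (R := 1) countable_empty (by simpa using hd.continuousOn) (by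
      intro z hz
      rw [abs_one] at hz
      have := hne z (ball_subset_closedBall hz.1)
      exact (by fun_prop : DifferentiableAt ℂ (fun u => F - u * c) z).inv this)
  simpa using this

theorem avg_outside {F c : ℂ} (h : ‖F‖ < ‖c‖) :
    Real.circleAverage (fun u => (F - u * c)⁻¹) 0 1 = 0 := by
  have hc : c ≠ 0 := by
    rintro rfl
    simp at h
    linarith [norm_nonneg F]
  rw [← Real.circleAverage_zero_one_congr_inv]
  have hne : ∀ u ∈ closedBall (0:ℂ) 1, u * F - c ≠ 0 := by
    intro u hu h0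
    rw [mem_closedBall_zero_iff] at hu
    have h1 : c = u * F := by linear_combination -h0
    have h2 : ‖c‖ ≤ ‖F‖ := by
      rw [h1, norm_mul]
      exact mul_le_of_le_one_left (norm_nonneg _) hu
    linarith
  have e : Real.circleAverage (fun u => (F - u⁻¹ * c)⁻¹) 0 1 =
      Real.circleAverage (fun u => u * (u * F - c)⁻¹) 0 1 := by
    refine Real.circleAverage_congr_sphere fun u hu => ?_
    have hu0 : u ≠ 0 := by
      rintro rfl
      simp at hu
    have : F - u⁻¹ * c = u⁻¹ * (u * F - c) := by field_simp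
    simp only [this, mul_inv, inv_inv]
  rw [e]
  have hd : DifferentiableOn ℂ (fun u => u * (u * F - c)⁻¹) (closedBall 0 1) := by
    intro u hu
    exact (differentiableAt_id.mul ((by fun_prop : DifferentiableAt ℂ (fun u => u * F - c) u).inv
      (hne u hu))).differentiableWithinAt
  have := circleAverage_of_differentiable_on_off_countable (f := fun u => u * (u * F - c)⁻¹)
    (c := 0) (R := 1) countable_empty (by simpa using hd.continuousOn) (by
      intro z hz
      rw [abs_one] at hz
      have := hne z (ball_subset_closedBall hz.1)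
      exact differentiableAt_id.mul
        ((by fun_prop : DifferentiableAt ℂ (fun u => u * F - c) z).inv this))
  simpa using this

end CtAux

open CtAux

theorem ct_integrable {F : ℂ} {M : ℝ} :
    IntegrableOn (fun c : ℂ => (F - c)⁻¹) (ball 0 M) := by
  have hρ : 0 < ‖F‖ + |M| + 1 := by positivity
  refine ((ker_sub hρ F).1.integrableOn (s := ball 0 M)).mono' (meas F).aestronglyMeasurable ?_
  refine (ae_restrict_iff' measurableSet_ball).2 (Eventually.of_forall fun c hc => ?_)
  rw [mem_ball_zero_iff] at hc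
  have h1 : ‖F - c‖ < ‖F‖ + |M| + 1 := by
    have := norm_sub_le F c
    have := le_abs_self M
    linarith
  rw [norm_inv, kern, if_pos h1]

theorem ct_norm_bound {F : ℂ} {M : ℝ} (hF : ‖F‖ < M) :
    ∫ c in ball (0 : ℂ) M, ‖(F - c)⁻¹‖ ≤ 4 * π * M := by
  have hM : 0 < 2 * M := by linarith [norm_nonneg F]
  calc ∫ c in ball (0 : ℂ) M, ‖(F - c)⁻¹‖ ≤ ∫ c in ball (0 : ℂ) M, kern (2 * M) (F - c) := by
        refine setIntegral_mono_on ct_integrable.norm (ker_sub hM F).1.integrableOn
          measurableSet_ball fun c hc => ?_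
        rw [mem_ball_zero_iff] at hc
        have h1 : ‖F - c‖ < 2 * M := by
          have := norm_sub_le F c
          linarith
        rw [norm_inv, kern, if_pos h1]
    _ ≤ ∫ c, kern (2 * M) (F - c) :=
        setIntegral_le_integral (ker_sub hM F).1 (Eventually.of_forall fun c => ker_nonneg _ _)
    _ = 4 * π * M := by rw [(ker_sub hM F).2]; ring

theorem ct {F : ℂ} {M : ℝ} (hF : ‖F‖ < M) :
    ∫ c in ball (0 : ℂ) M, (F - c)⁻¹ = π * (starRingEnd ℂ) F := by
  have hpi := Real.pi_pos
  -- rotation invariance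
  have hrot : ∀ (θ : ℝ) {E : Type} [NormedAddCommGroup E] [NormedSpace ℝ E] (G : ℂ → E),
      ∫ c in ball (0 : ℂ) M, G (circleMap 0 1 θ * c) = ∫ c in ball (0 : ℂ) M, G c := by
    intro θ E _ _ G
    set a : Circle := Circle.exp θ with ha
    have h1 : MeasurePreserving (rotation a) (volume : Measure ℂ) volume :=
      (rotation a).measurePreserving
    have h2 := h1.setIntegral_preimage_emb (rotation a).toHomeomorph.measurableEmbedding G
      (ball (0:ℂ) M)
    have h3 : (rotation a) ⁻¹' (ball (0:ℂ) M) = ball 0 M := by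
      ext c
      rw [Set.mem_preimage, mem_ball_zero_iff, mem_ball_zero_iff, LinearIsometryEquiv.norm_map]
    rw [h3] at h2
    rw [← h2]
    refine setIntegral_congr_fun measurableSet_ball fun c _ => ?_
    simp [ha, circleMap]
  have hroti : ∀ (θ : ℝ), IntegrableOn (fun c => (F - circleMap 0 1 θ * c)⁻¹) (ball 0 M) := by
    intro θ
    set a : Circle := Circle.exp θ with ha
    have h1 : MeasurePreserving (rotation a) (volume : Measure ℂ) volume :=
      (rotation a).measurePreserving
    have h2 := (h1.integrableOn_comp_preimage (rotation a).toHomeomorph.measurableEmbedding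
      (f := fun c => (F - c)⁻¹) (s := ball (0:ℂ) M)).2 ct_integrable
    have h3 : (rotation a) ⁻¹' (ball (0:ℂ) M) = ball 0 M := by
      ext c
      rw [Set.mem_preimage, mem_ball_zero_iff, mem_ball_zero_iff, LinearIsometryEquiv.norm_map]
    rw [h3] at h2
    refine h2.congr_fun (fun c _ => ?_) measurableSet_ball
    simp [ha, circleMap]
  have hmeas : Measurable (fun p : ℝ × ℂ => (F - circleMap 0 1 p.1 * p.2)⁻¹) := by
    have : Measurable (fun p : ℝ × ℂ => circleMap 0 1 p.1) :=
      (continuous_circleMap 0 1).measurable.comp measurable_fst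
    exact ((measurable_const.sub (this.mul measurable_snd))).inv
  have hint : Integrable (fun p : ℝ × ℂ => (F - circleMap 0 1 p.1 * p.2)⁻¹)
      ((volume.restrict (Ioc 0 (2 * π))).prod (volume.restrict (ball (0:ℂ) M))) := by
    rw [integrable_prod_iff hmeas.aestronglyMeasurable]
    refine ⟨Eventually.of_forall fun θ => hroti θ, ?_⟩
    have : ∀ θ : ℝ, ∫ c in ball (0 : ℂ) M, ‖(F - circleMap 0 1 θ * c)⁻¹‖ =
        ∫ c in ball (0 : ℂ) M, ‖(F - c)⁻¹‖ := fun θ => hrot θ (fun c => ‖(F - c)⁻¹‖)
    simp only [this]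
    exact integrable_const _
  have hswap := integral_integral_swap
    (f := fun (θ : ℝ) (c : ℂ) => (F - circleMap 0 1 θ * c)⁻¹) hint
  have h1 : ∫ θ in Ioc 0 (2 * π), ∫ c in ball (0 : ℂ) M, (F - circleMap 0 1 θ * c)⁻¹ =
      2 * π * ∫ c in ball (0 : ℂ) M, (F - c)⁻¹ := by
    have : ∀ θ : ℝ, ∫ c in ball (0 : ℂ) M, (F - circleMap 0 1 θ * c)⁻¹ =
        ∫ c in ball (0 : ℂ) M, (F - c)⁻¹ := fun θ => hrot θ (fun c => (F - c)⁻¹)
    simp only [this]
    rw [setIntegral_const]
    simp [measureReal_def, hpi.le]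
  have h2 : ∫ c in ball (0 : ℂ) M, ∫ θ in Ioc 0 (2 * π), (F - circleMap 0 1 θ * c)⁻¹ =
      ∫ c in ball (0 : ℂ) M, (ball (0:ℂ) ‖F‖).indicator (fun _ => 2 * π * F⁻¹) c := by
    refine setIntegral_congr_ae measurableSet_ball ?_
    have hs : ∀ᵐ c : ℂ, c ∉ sphere (0:ℂ) ‖F‖ := by
      rw [ae_iff]
      simp only [not_not]
      exact Measure.addHaar_sphere _ _ _
    filter_upwards [hs] with c hc _
    rw [← intervalIntegral.integral_of_le (by positivity)]
    have havg : ∫ θ in (0:ℝ)..(2 * π), (F - circleMap 0 1 θ * c)⁻¹ =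
        2 * π * Real.circleAverage (fun u => (F - u * c)⁻¹) 0 1 := by
      rw [Real.circleAverage_def]
      rw [Complex.real_smul]
      push_cast
      have : (π : ℂ) ≠ 0 := by exact_mod_cast hpi.ne'
      rw [← mul_assoc, mul_inv_cancel₀ (by simp [this]), one_mul]
    rw [havg]
    rw [mem_sphere_zero_iff_norm] at hc
    rcases lt_or_gt_of_ne hc with h | h
    · rw [avg_inside h, indicator_of_mem (by simpa using h)]
    · rw [avg_outside h, indicator_of_notMem (by simp [h.le]), mul_zero]
  rw [h1] at hswap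
  rw [h2] at hswap
  rw [setIntegral_indicator measurableSet_ball,
    inter_eq_self_of_subset_right (ball_subset_ball hF.le), setIntegral_const] at hswap
  have h3 : volume.real (ball (0:ℂ) ‖F‖) = π * ‖F‖ ^ 2 := by
    simp [measureReal_def, Complex.volume_ball]
    ring
  rw [h3, Complex.real_smul] at hswap
  have hpc : (π : ℂ) ≠ 0 := by exact_mod_cast hpi.ne'
  have h4 : (∫ c in ball (0 : ℂ) M, (F - c)⁻¹) = ((π * ‖F‖ ^ 2 : ℝ) : ℂ) * F⁻¹ := by
    have h5 : (2 * π : ℂ) ≠ 0 := by simp [hpc]
    apply mul_left_cancel₀ h5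
    rw [hswap]
    ring
  rw [h4]
  by_cases h0 : F = 0
  · simp [h0]
  · push_cast
    have h6 : ((‖F‖ : ℂ)) ^ 2 = F * (starRingEnd ℂ) F := by
      rw [Complex.mul_conj, Complex.normSq_eq_norm_sq]
      push_cast
      rfl
    rw [h6]
    field_simp

end Vale.Agent.P142
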