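import Vale.Agent.P142.Defs

open Metric Set MeasureTheory Filter Topology Finset
open scoped Real Polynomial

namespace Vale.Agent.P142

theorem DnzAux.hasDerivAt_lin {k : ℂ → ℂ} {z : ℂ} (hk : DifferentiableAt ℂ k z) :
    HasDerivAt (fun w => (w - z) * k w) (k z) z := by
  have h := ((hasDerivAt_id z).sub_const z).fun_mul hk.hasDerivAt
  simpa using h

theorem deriv_ne_zero {U : Set ℂ} (hU : IsOpen U) {f : ℂ → ℂ} (hf : DifferentiableOn ℂ f U)
    (hi : InjOn f U) {z : ℂ} (hz : z ∈ U) : deriv f z ≠ 0 := by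
  intro h0
  have hUz : U ∈ 𝓝 z := hU.mem_nhds hz
  have hfa : AnalyticAt ℂ f z := hf.analyticAt hUz
  have hFa : AnalyticAt ℂ (fun w => f w - f z) z := hfa.sub analyticAt_const
  have hne : ¬ ∀ᶠ w in 𝓝 z, f w - f z = 0 := by
    intro h
    have h1 : ∀ᶠ w in 𝓝[≠] z, (f w - f z = 0 ∧ w ∈ U) ∧ w ≠ z :=
      ((h.and hUz).filter_mono nhdsWithin_le_nhds).and self_mem_nhdsWithin
    obtain ⟨w, ⟨h2, h3⟩, h4⟩ := h1.exists
    exact h4 (hi h3 hz (sub_eq_zero.mp h2))
  obtain ⟨n, g, hga, hgz, hgf⟩ := hFa.exists_eventuallyEq_pow_smul_nonzero_iff.mpr hne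
  have hn0 : n ≠ 0 := by
    rintro rfl
    have := hgf.self_of_nhds
    simp at this
    exact hgz this.symm
  have hn1 : n ≠ 1 := by
    rintro rfl
    have h1 : HasDerivAt (fun w => (w - z) ^ 1 • g w) (g z) z := by
      simpa using DnzAux.hasDerivAt_lin hga.differentiableAt
    have h2 : HasDerivAt (fun w => f w - f z) (g z) z := h1.congr_of_eventuallyEq hgf
    have h3 : HasDerivAt (fun w => f w - f z) (deriv f z) z :=
      hfa.differentiableAt.hasDerivAt.sub_const _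
    exact hgz (by rw [h2.unique h3, h0])
  have hn : 1 < n := by omega
  obtain ⟨c, hc⟩ := IsAlgClosed.exists_pow_nat_eq (g z) (by omega : 0 < n)
  have hc0 : c ≠ 0 := by
    rintro rfl
    rw [zero_pow hn0] at hc
    exact hgz hc.symm
  set k : ℂ → ℂ := fun w => c * (g w / g z) ^ (1 / n : ℂ) with hk
  have hka : AnalyticAt ℂ k z := by
    refine analyticAt_const.mul ((hga.div analyticAt_const hgz).cpow analyticAt_const ?_)
    simp [div_self hgz]
  have hkz : k z = c := by simp [hk, div_self hgz]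
  have hkn : ∀ w, k w ^ n = g w := by
    intro w
    simp only [hk, mul_pow, hc]
    rw [← Complex.cpow_mul_nat]
    have : (1 / (n : ℂ)) * n = 1 := by
      field_simp
    rw [this, Complex.cpow_one]
    field_simp
  set h : ℂ → ℂ := fun w => (w - z) * k w with hh
  have hha : AnalyticAt ℂ h z := (analyticAt_id.sub analyticAt_const).mul hka
  have hhz : h z = 0 := by simp [hh]
  have hhn : ¬ ∀ᶠ w in 𝓝 z, h w = h z := by
    intro h1
    have h2 : HasDerivAt h c z := by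
      have h3 := DnzAux.hasDerivAt_lin hka.differentiableAt
      rwa [hkz] at h3
    have h3 : HasDerivAt h 0 z := (hasDerivAt_const z (h z)).congr_of_eventuallyEq h1
    exact hc0 (h2.unique h3)
  have hopen : 𝓝 (h z) ≤ map h (𝓝 z) :=
    hha.eventually_constant_or_nhds_le_map_nhds.resolve_left hhn
  have hV : {w | f w - f z = h w ^ n ∧ w ∈ U} ∈ 𝓝 z := by
    filter_upwards [hgf, hUz] with w hw1 hw2
    refine ⟨?_, hw2⟩
    rw [hw1]
    simp only [hh, mul_pow, hkn, smul_eq_mul]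
  have hV2 : h '' {w | f w - f z = h w ^ n ∧ w ∈ U} ∈ 𝓝 (0 : ℂ) := by
    rw [← hhz]
    exact hopen (image_mem_map hV)
  set ζ : ℂ := Complex.exp (2 * π * Complex.I / n) with hζ
  have hprim : IsPrimitiveRoot ζ n := Complex.isPrimitiveRoot_exp n hn0
  have hV3 : ∀ᶠ x in 𝓝 (0 : ℂ), ζ * x ∈ h '' {w | f w - f z = h w ^ n ∧ w ∈ U} := by
    have hcont : Tendsto (fun x : ℂ => ζ * x) (𝓝 0) (𝓝 0) := by
      have : Tendsto (fun x : ℂ => ζ * x) (𝓝 0) (𝓝 (ζ * 0)) :=
        tendsto_const_nhds.mul tendsto_id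
      simpa using this
    exact hcont hV2
  have h1 : ∀ᶠ x in 𝓝[≠] (0 : ℂ), (x ∈ h '' {w | f w - f z = h w ^ n ∧ w ∈ U} ∧
      ζ * x ∈ h '' {w | f w - f z = h w ^ n ∧ w ∈ U}) ∧ x ≠ 0 :=
    (((show ∀ᶠ x in 𝓝 (0 : ℂ), x ∈ h '' {w | f w - f z = h w ^ n ∧ w ∈ U} from hV2).and
      hV3).filter_mono nhdsWithin_le_nhds).and self_mem_nhdsWithin
  obtain ⟨x, ⟨⟨w1, ⟨h11, h12⟩, h13⟩, ⟨w2, ⟨h21, h22⟩, h23⟩⟩, hx⟩ := h1.exists
  have he : f w1 = f w2 := by
    have : f w1 - f z = f w2 - f z := by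
      rw [h11, h21, h13, h23, mul_pow, hprim.pow_eq_one, one_mul]
    linear_combination this
  have he2 : w1 = w2 := hi h12 h22 he
  have : x = ζ * x := by rw [← h23, ← he2, h13]
  have hz1 : ζ = 1 := by
    have : (ζ - 1) * x = 0 := by linear_combination -this
    rcases mul_eq_zero.mp this with h | h
    · exact sub_eq_zero.mp h
    · exact absurd h hx
  exact hprim.ne_one hn hz1

end Vale.Agent.P142
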