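import Vale.Agent.P142.Defs
import Vale.Agent.P142.Dnz

open Metric Set MeasureTheory Filter Topology Finset
open scoped Real Polynomial

namespace Vale.Agent.P142

namespace WindAux

/-- Cauchy. -/
theorem cauchy {g : ℂ → ℂ} {R : ℝ} (hR : 0 < R)
    (hg : ∀ x ∈ closedBall (0 : ℂ) R, DifferentiableAt ℂ g x) : (∮ x in C(0, R), g x) = 0 :=
  Complex.circleIntegral_eq_zero_of_differentiable_on_off_countable hR.le countable_empty
    (fun x hx => (hg x hx).continuousAt.continuousWithinAt)
    (fun x hx => hg x (ball_subset_closedBall hx.1))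

theorem mem_of_closedBall {R : ℝ} (hR1 : R < 1) {x : ℂ} (hx : x ∈ closedBall (0 : ℂ) R) :
    x ∈ ball (0 : ℂ) 1 := closedBall_subset_ball hR1 hx

theorem log_cauchy {g : ℂ → ℂ} (hg : DifferentiableOn ℂ g (ball 0 1)) {R : ℝ} (hR : 0 < R)
    (hR1 : R < 1) (h0 : ∀ x ∈ closedBall (0 : ℂ) R, g x ≠ 0) :
    (∮ x in C(0, R), deriv g x / g x) = 0 := by
  refine cauchy hR (fun x hx => ?_)
  have hx1 : ball (0 : ℂ) 1 ∈ 𝓝 x := isOpen_ball.mem_nhds (mem_of_closedBall hR1 hx)
  exact ((hg.deriv isOpen_ball).differentiableAt hx1).div (hg.differentiableAt hx1) (h0 x hx)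

/-- the logarithmic integrand is circle integrable -/
theorem cint {A : Set ℂ} (hA : IsOpen A) {R : ℝ} (hR : 0 ≤ R) (hs : sphere (0 : ℂ) R ⊆ A)
    {F : ℂ → ℂ} (hF : DifferentiableOn ℂ F A) (hF0 : ∀ x ∈ sphere (0 : ℂ) R, F x ≠ 0) :
    CircleIntegrable (fun x => deriv F x / F x) 0 R := by
  refine ContinuousOn.circleIntegrable hR ?_
  exact ((hF.deriv hA).continuousOn.mono hs).div (hF.continuousOn.mono hs) hF0

theorem log_mul {A : Set ℂ} (hA : IsOpen A) {R : ℝ} (hR : 0 ≤ R) (hs : sphere (0 : ℂ) R ⊆ A)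
    {F G : ℂ → ℂ} (hF : DifferentiableOn ℂ F A) (hG : DifferentiableOn ℂ G A)
    (hF0 : ∀ x ∈ sphere (0 : ℂ) R, F x ≠ 0) (hG0 : ∀ x ∈ sphere (0 : ℂ) R, G x ≠ 0) :
    (∮ x in C(0, R), deriv (fun y => F y * G y) x / (F x * G x)) =
      (∮ x in C(0, R), deriv F x / F x) + ∮ x in C(0, R), deriv G x / G x := by
  rw [← circleIntegral.integral_add (cint hA hR hs hF hF0) (cint hA hR hs hG hG0)]
  refine circleIntegral.integral_congr hR (fun x hx => ?_)
  have hxA : A ∈ 𝓝 x := hA.mem_nhds (hs hx)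
  have hd : deriv (fun y => F y * G y) x = deriv F x * G x + F x * deriv G x :=
    deriv_fun_mul (hF.differentiableAt hxA) (hG.differentiableAt hxA)
  have h1 := hF0 x hx
  have h2 := hG0 x hx
  simp only [hd]
  field_simp

end WindAux

open WindAux

/-- value attained: integral of `f'/(f - a)` is `2 pi i` (for `a = f x0`, `|x0| < R`) and `0`
if `a` is not attained in the closed disc. -/
theorem wind {f : ℂ → ℂ} (hf : DifferentiableOn ℂ f (ball 0 1)) (hi : InjOn f (ball 0 1))
    {R : ℝ} (hR : 0 < R) (hR1 : R < 1) {a : ℂ} (ha : ∀ x ∈ sphere (0 : ℂ) R, f x ≠ a) :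
    ((∃ x ∈ ball (0 : ℂ) R, f x = a) ∧
        (∮ x in C(0, R), deriv f x / (f x - a)) = 2 * π * Complex.I) ∨
      ((∀ x ∈ closedBall (0 : ℂ) R, f x ≠ a) ∧ (∮ x in C(0, R), deriv f x / (f x - a)) = 0) := by
  by_cases h : ∃ x ∈ ball (0 : ℂ) R, f x = a
  · left
    refine ⟨h, ?_⟩
    obtain ⟨x0, hx0, rfl⟩ := h
    have hx01 : x0 ∈ ball (0 : ℂ) 1 := ball_subset_ball hR1.le hx0
    have hx0n : ball (0 : ℂ) 1 ∈ 𝓝 x0 := isOpen_ball.mem_nhds hx01
    set g : ℂ → ℂ := dslope f x0 with hg
    have hgd : DifferentiableOn ℂ g (ball 0 1) := (Complex.differentiableOn_dslope hx0n).mpr hf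
    have hg0 : ∀ x ∈ ball (0 : ℂ) 1, g x ≠ 0 := by
      intro x hx
      by_cases hxx : x = x0
      · rw [hxx, hg, dslope_same]
        exact deriv_ne_zero isOpen_ball hf hi hx01
      · rw [hg, dslope_of_ne _ hxx, slope_def_field]
        exact div_ne_zero (sub_ne_zero.mpr fun he => hxx (hi hx hx01 he)) (sub_ne_zero.mpr hxx)
    have hfe : ∀ y, f y - f x0 = (y - x0) * g y := by
      intro y
      have := sub_smul_dslope f x0 y
      rw [smul_eq_mul] at this
      exact this.symm
    have hsub : sphere (0 : ℂ) R ⊆ ball (0 : ℂ) 1 :=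
      sphere_subset_closedBall.trans (closedBall_subset_ball hR1)
    have hne : ∀ x ∈ sphere (0 : ℂ) R, x - x0 ≠ 0 := by
      intro x hx hxe
      rw [sub_eq_zero] at hxe
      rw [hxe] at hx
      rw [mem_sphere] at hx
      rw [mem_ball] at hx0
      linarith
    have hcongr : (∮ x in C(0, R), deriv f x / (f x - f x0)) =
        ∮ x in C(0, R), ((x - x0)⁻¹ + deriv g x / g x) := by
      refine circleIntegral.integral_congr hR.le (fun x hx => ?_)
      have hx1 : ball (0 : ℂ) 1 ∈ 𝓝 x := isOpen_ball.mem_nhds (hsub hx)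
      have hd : HasDerivAt f (g x + (x - x0) * deriv g x) x := by
        have h1 := (((hasDerivAt_id x).sub_const x0).fun_mul
          (hgd.differentiableAt hx1).hasDerivAt).add_const (f x0)
        have h2 : (fun y => (id y - x0) * g y + f x0) = f := by
          funext y
          have := hfe y
          simp only [id]
          linear_combination -this
        rw [h2] at h1
        simpa using h1
      have h3 := hg0 x (hsub hx)
      have h4 := hne x hx
      simp only [hd.deriv, hfe]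
      field_simp
    rw [hcongr, circleIntegral.integral_add]
    · rw [circleIntegral.integral_sub_inv_of_mem_ball hx0,
        log_cauchy hgd hR hR1 (fun x hx => hg0 x (mem_of_closedBall hR1 hx)), add_zero]
    · refine ContinuousOn.circleIntegrable hR.le ?_
      exact (continuousOn_id.sub continuousOn_const).inv₀ hne
    · exact cint isOpen_ball hR.le hsub hgd (fun x hx => hg0 x (hsub hx))
  · right
    push Not at h
    have h2 : ∀ x ∈ closedBall (0 : ℂ) R, f x ≠ a := by
      intro x hx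
      rcases (mem_closedBall.mp hx).lt_or_eq with h3 | h3
      · exact h x (mem_ball.mpr h3)
      · exact ha x (mem_sphere.mpr h3)
    refine ⟨h2, ?_⟩
    have h3 := log_cauchy (g := fun y => f y - a) (hf.sub_const a) hR hR1
      (fun x hx => sub_ne_zero.mpr (h2 x hx))
    simpa using h3

namespace WindAux

variable {f : ℂ → ℂ} {R : ℝ}

theorem f_ne_zero (hi : InjOn f (ball 0 1)) (h0 : f 0 = 0) {x : ℂ}
    (hx : x ∈ ball (0 : ℂ) 1 \ {0}) : f x ≠ 0 := by
  intro h
  exact hx.2 (hi hx.1 (mem_ball_self one_pos) (by rw [h, h0]))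

theorem isOpen_pb : IsOpen (ball (0 : ℂ) 1 \ {0}) := isOpen_ball.sdiff isClosed_singleton

theorem sphere_sub (hR : 0 < R) (hR1 : R < 1) : sphere (0 : ℂ) R ⊆ ball (0 : ℂ) 1 \ {0} := by
  intro x hx
  refine ⟨sphere_subset_closedBall.trans (closedBall_subset_ball hR1) hx, ?_⟩
  rintro rfl
  rw [mem_sphere, dist_self] at hx
  exact hR.ne hx

theorem inv_diff (hf : DifferentiableOn ℂ f (ball 0 1)) (hi : InjOn f (ball 0 1))
    (h0 : f 0 = 0) : DifferentiableOn ℂ (fun y => (f y)⁻¹) (ball (0 : ℂ) 1 \ {0}) :=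
  (hf.mono sdiff_subset).inv (fun _ hx => f_ne_zero hi h0 hx)

theorem eval_diff (hf : DifferentiableOn ℂ f (ball 0 1)) (hi : InjOn f (ball 0 1))
    (h0 : f 0 = 0) (Q : ℂ[X]) :
    DifferentiableOn ℂ (fun y => Q.eval (f y)⁻¹) (ball (0 : ℂ) 1 \ {0}) :=
  Q.differentiable.comp_differentiableOn (inv_diff hf hi h0)

theorem wind_zero (hf : DifferentiableOn ℂ f (ball 0 1)) (hi : InjOn f (ball 0 1))
    (h0 : f 0 = 0) (hR : 0 < R) (hR1 : R < 1) :
    (∮ x in C(0, R), deriv f x / f x) = 2 * π * Complex.I := by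
  have h1 := wind hf hi hR hR1 (a := 0)
    (fun x hx => f_ne_zero hi h0 (sphere_sub hR hR1 hx))
  simp only [sub_zero] at h1
  rcases h1 with h1 | h1
  · exact h1.2
  · exact absurd h0 (h1.1 0 (mem_closedBall_self hR.le))

theorem wind_lin (hf : DifferentiableOn ℂ f (ball 0 1)) (hi : InjOn f (ball 0 1))
    (h0 : f 0 = 0) (hR : 0 < R) (hR1 : R < 1) (t : ℂ)
    (ht : ∀ x ∈ sphere (0 : ℂ) R, (f x)⁻¹ - t ≠ 0) :
    ∃ k : ℕ, (∮ x in C(0, R), deriv (fun y => (f y)⁻¹ - t) x / ((f x)⁻¹ - t)) =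
      -(2 * π * Complex.I) * k := by
  have hfs : ∀ x ∈ sphere (0 : ℂ) R, f x ≠ 0 := fun x hx =>
    f_ne_zero hi h0 (sphere_sub hR hR1 hx)
  have hsub : sphere (0 : ℂ) R ⊆ ball (0 : ℂ) 1 :=
    sphere_subset_closedBall.trans (closedBall_subset_ball hR1)
  have hd : ∀ x ∈ sphere (0 : ℂ) R,
      deriv (fun y => (f y)⁻¹ - t) x = -deriv f x / f x ^ 2 := by
    intro x hx
    have hx1 : ball (0 : ℂ) 1 ∈ 𝓝 x := isOpen_ball.mem_nhds (hsub hx)
    exact (((hf.differentiableAt hx1).hasDerivAt.fun_inv (hfs x hx)).sub_const t).deriv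
  have hci : ∀ a : ℂ, (∀ x ∈ sphere (0 : ℂ) R, f x - a ≠ 0) →
      CircleIntegrable (fun x => deriv f x / (f x - a)) 0 R := by
    intro a ha
    refine ContinuousOn.circleIntegrable hR.le ?_
    exact ((hf.deriv isOpen_ball).continuousOn.mono hsub).div
      ((hf.continuousOn.mono hsub).sub continuousOn_const) ha
  by_cases ht0 : t = 0
  · refine ⟨1, ?_⟩
    have h1 : (∮ x in C(0, R), deriv (fun y => (f y)⁻¹ - t) x / ((f x)⁻¹ - t)) =
        ∮ x in C(0, R), (-1 : ℂ) * (deriv f x / f x) := by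
      refine circleIntegral.integral_congr hR.le (fun x hx => ?_)
      have h2 := hfs x hx
      show deriv (fun y => (f y)⁻¹ - t) x / ((f x)⁻¹ - t) = -1 * (deriv f x / f x)
      rw [hd x hx, ht0]
      field_simp
      ring
    rw [h1, circleIntegral.integral_const_mul, wind_zero hf hi h0 hR hR1]
    push_cast
    ring
  · have hta : ∀ x ∈ sphere (0 : ℂ) R, f x ≠ t⁻¹ := by
      intro x hx he
      apply ht x hx
      rw [he]
      simp
    have h1 : (∮ x in C(0, R), deriv (fun y => (f y)⁻¹ - t) x / ((f x)⁻¹ - t)) =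
        ∮ x in C(0, R), ((deriv f x / (f x - t⁻¹)) - (deriv f x / (f x - 0))) := by
      refine circleIntegral.integral_congr hR.le (fun x hx => ?_)
      have h2 := hfs x hx
      have h3 : f x - t⁻¹ ≠ 0 := sub_ne_zero.mpr (hta x hx)
      have h4 : (f x)⁻¹ - t ≠ 0 := ht x hx
      have h5 : 1 - t * f x ≠ 0 := by
        intro h
        apply h4
        field_simp
        linear_combination h
      have h6 : (f x)⁻¹ - t = (1 - t * f x) / f x := by field_simp
      have h7 : f x - t⁻¹ = -(1 - t * f x) / t := by field_simp; ring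
      simp only [hd x hx, sub_zero]
      rw [h6, h7]
      generalize hu : 1 - t * f x = u at h5
      have hu2 : t * f x = 1 - u := by rw [← hu]; ring
      field_simp
      linear_combination (deriv f x) * hu2
    rw [h1, circleIntegral.integral_sub (hci _ fun x hx => sub_ne_zero.mpr (hta x hx))
      (hci 0 fun x hx => by simpa using hfs x hx)]
    simp only [sub_zero]
    rw [wind_zero hf hi h0 hR hR1]
    rcases wind hf hi hR hR1 hta with h2 | h2
    · exact ⟨0, by rw [h2.2]; simp⟩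
    · exact ⟨1, by rw [h2.2]; simp⟩

end WindAux

/-- Any nonconstant or constant polynomial in `1/f`: the winding number is nonpositive. -/
theorem windP {f : ℂ → ℂ} (hf : DifferentiableOn ℂ f (ball 0 1)) (hi : InjOn f (ball 0 1))
    (h0 : f 0 = 0) {R : ℝ} (hR : 0 < R) (hR1 : R < 1) (Q : ℂ[X])
    (hQ : ∀ x ∈ sphere (0 : ℂ) R, Q.eval (f x)⁻¹ ≠ 0) :
    ∃ k : ℕ, (∮ x in C(0, R), deriv (fun y => Q.eval (f y)⁻¹) x / Q.eval (f x)⁻¹) =
      -(2 * π * Complex.I) * k := by
  have key : ∀ (s : Multiset ℂ) (c : ℂ), (∀ x ∈ sphere (0 : ℂ) R,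
      (Polynomial.C c * (s.map fun a => Polynomial.X - Polynomial.C a).prod).eval (f x)⁻¹ ≠ 0) →
      ∃ k : ℕ, (∮ x in C(0, R), deriv (fun y =>
        (Polynomial.C c * (s.map fun a => Polynomial.X - Polynomial.C a).prod).eval (f y)⁻¹) x /
        (Polynomial.C c * (s.map fun a => Polynomial.X - Polynomial.C a).prod).eval (f x)⁻¹) =
      -(2 * π * Complex.I) * k := by
    intro s
    induction s using Multiset.induction_on with
    | empty =>
      intro c _
      refine ⟨0, ?_⟩
      simp [circleIntegral]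
    | cons t s ih =>
      intro c hc
      have he : (Polynomial.C c * ((t ::ₘ s).map fun a => Polynomial.X - Polynomial.C a).prod) =
          (Polynomial.X - Polynomial.C t) *
            (Polynomial.C c * (s.map fun a => Polynomial.X - Polynomial.C a).prod) := by
        rw [Multiset.map_cons, Multiset.prod_cons]
        ring
      rw [he] at hc ⊢
      simp only [Polynomial.eval_mul (p := Polynomial.X - Polynomial.C t)] at hc ⊢
      have hl : ∀ y, (Polynomial.X - Polynomial.C t).eval (f y)⁻¹ = (f y)⁻¹ - t := by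
        intro y
        simp
      have hc1 : ∀ x ∈ sphere (0 : ℂ) R, (f x)⁻¹ - t ≠ 0 := by
        intro x hx
        have := left_ne_zero_of_mul (hc x hx)
        rwa [hl] at this
      obtain ⟨k1, hk1⟩ := wind_lin hf hi h0 hR hR1 t hc1
      obtain ⟨k2, hk2⟩ := ih c (fun x hx => right_ne_zero_of_mul (hc x hx))
      refine ⟨k1 + k2, ?_⟩
      rw [log_mul isOpen_pb hR.le (sphere_sub hR hR1) (eval_diff hf hi h0 _)
        (eval_diff hf hi h0 _) (fun x hx => left_ne_zero_of_mul (hc x hx))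
        (fun x hx => right_ne_zero_of_mul (hc x hx)), hk2]
      simp only [hl]
      rw [hk1]
      push_cast
      ring
  have hQe := (IsAlgClosed.splits Q).eq_prod_roots
  have h1 := key Q.roots Q.leadingCoeff
  rw [← hQe] at h1
  exact h1 hQ

end Vale.Agent.P142
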