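import Vale.Agent.P142.Defs
import Vale.Agent.P142.Dnz
import Vale.Agent.P142.Wind
import Vale.Agent.P142.Ct

open Metric Set MeasureTheory Filter Topology Finset
open scoped Real Polynomial

namespace Vale.Agent.P142

namespace Area0Aux

theorem null_image {A : Set ℂ} {G : ℂ → ℂ} {R : ℝ} (hs : sphere (0 : ℂ) R ⊆ A)
    (hR : 0 < R) (hG : DifferentiableOn ℂ G A) : volume (G '' sphere (0 : ℂ) R) = 0 := by
  refine addHaar_image_eq_zero_of_differentiableOn_of_addHaar_eq_zero volume ?_ ?_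
  · exact (hG.mono hs).restrictScalars ℝ
  · exact Measure.addHaar_sphere_of_ne_zero volume (0 : ℂ) hR.ne'

/-- Abstract form. -/
theorem main {A : Set ℂ} {G : ℂ → ℂ} {R : ℝ} (hA : IsOpen A) (hs : sphere (0 : ℂ) R ⊆ A)
    (hR : 0 < R) (hG : DifferentiableOn ℂ G A)
    (hw : ∀ c : ℂ, (∀ x ∈ sphere (0 : ℂ) R, G x ≠ c) →
      ∃ k : ℕ, (∮ x in C(0, R), deriv G x / (G x - c)) = -(2 * π * Complex.I) * k) :
    ∃ y : ℝ, y ≤ 0 ∧
      (∮ x in C(0, R), (starRingEnd ℂ) (G x) * deriv G x) = 2 * π * Complex.I * y := by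
  have hGc : ContinuousOn G (sphere (0 : ℂ) R) := hG.continuousOn.mono hs
  have hG'c : ContinuousOn (deriv G) (sphere (0 : ℂ) R) := (hG.deriv hA).continuousOn.mono hs
  set γ : ℝ → ℂ := circleMap 0 R with hγ
  have hγs : ∀ θ, γ θ ∈ sphere (0 : ℂ) R := fun θ => circleMap_mem_sphere 0 hR.le θ
  have hγc : Continuous γ := continuous_circleMap 0 R
  have hGγ : Continuous (fun θ => G (γ θ)) := hGc.comp_continuous hγc hγs
  have hG'γ : Continuous (fun θ => deriv G (γ θ)) := hG'c.comp_continuous hγc hγs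
  have hdγ : Continuous (deriv γ) := by
    rw [hγ]
    have : deriv (circleMap 0 R) = fun θ => circleMap 0 R θ * Complex.I := by
      funext θ
      exact deriv_circleMap 0 R θ
    rw [this]
    exact (continuous_circleMap 0 R).mul continuous_const
  obtain ⟨M0, hM0⟩ := (isCompact_sphere (0 : ℂ) R).exists_bound_of_continuousOn hGc
  set M : ℝ := |M0| + 1 with hM
  have hMpos : 0 < M := by positivity
  have hGM : ∀ θ, ‖G (γ θ)‖ < M := by
    intro θ
    have := hM0 _ (hγs θ)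
    have h2 := le_abs_self M0
    linarith
  set w : ℝ → ℂ := fun θ => deriv γ θ * deriv G (γ θ) with hw'
  have hwc : Continuous w := hdγ.mul hG'γ
  obtain ⟨W, hW⟩ := (isCompact_Icc (a := (0 : ℝ)) (b := 2 * π)).exists_bound_of_continuousOn
    hwc.continuousOn
  set μ : Measure ℝ := volume.restrict (Ioc 0 (2 * π)) with hμ
  set ν : Measure ℂ := volume.restrict (ball (0 : ℂ) M) with hν
  set H : ℝ × ℂ → ℂ := fun p => w p.1 * (G (γ p.1) - p.2)⁻¹ with hH
  have hHm : Measurable H := by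
    refine (hwc.measurable.comp measurable_fst).mul ?_
    exact ((hGγ.measurable.comp measurable_fst).sub measurable_snd).inv
  have hHi : Integrable H (μ.prod ν) := by
    rw [integrable_prod_iff hHm.aestronglyMeasurable]
    refine ⟨Eventually.of_forall fun θ => ?_, ?_⟩
    · exact (ct_integrable (F := G (γ θ)) (M := M)).const_mul (w θ)
    · refine Integrable.mono' (g := fun _ => |W| * (4 * π * M)) (integrable_const _)
        hHm.norm.aestronglyMeasurable.integral_prod_right' ?_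
      have h1 : ∀ᵐ θ ∂μ, θ ∈ Ioc 0 (2 * π) := ae_restrict_mem measurableSet_Ioc
      filter_upwards [h1] with θ hθ
      rw [Real.norm_of_nonneg (integral_nonneg fun _ => norm_nonneg _)]
      simp only [hH, norm_mul]
      rw [integral_const_mul]
      refine mul_le_mul ((hW θ ⟨hθ.1.le, hθ.2⟩).trans (le_abs_self W)) ?_
        (integral_nonneg fun _ => norm_nonneg _) (abs_nonneg W)
      exact ct_norm_bound (hGM θ)
  have hswap : ∫ θ, ∫ c, H (θ, c) ∂ν ∂μ = ∫ c, ∫ θ, H (θ, c) ∂μ ∂ν :=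
    integral_integral_swap hHi
  have hinner : ∀ θ, ∫ c, H (θ, c) ∂ν = π * (w θ * (starRingEnd ℂ) (G (γ θ))) := by
    intro θ
    simp only [hH]
    rw [integral_const_mul, hν, ct (hGM θ)]
    ring
  have hpi : (π : ℂ) ≠ 0 := by exact_mod_cast Real.pi_ne_zero
  have hLHS : (∮ x in C(0, R), (starRingEnd ℂ) (G x) * deriv G x) =
      (π : ℂ)⁻¹ * ∫ c, ∫ θ, H (θ, c) ∂μ ∂ν := by
    rw [← hswap]
    simp only [hinner]
    rw [integral_const_mul, ← mul_assoc, inv_mul_cancel₀ hpi, one_mul, circleIntegral,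
      intervalIntegral.integral_of_le Real.two_pi_pos.le]
    refine integral_congr_ae (Eventually.of_forall fun θ => ?_)
    simp only [smul_eq_mul, hw', ← hγ]
    ring
  have hI : ∀ c, ∫ θ, H (θ, c) ∂μ = ∮ x in C(0, R), deriv G x / (G x - c) := by
    intro c
    rw [circleIntegral, intervalIntegral.integral_of_le Real.two_pi_pos.le]
    refine integral_congr_ae (Eventually.of_forall fun θ => ?_)
    simp only [smul_eq_mul, hw', ← hγ, hH]
    ring
  have hae : ∀ᵐ c ∂ν, ∃ k : ℕ, ∫ θ, H (θ, c) ∂μ = -(2 * π * Complex.I) * k := by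
    have h1 : ∀ᵐ c ∂(volume : Measure ℂ), c ∉ G '' sphere (0 : ℂ) R :=
      measure_eq_zero_iff_ae_notMem.mp (null_image hs hR hG)
    have h2 : ∀ᵐ c ∂ν, c ∉ G '' sphere (0 : ℂ) R := ae_restrict_of_ae h1
    filter_upwards [h2] with c hc
    rw [hI c]
    exact hw c (fun x hx he => hc ⟨x, hx, he⟩)
  set κ : ℂ → ℝ := fun c => ((∫ θ, H (θ, c) ∂μ) / (2 * π * Complex.I)).re with hκ
  have hne : (2 * π * Complex.I : ℂ) ≠ 0 := by
    simp [Complex.I_ne_zero, Real.pi_ne_zero]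
  have hae2 : ∀ᵐ c ∂ν, κ c ≤ 0 ∧ ∫ θ, H (θ, c) ∂μ = (2 * π * Complex.I) * ((κ c : ℝ) : ℂ) := by
    filter_upwards [hae] with c hc
    obtain ⟨k, hk⟩ := hc
    have h1 : (∫ θ, H (θ, c) ∂μ) / (2 * π * Complex.I) = ((-(k : ℝ) : ℝ) : ℂ) := by
      rw [hk]
      push_cast
      field_simp
    have h2 : κ c = -(k : ℝ) := by
      simp only [hκ]
      rw [h1, Complex.ofReal_re]
    refine ⟨by rw [h2]; simp, ?_⟩
    rw [h2, ← h1]
    field_simp
  refine ⟨π⁻¹ * ∫ c, κ c ∂ν, ?_, ?_⟩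
  · refine mul_nonpos_of_nonneg_of_nonpos (by positivity) ?_
    refine integral_nonpos_of_ae ?_
    filter_upwards [hae2] with c hc using hc.1
  · rw [hLHS]
    have h1 : ∫ c, ∫ θ, H (θ, c) ∂μ ∂ν = ∫ c, (2 * π * Complex.I) * ((κ c : ℝ) : ℂ) ∂ν := by
      refine integral_congr_ae ?_
      filter_upwards [hae2] with c hc using hc.2
    rw [h1, integral_const_mul, integral_complex_ofReal]
    push_cast
    ring

end Area0Aux

theorem area0 {f : ℂ → ℂ} (hf : DifferentiableOn ℂ f (ball 0 1)) (hi : InjOn f (ball 0 1))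
    (h0 : f 0 = 0) {R : ℝ} (hR : 0 < R) (hR1 : R < 1) (Q : ℂ[X]) :
    ∃ y : ℝ, y ≤ 0 ∧
      (∮ x in C(0, R), (starRingEnd ℂ) (Q.eval (f x)⁻¹) * deriv (fun y => Q.eval (f y)⁻¹) x) =
        2 * π * Complex.I * y := by
  refine Area0Aux.main WindAux.isOpen_pb (WindAux.sphere_sub hR hR1) hR
    (WindAux.eval_diff hf hi h0 Q) ?_
  intro c hc
  obtain ⟨k, hk⟩ := windP hf hi h0 hR hR1 (Q - Polynomial.C c) (by
    intro x hx
    simp only [Polynomial.eval_sub, Polynomial.eval_C]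
    exact sub_ne_zero.mpr (hc x hx))
  refine ⟨k, ?_⟩
  rw [← hk]
  simp only [Polynomial.eval_sub, Polynomial.eval_C, deriv_sub_const]

end Vale.Agent.P142
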