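import Vale.Agent.P142.Pars
import Vale.Agent.P142.Area0

open Metric Set MeasureTheory Filter Topology Finset
open scoped Real Polynomial

namespace Vale.Agent.P142

theorem area_R {f : ℂ → ℂ} (hf : DifferentiableOn ℂ f (ball 0 1)) (hi : InjOn f (ball 0 1))
    (h0 : f 0 = 0) (Q : ℂ[X]) (n : ℕ) (K : ℂ → ℂ) (hK : DifferentiableOn ℂ K (ball 0 1))
    (hKQ : ∀ x ∈ ball (0 : ℂ) 1, x ≠ 0 → K x = x ^ (n + 1) * Q.eval (f x)⁻¹) (J : ℕ)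
    {R : ℝ} (hR : 0 < R) (hR1 : R < 1) :
    ∑ i ∈ range (n + 1 + J), (((i : ℤ) - n - 1 : ℤ) : ℝ) * ‖tc K i‖ ^ 2 *
        R ^ (2 * ((i : ℤ) - n - 1)) ≤ 0 := by
  obtain ⟨y, hy, hint⟩ := area0 hf hi h0 hR hR1 Q
  have h1 := pars hK hR hR1 n
  have hev : ∀ x : ℂ, x ∈ sphere (0 : ℂ) R →
      (starRingEnd ℂ) (K x / x ^ (n + 1)) * deriv (fun y => K y / y ^ (n + 1)) x =
      (starRingEnd ℂ) (Q.eval (f x)⁻¹) * deriv (fun y => Q.eval (f y)⁻¹) x := by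
    intro x hx
    have hxn : ‖x‖ = R := by simpa using hx
    have hx0 : x ≠ 0 := by
      intro h; rw [h, norm_zero] at hxn; exact hR.ne hxn
    have hxb : x ∈ ball (0 : ℂ) 1 := by simpa [hxn] using hR1
    have h2 : ∀ z ∈ ball (0 : ℂ) 1, z ≠ 0 → K z / z ^ (n + 1) = Q.eval (f z)⁻¹ := by
      intro z hz hz0
      rw [hKQ z hz hz0, mul_div_cancel_left₀ _ (pow_ne_zero _ hz0)]
    have h3 : (fun y => K y / y ^ (n + 1)) =ᶠ[𝓝 x] (fun y => Q.eval (f y)⁻¹) := by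
      filter_upwards [isOpen_ball.mem_nhds hxb, isOpen_compl_singleton.mem_nhds hx0] with z hz hz0
      exact h2 z hz hz0
    rw [h3.deriv_eq, h2 x hxb hx0]
  rw [circleIntegral.integral_congr hR.le hev, hint] at h1
  have hpi : (π : ℂ) ≠ 0 := by exact_mod_cast Real.pi_ne_zero
  rw [← mul_assoc, inv_mul_cancel₀ (by simp [hpi, Complex.I_ne_zero]), one_mul] at h1
  have h4 := Complex.hasSum_ofReal.mp h1
  refine (sum_le_hasSum (range (n + 1 + J)) (fun i hi => ?_) h4).trans hy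
  have hi' : n + 1 + J ≤ i := by simpa using hi
  have h5 : (0 : ℝ) ≤ (((i : ℤ) - n - 1 : ℤ) : ℝ) := by
    exact_mod_cast (by omega : (0 : ℤ) ≤ (i : ℤ) - n - 1)
  positivity

theorem area {f : ℂ → ℂ} (hf : DifferentiableOn ℂ f (ball 0 1)) (hi : InjOn f (ball 0 1))
    (h0 : f 0 = 0) (Q : ℂ[X]) (n : ℕ) (K : ℂ → ℂ) (hK : DifferentiableOn ℂ K (ball 0 1))
    (hKQ : ∀ x ∈ ball (0 : ℂ) 1, x ≠ 0 → K x = x ^ (n + 1) * Q.eval (f x)⁻¹) (J : ℕ) :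
    ∑ j ∈ range J, (j : ℝ) * ‖tc K (n + 1 + j)‖ ^ 2 ≤
      ∑ k ∈ range (n + 1), ((k : ℝ) + 1) * ‖tc K (n - k)‖ ^ 2 := by
  have hlim : Tendsto (fun R : ℝ => ∑ i ∈ range (n + 1 + J), (((i : ℤ) - n - 1 : ℤ) : ℝ) *
      ‖tc K i‖ ^ 2 * R ^ (2 * ((i : ℤ) - n - 1))) (𝓝[<] 1)
      (𝓝 (∑ i ∈ range (n + 1 + J), (((i : ℤ) - n - 1 : ℤ) : ℝ) *
      ‖tc K i‖ ^ 2 * (1 : ℝ) ^ (2 * ((i : ℤ) - n - 1)))) := by
    refine tendsto_finsetSum _ fun i _ => ?_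
    refine Tendsto.const_mul _ ?_
    exact ((continuousAt_zpow₀ (1 : ℝ) _ (Or.inl one_ne_zero)).tendsto).mono_left
      nhdsWithin_le_nhds
  have hev : ∀ᶠ R : ℝ in 𝓝[<] 1, ∑ i ∈ range (n + 1 + J), (((i : ℤ) - n - 1 : ℤ) : ℝ) *
      ‖tc K i‖ ^ 2 * R ^ (2 * ((i : ℤ) - n - 1)) ≤ 0 := by
    have h1 : Ioo (0 : ℝ) 1 ∈ 𝓝[<] (1 : ℝ) := Ioo_mem_nhdsLT one_pos
    filter_upwards [h1] with R hR
    exact area_R hf hi h0 Q n K hK hKQ J hR.1 hR.2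
  have h2 := le_of_tendsto hlim hev
  rw [sum_range_add] at h2
  simp only [one_zpow, mul_one] at h2
  have h3 : ∑ i ∈ range (n + 1), (((i : ℤ) - n - 1 : ℤ) : ℝ) * ‖tc K i‖ ^ 2 =
      -∑ k ∈ range (n + 1), ((k : ℝ) + 1) * ‖tc K (n - k)‖ ^ 2 := by
    rw [← sum_range_reflect, ← sum_neg_distrib]
    refine sum_congr rfl fun k hk => ?_
    have hk' : k ≤ n := by simpa [Nat.lt_succ_iff] using hk
    have h4 : n + 1 - 1 - k = n - k := by omega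
    rw [h4]
    push_cast [Nat.cast_sub hk']
    ring
  have h4 : ∑ x ∈ range J, ((((n + 1 + x : ℕ) : ℤ) - n - 1 : ℤ) : ℝ) * ‖tc K (n + 1 + x)‖ ^ 2 =
      ∑ j ∈ range J, (j : ℝ) * ‖tc K (n + 1 + j)‖ ^ 2 := by
    refine sum_congr rfl fun k hk => ?_
    push_cast
    ring
  rw [h3, h4] at h2
  linarith

end Vale.Agent.P142
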