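import Vale.Agent.P142.Defs

open Metric Set MeasureTheory Filter Topology Finset
open scoped Real Polynomial

namespace Vale.Agent.P142

theorem Mt_nonneg (f : ℂ → ℂ) (t r : ℝ) : 0 ≤ Mt f t r := by
  unfold Mt
  refine mul_nonneg (by positivity) ?_
  refine intervalIntegral.integral_nonneg (by linarith [Real.pi_pos]) fun θ _ => ?_
  exact Real.rpow_nonneg (norm_nonneg _) _

theorem tendsto_log_one_div : Tendsto (fun r : ℝ => Real.log (1 / (1 - r))) (𝓝[<] 1) atTop := by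
  have h1 : Tendsto (fun r : ℝ => 1 - r) (𝓝[<] 1) (𝓝[>] 0) := by
    refine tendsto_nhdsWithin_iff.2 ⟨?_, ?_⟩
    · have : Tendsto (fun r : ℝ => 1 - r) (𝓝 1) (𝓝 (1 - 1)) := tendsto_const_nhds.sub tendsto_id
      rw [sub_self] at this
      exact this.mono_left nhdsWithin_le_nhds
    · filter_upwards [self_mem_nhdsWithin] with r hr
      exact sub_pos.2 (Set.mem_Iio.1 hr)
  have h2 : Tendsto (fun r : ℝ => 1 / (1 - r)) (𝓝[<] 1) atTop := by
    simp only [one_div]
    exact tendsto_inv_nhdsGT_zero.comp h1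
  exact Real.tendsto_log_atTop.comp h2

/-! ### [BETA] -/

theorem beta_le {f : ℂ → ℂ} (_hf : DifferentiableOn ℂ f (ball 0 1)) (_hi : InjOn f (ball 0 1))
    {C : ℝ} (hC : 0 < C)
    (h : ∀ r : ℝ, 0 ≤ r → r < 1 → Mt f (-2) r ≤ C * (1 - r) ^ (-(9 / 8 : ℝ))) :
    betaf f (-2) ≤ ((9 / 8 : ℝ) : EReal) := by
  unfold betaf
  have hl := tendsto_log_one_div
  have h1 : Tendsto (fun r : ℝ => ((9 / 8 + |Real.log C| / Real.log (1 / (1 - r)) : ℝ) : EReal))
      (𝓝[<] 1) (𝓝 ((9 / 8 : ℝ) : EReal)) := by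
    refine (continuous_coe_real_ereal.tendsto _).comp ?_
    have : Tendsto (fun r : ℝ => |Real.log C| / Real.log (1 / (1 - r))) (𝓝[<] 1) (𝓝 0) :=
      hl.const_div_atTop _
    simpa using this.const_add (9 / 8 : ℝ)
  rw [← h1.limsup_eq]
  refine limsup_le_limsup ?_
  have hev : ∀ᶠ r : ℝ in 𝓝[<] 1, r ∈ Ioo (0 : ℝ) 1 := Ioo_mem_nhdsLT (by norm_num)
  filter_upwards [hev, hl.eventually (eventually_gt_atTop 0)] with r hr hlr
  rw [EReal.coe_le_coe_iff, div_le_iff₀ hlr]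
  have h2 : (9 / 8 + |Real.log C| / Real.log (1 / (1 - r))) * Real.log (1 / (1 - r)) =
      9 / 8 * Real.log (1 / (1 - r)) + |Real.log C| := by
    field_simp
  rw [h2]
  rcases (Mt_nonneg f (-2) r).eq_or_lt with h0 | h0
  · rw [← h0, Real.log_zero]
    have := abs_nonneg (Real.log C)
    linarith
  · have h3 := Real.log_le_log h0 (h r hr.1.le hr.2)
    have h4 : (0 : ℝ) < 1 - r := sub_pos.2 hr.2
    rw [Real.log_mul hC.ne' (Real.rpow_pos_of_pos h4 _).ne', Real.log_rpow h4] at h3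
    rw [one_div, Real.log_inv]
    have := le_abs_self (Real.log C)
    linarith

end Vale.Agent.P142
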