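import Vale.Agent.P142.Defs

open Metric Set MeasureTheory Filter Topology Finset
open scoped Real Polynomial

namespace Vale.Agent.P142

theorem fub {g : ℂ → ℂ → ℂ} {r R : ℝ} (hr : 0 < r) (hR : 0 < R)
    (hg : ContinuousOn (fun p : ℂ × ℂ => g p.1 p.2) (sphere 0 r ×ˢ sphere 0 R)) :
    (∮ x in C(0, r), ∮ w in C(0, R), g x w) = ∮ w in C(0, R), ∮ x in C(0, r), g x w := by
  have hc : Continuous (fun p : ℝ × ℝ => g (circleMap 0 r p.1) (circleMap 0 R p.2)) := by
    have h1 : Continuous (fun p : ℝ × ℝ => (circleMap 0 r p.1, circleMap 0 R p.2)) :=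
      ((continuous_circleMap 0 r).comp continuous_fst).prodMk
        ((continuous_circleMap 0 R).comp continuous_snd)
    exact hg.comp_continuous h1 fun p =>
      ⟨circleMap_mem_sphere 0 hr.le p.1, circleMap_mem_sphere 0 hR.le p.2⟩
  have hF : Continuous (fun p : ℝ × ℝ => deriv (circleMap 0 r) p.1 * (deriv (circleMap 0 R) p.2 *
      g (circleMap 0 r p.1) (circleMap 0 R p.2))) := by
    simp only [deriv_circleMap]
    have h1 := continuous_circleMap 0 r
    have h2 := continuous_circleMap 0 R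
    exact ((h1.comp continuous_fst).mul continuous_const).mul
      (((h2.comp continuous_snd).mul continuous_const).mul hc)
  unfold circleIntegral
  simp only [smul_eq_mul]
  have e1 : ∀ θ : ℝ, deriv (circleMap 0 r) θ * (∫ φ in (0 : ℝ)..2 * π,
      deriv (circleMap 0 R) φ * g (circleMap 0 r θ) (circleMap 0 R φ)) =
      ∫ φ in (0 : ℝ)..2 * π, deriv (circleMap 0 r) θ * (deriv (circleMap 0 R) φ *
        g (circleMap 0 r θ) (circleMap 0 R φ)) := by
    intro θ
    rw [intervalIntegral.integral_const_mul]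
  have e2 : ∀ φ : ℝ, deriv (circleMap 0 R) φ * (∫ θ in (0 : ℝ)..2 * π,
      deriv (circleMap 0 r) θ * g (circleMap 0 r θ) (circleMap 0 R φ)) =
      ∫ θ in (0 : ℝ)..2 * π, deriv (circleMap 0 r) θ * (deriv (circleMap 0 R) φ *
        g (circleMap 0 r θ) (circleMap 0 R φ)) := by
    intro φ
    rw [← intervalIntegral.integral_const_mul]
    congr 1
    funext θ
    ring
  simp only [e1, e2]
  rw [intervalIntegral_intervalIntegral_swap
    (F := fun θ φ => deriv (circleMap 0 r) θ * (deriv (circleMap 0 R) φ *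
        g (circleMap 0 r θ) (circleMap 0 R φ)))]
  have hK : IsCompact (uIcc (0 : ℝ) (2 * π) ×ˢ uIcc (0 : ℝ) (2 * π)) :=
    isCompact_uIcc.prod isCompact_uIcc
  exact (hF.continuousOn.integrableOn_compact hK).mono_set
    (Set.prod_mono uIoc_subset_uIcc uIoc_subset_uIcc)

end Vale.Agent.P142
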