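import Vale.Agent.P142.Defs
import Vale.Agent.P142.Dnz

open Metric Set MeasureTheory Filter Topology Finset
open scoped Real Polynomial

namespace Vale.Agent.P142

namespace ResAux

/-- the difference quotient of an injective function does not vanish -/
theorem dslope_ne_zero {f : ℂ → ℂ} (hf : DifferentiableOn ℂ f (ball 0 1))
    (hi : InjOn f (ball 0 1)) {w x : ℂ} (hw : w ∈ ball (0 : ℂ) 1) (hx : x ∈ ball (0 : ℂ) 1) :
    dslope f w x ≠ 0 := by
  rcases eq_or_ne x w with rfl | hxw
  · rw [dslope_same]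
    exact deriv_ne_zero isOpen_ball hf hi hw
  · rw [dslope_of_ne _ hxw, slope_def_field]
    exact div_ne_zero (sub_ne_zero.2 fun h => hxw (hi hx hw h)) (sub_ne_zero.2 hxw)

theorem dslope_diff {f : ℂ → ℂ} (hf : DifferentiableOn ℂ f (ball 0 1)) {w : ℂ}
    (hw : w ∈ ball (0 : ℂ) 1) : DifferentiableOn ℂ (dslope f w) (ball 0 1) :=
  (Complex.differentiableOn_dslope (isOpen_ball.mem_nhds hw)).2 hf

theorem inv_eq {f : ℂ → ℂ} (w x : ℂ) (hxw : x ≠ w) :
    (f x - f w)⁻¹ = (x - w)⁻¹ * (dslope f w x)⁻¹ := by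
  rw [dslope_of_ne _ hxw, slope_def_field, inv_div, ← mul_div_assoc,
    inv_mul_cancel₀ (sub_ne_zero.2 hxw), one_div]

/-- Cauchy for an annulus around `0`, functions holomorphic on the punctured disc -/
theorem annulus {F : ℂ → ℂ} (hF : DifferentiableOn ℂ F (ball 0 1 \ {0})) {r R : ℝ} (hr : 0 < r)
    (hR : 0 < R) (hr1 : r < 1) (hR1 : R < 1) : (∮ x in C(0, R), F x) = ∮ x in C(0, r), F x := by
  wlog hrR : r ≤ R generalizing r R
  · exact (this hR hr hR1 hr1 (le_of_not_ge hrR)).symm
  have hopen : IsOpen (ball (0 : ℂ) 1 \ {0}) := isOpen_ball.sdiff isClosed_singleton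
  have hsub : closedBall (0 : ℂ) R \ ball 0 r ⊆ ball 0 1 \ {0} := by
    rintro x ⟨hx1, hx2⟩
    refine ⟨closedBall_subset_ball hR1 hx1, ?_⟩
    rintro rfl
    exact hx2 (mem_ball_self hr)
  refine Complex.circleIntegral_eq_of_differentiable_on_annulus_off_countable hr hrR
    Set.countable_empty (hF.continuousOn.mono hsub) ?_
  rintro x ⟨⟨hx1, hx2⟩, -⟩
  refine hF.differentiableAt (hopen.mem_nhds ⟨ball_subset_ball hR1.le hx1, ?_⟩)
  rintro rfl
  exact hx2 (mem_closedBall_self hr.le)

end ResAux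

open ResAux

theorem res {f : ℂ → ℂ} (hf : DifferentiableOn ℂ f (ball 0 1)) (hi : InjOn f (ball 0 1))
    {r R : ℝ} (hr : 0 < r) (hR1 : R < 1) {w : ℂ} (hrw : r < ‖w‖) (hwR : ‖w‖ < R) (p : ℤ) :
    (∮ x in C(0, R), x ^ p * (f x - f w)⁻¹) - (∮ x in C(0, r), x ^ p * (f x - f w)⁻¹) =
      2 * π * Complex.I * (w ^ p * (deriv f w)⁻¹) := by
  have hR0 : 0 < R := hr.trans (hrw.trans hwR)
  have hw0 : w ≠ 0 := by
    rintro rfl
    simp only [norm_zero] at hrw
    linarith
  have hw1 : w ∈ ball (0 : ℂ) 1 := by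
    rw [mem_ball_zero_iff]
    linarith
  have hwp : w ∈ ball (0 : ℂ) 1 \ {0} := ⟨hw1, hw0⟩
  have hopen : IsOpen (ball (0 : ℂ) 1 \ {0}) := isOpen_ball.sdiff isClosed_singleton
  -- the regular part
  let G : ℂ → ℂ := fun x => x ^ p * (dslope f w x)⁻¹
  have hG : DifferentiableOn ℂ G (ball 0 1 \ {0}) := by
    intro x hx
    have h1 : DifferentiableAt ℂ (fun x : ℂ => x ^ p) x :=
      differentiableAt_zpow.2 (Or.inl hx.2)
    have h2 : DifferentiableAt ℂ (dslope f w) x :=
      (dslope_diff hf hw1).differentiableAt (isOpen_ball.mem_nhds hx.1)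
    exact (h1.mul (h2.inv (dslope_ne_zero hf hi hw1 hx.1))).differentiableWithinAt
  have hdG : DifferentiableOn ℂ (dslope G w) (ball 0 1 \ {0}) :=
    (Complex.differentiableOn_dslope (hopen.mem_nhds hwp)).2 hG
  have key : ∀ ρ : ℝ, 0 < ρ → ρ < 1 → ρ ≠ ‖w‖ →
      (∮ x in C(0, ρ), x ^ p * (f x - f w)⁻¹) =
        (∮ x in C(0, ρ), dslope G w x) + G w * ∮ x in C(0, ρ), (x - w)⁻¹ := by
    intro ρ hρ hρ1 hρw
    have hsph : ∀ x ∈ sphere (0 : ℂ) ρ, x ≠ w ∧ x ∈ ball (0 : ℂ) 1 \ {0} := by
      intro x hx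
      rw [mem_sphere_zero_iff_norm] at hx
      refine ⟨?_, ?_, ?_⟩
      · rintro rfl
        exact hρw hx.symm
      · rw [mem_ball_zero_iff]
        linarith
      · rintro rfl
        simp only [norm_zero] at hx
        linarith
    rw [← circleIntegral.integral_const_mul, ← circleIntegral.integral_add]
    · apply circleIntegral.integral_congr hρ.le
      intro x hx
      obtain ⟨h1, h2⟩ := hsph x hx
      simp only
      rw [inv_eq w x h1, dslope_of_ne G h1, slope_def_field]
      simp only [G]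
      have h3 : x - w ≠ 0 := sub_ne_zero.2 h1
      field_simp
      ring
    · apply ContinuousOn.circleIntegrable hρ.le
      exact hdG.continuousOn.mono fun x hx => (hsph x hx).2
    · apply ContinuousOn.circleIntegrable hρ.le
      refine continuousOn_const.mul (ContinuousOn.inv₀ (continuousOn_id.sub continuousOn_const) ?_)
      intro x hx
      exact sub_ne_zero.2 (hsph x hx).1
  rw [key R hR0 hR1 hwR.ne', key r hr (by linarith) hrw.ne,
    annulus hdG hr hR0 (by linarith) hR1,
    circleIntegral.integral_sub_inv_of_mem_ball (by rwa [mem_ball_zero_iff])]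
  have h0 : (∮ x in C(0, r), (x - w)⁻¹) = 0 := by
    apply Complex.circleIntegral_eq_zero_of_differentiable_on_off_countable hr.le
      Set.countable_empty
    · refine ContinuousOn.inv₀ (continuousOn_id.sub continuousOn_const) ?_
      intro x hx
      rw [mem_closedBall_zero_iff] at hx
      apply sub_ne_zero.2
      rintro rfl
      linarith
    · rintro x ⟨hx, -⟩
      rw [mem_ball_zero_iff] at hx
      apply DifferentiableAt.inv (differentiableAt_id.sub_const w)
      apply sub_ne_zero.2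
      intro h
      simp only [id] at h
      subst h
      linarith
  rw [h0]
  simp only [G, dslope_same]
  ring

theorem res0 {f : ℂ → ℂ} (hf : DifferentiableOn ℂ f (ball 0 1)) (hi : InjOn f (ball 0 1))
    {r : ℝ} (hr : 0 < r) {w : ℂ} (hrw : r < ‖w‖) (hw1 : ‖w‖ < 1) (p : ℕ) :
    (∮ x in C(0, r), x ^ p * (f x - f w)⁻¹) = 0 := by
  have hr1 : r < 1 := by linarith
  have hw : w ∈ ball (0 : ℂ) 1 := by rwa [mem_ball_zero_iff]
  have hd : ∀ x ∈ closedBall (0 : ℂ) r, DifferentiableAt ℂ (fun x => x ^ p * (f x - f w)⁻¹) x := by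
    intro x hx
    have hx1 : x ∈ ball (0 : ℂ) 1 := closedBall_subset_ball hr1 hx
    have h1 : DifferentiableAt ℂ f x := hf.differentiableAt (isOpen_ball.mem_nhds hx1)
    have hne : f x - f w ≠ 0 := by
      apply sub_ne_zero.2
      intro h
      have := hi hx1 hw h
      subst this
      rw [mem_closedBall_zero_iff] at hx
      linarith
    exact (differentiableAt_id.pow p).mul ((h1.sub_const _).inv hne)
  apply Complex.circleIntegral_eq_zero_of_differentiable_on_off_countable hr.le
    Set.countable_empty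
  · exact fun x hx => (hd x hx).continuousAt.continuousWithinAt
  · rintro x ⟨hx, -⟩
    exact hd x (ball_subset_closedBall hx)

end Vale.Agent.P142
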