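import Vale.Agent.P142.Defs
import Vale.Agent.P142.Dnz
import Vale.Agent.P142.Res

open Metric Set MeasureTheory Filter Topology Finset
open scoped Real Polynomial

namespace Vale.Agent.P142

namespace QdefAux

/-- finite geometric expansion of `(F - u)⁻¹` -/
theorem geom_expand {F u : ℂ} (hF : F ≠ 0) (hFu : F - u ≠ 0) (n : ℕ) :
    (F - u)⁻¹ = (∑ m ∈ range (n + 1), u ^ m * (F⁻¹) ^ (m + 1)) +
      u ^ (n + 1) * (F⁻¹) ^ (n + 1) * (F - u)⁻¹ := by
  induction n with
  | zero =>
    simp only [zero_add, Finset.range_one, Finset.sum_singleton, pow_zero, one_mul, pow_one]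
    field_simp
    ring
  | succ n ih =>
    rw [Finset.sum_range_succ, add_assoc]
    have : u ^ (n + 1) * F⁻¹ ^ (n + 1 + 1) + u ^ (n + 1 + 1) * F⁻¹ ^ (n + 1 + 1) * (F - u)⁻¹ =
        u ^ (n + 1) * F⁻¹ ^ (n + 1) * (F - u)⁻¹ := by
      rw [pow_succ F⁻¹ (n + 1), pow_succ u (n + 1)]
      generalize u ^ (n + 1) = a
      generalize F⁻¹ ^ (n + 1) = b
      field_simp
      ring
    rw [this]
    exact ih

end QdefAux

open ResAux QdefAux

theorem qdef {f : ℂ → ℂ} (hf : DifferentiableOn ℂ f (ball 0 1)) (hi : InjOn f (ball 0 1))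
    (h0 : f 0 = 0) (n : ℕ) :
    ∃ (Q : ℂ[X]) (K : ℂ → ℂ), DifferentiableOn ℂ K (ball 0 1) ∧
      (∀ x ∈ ball (0 : ℂ) 1, x ≠ 0 → K x = x ^ (n + 1) * Q.eval (f x)⁻¹) ∧
      ∀ x ∈ ball (0 : ℂ) 1, ∀ r : ℝ, 0 < r → r < ‖x‖ →
        K x = x ^ (n + 1) * ((2 * π * Complex.I)⁻¹ * ∮ w in C(0, r), (f x - f w)⁻¹ / w ^ (n + 1)) := by
  have h0m : (0 : ℂ) ∈ ball (0 : ℂ) 1 := mem_ball_self one_pos
  let c : ℕ → ℂ := fun m => (2 * π * Complex.I)⁻¹ * ∮ w in C(0, 1 / 2), f w ^ m / w ^ (n + 1)
  let e : ℂ → ℂ := fun x => (dslope f 0 x)⁻¹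
  have he : DifferentiableOn ℂ e (ball 0 1) :=
    (dslope_diff hf h0m).inv fun x hx => dslope_ne_zero hf hi h0m hx
  have hfx : ∀ x : ℂ, x ≠ 0 → (f x)⁻¹ = x⁻¹ * e x := by
    intro x hx
    have := inv_eq (f := f) 0 x hx
    rw [h0, sub_zero, sub_zero] at this
    exact this
  let K : ℂ → ℂ := fun x => ∑ m ∈ range (n + 1), c m * (x ^ (n - m) * e x ^ (m + 1))
  let Q : ℂ[X] := ∑ m ∈ range (n + 1), Polynomial.C (c m) * Polynomial.X ^ (m + 1)
  have hQ : ∀ t : ℂ, Q.eval t = ∑ m ∈ range (n + 1), c m * t ^ (m + 1) := by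
    intro t
    simp only [Q, Polynomial.eval_finsetSum, Polynomial.eval_mul, Polynomial.eval_C,
      Polynomial.eval_pow, Polynomial.eval_X]
  have hKQ : ∀ x ∈ ball (0 : ℂ) 1, x ≠ 0 → K x = x ^ (n + 1) * Q.eval (f x)⁻¹ := by
    intro x _ hx0
    rw [hQ, Finset.mul_sum]
    refine Finset.sum_congr rfl fun m hm => ?_
    rw [Finset.mem_range] at hm
    rw [hfx x hx0, mul_pow]
    have : x ^ (n + 1) = x ^ (n - m) * x ^ (m + 1) := by
      rw [← pow_add]
      congr 1
      omega
    rw [this]
    have h2 : x ^ (m + 1) * x⁻¹ ^ (m + 1) = 1 := by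
      rw [← mul_pow, mul_inv_cancel₀ hx0, one_pow]
    linear_combination (-(c m * x ^ (n - m) * e x ^ (m + 1))) * h2
  refine ⟨Q, K, ?_, hKQ, ?_⟩
  · apply DifferentiableOn.fun_sum
    intro m _
    exact ((differentiable_id.pow (n - m)).differentiableOn.mul (he.pow (m + 1))).const_mul (c m)
  · intro x hx r hr hrx
    have hx1 : ‖x‖ < 1 := by rwa [mem_ball_zero_iff] at hx
    have hr1 : r < 1 := by linarith
    have hx0 : x ≠ 0 := by
      rintro rfl
      simp only [norm_zero] at hrx
      linarith
    have hF0 : f x ≠ 0 := by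
      intro h
      exact hx0 (hi hx h0m (by rw [h, h0]))
    rw [hKQ x hx hx0, hQ]
    congr 1
    have hne : ∀ w ∈ closedBall (0 : ℂ) r, f x - f w ≠ 0 := by
      intro w hw
      apply sub_ne_zero.2
      intro h
      have := hi hx (closedBall_subset_ball hr1 hw) h
      subst this
      rw [mem_closedBall_zero_iff] at hw
      linarith
    -- the coefficients do not depend on the radius
    have hc : ∀ m, c m = (2 * π * Complex.I)⁻¹ * ∮ w in C(0, r), f w ^ m / w ^ (n + 1) := by
      intro m
      simp only [c]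
      congr 1
      refine annulus ?_ hr (by norm_num) hr1 (by norm_num)
      intro w hw
      exact (((hf w hw.1).mono sdiff_subset).pow m).div
        (differentiableWithinAt_id.pow (n + 1)) (pow_ne_zero _ hw.2)
    -- the remainder vanishes
    have hrem : (∮ w in C(0, r), (dslope f 0 w * (f x)⁻¹) ^ (n + 1) * (f x - f w)⁻¹) = 0 := by
      have hd : ∀ w ∈ closedBall (0 : ℂ) r, DifferentiableAt ℂ
          (fun w => (dslope f 0 w * (f x)⁻¹) ^ (n + 1) * (f x - f w)⁻¹) w := by
        intro w hw
        have hw1 : w ∈ ball (0 : ℂ) 1 := closedBall_subset_ball hr1 hw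
        have h1 : DifferentiableAt ℂ f w := hf.differentiableAt (isOpen_ball.mem_nhds hw1)
        have h2 : DifferentiableAt ℂ (dslope f 0) w :=
          (dslope_diff hf h0m).differentiableAt (isOpen_ball.mem_nhds hw1)
        exact ((h2.mul_const _).pow (n + 1)).mul ((h1.const_sub _).inv (hne w hw))
      apply Complex.circleIntegral_eq_zero_of_differentiable_on_off_countable hr.le
        Set.countable_empty
      · exact fun w hw => (hd w hw).continuousAt.continuousWithinAt
      · rintro w ⟨hw, -⟩
        exact hd w (ball_subset_closedBall hw)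
    have hsplit : (∮ w in C(0, r), (f x - f w)⁻¹ / w ^ (n + 1)) =
        (∑ m ∈ range (n + 1), ∮ w in C(0, r), (f x)⁻¹ ^ (m + 1) * (f w ^ m / w ^ (n + 1))) +
        ∮ w in C(0, r), (dslope f 0 w * (f x)⁻¹) ^ (n + 1) * (f x - f w)⁻¹ := by
      have hcont : ∀ m, CircleIntegrable
          (fun w => (f x)⁻¹ ^ (m + 1) * (f w ^ m / w ^ (n + 1))) 0 r := by
        intro m
        apply ContinuousOn.circleIntegrable hr.le
        refine continuousOn_const.mul (ContinuousOn.div ?_ (continuousOn_id.pow (n + 1)) ?_)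
        · exact (hf.continuousOn.mono (sphere_subset_closedBall.trans
            (closedBall_subset_ball hr1))).pow m
        · intro w hw
          apply pow_ne_zero
          rintro h
          subst h
          rw [mem_sphere_zero_iff_norm, norm_zero] at hw
          linarith
      rw [← circleIntegral.integral_fun_sum (fun m _ => hcont m), ← circleIntegral.integral_add]
      · apply circleIntegral.integral_congr hr.le
        intro w hw
        have hw0 : w ≠ 0 := by
          rintro rfl
          rw [mem_sphere_zero_iff_norm, norm_zero] at hw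
          linarith
        simp only
        have hfw : dslope f 0 w = f w / w := by
          rw [dslope_of_ne _ hw0, slope_def_field, h0, sub_zero, sub_zero]
        have hg := geom_expand hF0 (hne w (sphere_subset_closedBall hw)) n
        rw [hfw]
        calc (f x - f w)⁻¹ / w ^ (n + 1) = ((∑ m ∈ range (n + 1), f w ^ m * ((f x)⁻¹) ^ (m + 1)) +
              f w ^ (n + 1) * ((f x)⁻¹) ^ (n + 1) * (f x - f w)⁻¹) / w ^ (n + 1) := by
              rw [← hg]
          _ = _ := by
              rw [add_div, Finset.sum_div]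
              congr 1
              · refine Finset.sum_congr rfl fun m _ => ?_
                ring
              · rw [mul_pow, div_pow]
                ring
      · exact CircleIntegrable.fun_sum _ fun m _ => hcont m
      · apply ContinuousOn.circleIntegrable hr.le
        intro w hw
        have hw1 : w ∈ ball (0 : ℂ) 1 :=
          closedBall_subset_ball hr1 (sphere_subset_closedBall hw)
        have h1 : DifferentiableAt ℂ f w := hf.differentiableAt (isOpen_ball.mem_nhds hw1)
        have h2 : DifferentiableAt ℂ (dslope f 0) w :=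
          (dslope_diff hf h0m).differentiableAt (isOpen_ball.mem_nhds hw1)
        exact (((h2.mul_const _).pow (n + 1)).mul ((h1.const_sub _).inv
          (hne w (sphere_subset_closedBall hw)))).continuousAt.continuousWithinAt
    rw [hsplit, hrem, add_zero, Finset.mul_sum]
    refine Finset.sum_congr rfl fun m _ => ?_
    rw [circleIntegral.integral_const_mul, hc m]
    ring

end Vale.Agent.P142
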