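import Vale.Agent.P142.Defs

/-!
# P142 [TC]: Taylor coefficients and Parseval
-/

open Metric Set MeasureTheory Filter Topology Finset
open scoped Real

namespace Vale.Agent.P142

theorem tc_eq {g : ℂ → ℂ} (hg : DifferentiableOn ℂ g (ball 0 1)) {R : ℝ} (hR : 0 < R)
    (hR1 : R < 1) (n : ℕ) :
    tc g n = (2 * π * Complex.I)⁻¹ * ∮ z in C(0, R), g z / z ^ (n + 1) := by
  have key : ∀ r R : ℝ, 0 < r → r ≤ R → R < 1 →
      (∮ z in C(0, R), g z / z ^ (n + 1)) = ∮ z in C(0, r), g z / z ^ (n + 1) := by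
    intro r R hr hrR hR1
    have hd : DifferentiableOn ℂ (fun z => g z / z ^ (n + 1)) (ball 0 1 \ {0}) := by
      refine (hg.mono sdiff_subset).div (by fun_prop) ?_
      rintro z ⟨-, hz⟩
      exact pow_ne_zero _ hz
    have hopen : IsOpen (ball (0 : ℂ) 1 \ {0}) := isOpen_ball.sdiff isClosed_singleton
    have hsub : closedBall (0 : ℂ) R \ ball 0 r ⊆ ball 0 1 \ {0} := by
      rintro z ⟨hz1, hz2⟩
      refine ⟨closedBall_subset_ball hR1 hz1, ?_⟩
      rintro rfl
      exact hz2 (mem_ball_self hr)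
    refine Complex.circleIntegral_eq_of_differentiable_on_annulus_off_countable hr hrR
      (s := ∅) countable_empty (hd.continuousOn.mono hsub) ?_
    rintro z ⟨⟨hz1, hz2⟩, -⟩
    exact hd.differentiableAt (hopen.mem_nhds (hsub ⟨ball_subset_closedBall hz1,
      fun h => hz2 (ball_subset_closedBall h)⟩))
  unfold tc
  rcases le_total R (1 / 2) with h | h
  · rw [key R (1 / 2) hR h (by norm_num)]
  · rw [key (1 / 2) R (by norm_num) h hR1]

theorem tc_hasSum {g : ℂ → ℂ} (hg : DifferentiableOn ℂ g (ball 0 1)) {z : ℂ} (hz : ‖z‖ < 1) :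
    HasSum (fun n => tc g n * z ^ n) (g z) := by
  obtain ⟨R, hR, hR1⟩ := exists_between hz
  have hR0 : 0 < R := lt_of_le_of_lt (norm_nonneg z) hR
  lift R to NNReal using hR0.le
  have h := (hg.mono (closedBall_subset_ball hR1)).hasFPowerSeriesOnBall (by exact_mod_cast hR0)
  have h2 := h.hasSum (y := z) (by
    rw [Metric.mem_eball, edist_zero_right, enorm_eq_nnnorm, ENNReal.coe_lt_coe]
    exact_mod_cast hR)
  simp only [zero_add] at h2
  have e : (fun n => tc g n * z ^ n) = fun n => (cauchyPowerSeries g 0 (R : ℝ) n) fun _ => z := by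
    funext n
    rw [cauchyPowerSeries_apply, tc_eq hg hR0 hR1 n]
    simp only [sub_zero, smul_eq_mul]
    rw [mul_assoc]
    congr 1
    rw [mul_comm, ← smul_eq_mul (z ^ n), ← circleIntegral.integral_smul]
    refine circleIntegral.integral_congr hR0.le fun w hw => ?_
    have hw0 : w ≠ 0 := by
      rintro rfl
      simp at hw
      exact hR0.ne' (by exact_mod_cast hw.symm)
    simp only [smul_eq_mul]
    rw [div_pow, pow_succ]
    field_simp
  rw [e]
  exact h2

theorem tc_summable {g : ℂ → ℂ} (hg : DifferentiableOn ℂ g (ball 0 1)) {R : ℝ} (hR : 0 ≤ R)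
    (hR1 : R < 1) : Summable (fun n => ‖tc g n‖ * R ^ n) := by
  have h := (tc_hasSum hg (z := (R : ℂ)) (by simpa [abs_of_nonneg hR] using hR1)).summable.norm
  refine h.congr fun n => ?_
  rw [norm_mul, norm_pow, Complex.norm_real, Real.norm_of_nonneg hR]

namespace TcAux

theorem norm_circle (R : ℝ) (hR : 0 ≤ R) (θ : ℝ) :
    ‖(R : ℂ) * Complex.exp (θ * Complex.I)‖ = R := by
  rw [norm_mul, Complex.norm_exp_ofReal_mul_I, mul_one, Complex.norm_real, Real.norm_of_nonneg hR]

theorem cont_circle {g : ℂ → ℂ} (hg : DifferentiableOn ℂ g (ball 0 1)) {R : ℝ} (hR : 0 ≤ R)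
    (hR1 : R < 1) : Continuous fun θ : ℝ => g (R * Complex.exp (θ * Complex.I)) := by
  refine hg.continuousOn.comp_continuous (by fun_prop) fun θ => ?_
  rw [mem_ball_zero_iff, norm_circle R hR]
  exact hR1

theorem tc_angle {g : ℂ → ℂ} (hg : DifferentiableOn ℂ g (ball 0 1)) {R : ℝ} (hR : 0 < R)
    (hR1 : R < 1) (n : ℕ) :
    ∫ θ in (-π)..π, g (R * Complex.exp (θ * Complex.I)) * Complex.exp (-(n * θ * Complex.I)) =
      2 * π * (tc g n * R ^ n) := by
  set F : ℝ → ℂ := fun θ => g (R * Complex.exp (θ * Complex.I)) *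
    Complex.exp (-(n * θ * Complex.I)) with hF
  have hper : Function.Periodic F (2 * π) := by
    intro θ
    simp only [hF]
    have e1 : Complex.exp (((θ + 2 * π : ℝ) : ℂ) * Complex.I) = Complex.exp (θ * Complex.I) := by
      rw [Complex.exp_eq_exp_iff_exists_int]
      exact ⟨1, by push_cast; ring⟩
    have e2 : Complex.exp (-(n * ((θ + 2 * π : ℝ) : ℂ) * Complex.I)) =
        Complex.exp (-(n * θ * Complex.I)) := by
      rw [Complex.exp_eq_exp_iff_exists_int]
      exact ⟨-n, by push_cast; ring⟩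
    rw [e1, e2]
  have h1 : ∫ θ in (-π)..π, F θ = ∫ θ in (0:ℝ)..(2 * π), F θ := by
    have := hper.intervalIntegral_add_eq (-π) 0
    rw [show -π + 2 * π = π by ring, zero_add] at this
    exact this
  rw [h1, tc_eq hg hR hR1 n, circleIntegral]
  have hI : (2 * π * Complex.I : ℂ) ≠ 0 := by
    simp [Real.pi_ne_zero]
  have h2 : ∀ θ : ℝ, deriv (circleMap 0 R) θ • (g (circleMap 0 R θ) / circleMap 0 R θ ^ (n + 1)) =
      Complex.I * ((R : ℂ) ^ n)⁻¹ * F θ := by
    intro θ
    have hRc : (R : ℂ) ≠ 0 := by exact_mod_cast hR.ne'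
    have hex : Complex.exp (θ * Complex.I) ≠ 0 := Complex.exp_ne_zero _
    have e3 : Complex.exp (-(n * θ * Complex.I)) = (Complex.exp (θ * Complex.I) ^ n)⁻¹ := by
      rw [← Complex.exp_nat_mul, ← Complex.exp_neg]
      congr 1
      ring
    simp only [deriv_circleMap, circleMap_zero, hF, smul_eq_mul, e3]
    rw [pow_succ, mul_pow]
    field_simp
  simp only [h2]
  rw [intervalIntegral.integral_const_mul]
  have hRn : (R : ℂ) ^ n ≠ 0 := pow_ne_zero _ (by exact_mod_cast hR.ne')
  have hpi : (π : ℂ) ≠ 0 := by exact_mod_cast Real.pi_ne_zero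
  have hI' : Complex.I ≠ 0 := Complex.I_ne_zero
  field_simp

end TcAux

open TcAux

/-- Parseval. -/
theorem tc_parseval {g : ℂ → ℂ} (hg : DifferentiableOn ℂ g (ball 0 1)) {R : ℝ} (hR : 0 ≤ R)
    (hR1 : R < 1) :
    HasSum (fun n => ‖tc g n‖ ^ 2 * R ^ (2 * n))
      ((1 / (2 * π)) * ∫ θ in (-π)..π, ‖g (R * Complex.exp (θ * Complex.I))‖ ^ (2 : ℕ)) := by
  have hpi := Real.pi_pos
  rcases hR.eq_or_lt with h0 | h0
  · subst h0
    have h1 : g 0 = tc g 0 := by
      have h2 := tc_hasSum hg (z := 0) (by simp)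
      have h3 := hasSum_single (f := fun n => tc g n * (0 : ℂ) ^ n) 0 (by
        intro n hn; simp [hn])
      rw [h2.unique h3]
      simp
    have h4 := hasSum_single (f := fun n => ‖tc g n‖ ^ 2 * (0 : ℝ) ^ (2 * n)) 0 (by
        intro n hn; simp [hn])
    convert h4 using 1
    simp only [Complex.ofReal_zero, zero_mul, intervalIntegral.integral_const, smul_eq_mul, h1]
    field_simp
    ring
  · have hcont := cont_circle hg hR hR1
    obtain ⟨M, hM⟩ : ∃ M, ∀ θ : ℝ, ‖g (R * Complex.exp (θ * Complex.I))‖ ≤ M := by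
      obtain ⟨M, hM⟩ := (isCompact_sphere (0 : ℂ) R).exists_bound_of_continuousOn
        (hg.continuousOn.mono (sphere_subset_closedBall.trans (closedBall_subset_ball hR1)))
      refine ⟨M, fun θ => hM _ ?_⟩
      rw [mem_sphere_zero_iff_norm, norm_circle R hR]
    set F : ℕ → ℝ → ℂ := fun n θ => tc g n * (R * Complex.exp (θ * Complex.I)) ^ n *
      (starRingEnd ℂ) (g (R * Complex.exp (θ * Complex.I))) with hF
    have hs := tc_summable hg hR hR1
    have h1 : HasSum (fun n => ∫ θ in (-π)..π, F n θ)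
        (∫ θ in (-π)..π, ((‖g (R * Complex.exp (θ * Complex.I))‖ ^ 2 : ℝ) : ℂ)) := by
      refine intervalIntegral.hasSum_integral_of_dominated_convergence
        (fun n _ => ‖tc g n‖ * R ^ n * M) (fun n => ?_) (fun n => ?_) ?_ ?_ ?_
      · have : Continuous (F n) := by
          simp only [hF]
          exact (continuous_const.mul (by fun_prop)).mul (Complex.continuous_conj.comp hcont)
        exact this.aestronglyMeasurable
      · refine Eventually.of_forall fun θ _ => ?_
        simp only [hF]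
        rw [norm_mul, norm_mul, norm_pow, norm_circle R hR, RCLike.norm_conj]
        exact mul_le_mul_of_nonneg_left (hM θ) (by positivity)
      · exact Eventually.of_forall fun θ _ => hs.mul_right M
      · exact intervalIntegrable_const
      · refine Eventually.of_forall fun θ _ => ?_
        have h2 := (tc_hasSum hg (z := R * Complex.exp (θ * Complex.I)) (by
          rw [norm_circle R hR]; exact hR1)).mul_right
          ((starRingEnd ℂ) (g (R * Complex.exp (θ * Complex.I))))
        rw [Complex.mul_conj, Complex.normSq_eq_norm_sq] at h2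
        exact h2
    have h3 : ∀ n, ∫ θ in (-π)..π, F n θ = ((2 * π * (‖tc g n‖ ^ 2 * R ^ (2 * n)) : ℝ) : ℂ) := by
      intro n
      have h4 : ∀ θ : ℝ, F n θ = tc g n * R ^ n * (starRingEnd ℂ)
          (g (R * Complex.exp (θ * Complex.I)) * Complex.exp (-(n * θ * Complex.I))) := by
        intro θ
        simp only [hF]
        have e3 : (starRingEnd ℂ) (Complex.exp (-(n * θ * Complex.I))) =
            Complex.exp (θ * Complex.I) ^ n := by
          rw [← Complex.exp_conj, ← Complex.exp_nat_mul]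
          congr 1
          simp
          ring
        rw [map_mul, e3, mul_pow]
        ring
      simp only [h4]
      rw [intervalIntegral.integral_const_mul, intervalIntegral.intervalIntegral_conj, tc_angle hg h0 hR1 n]
      simp only [map_mul, map_pow, Complex.conj_ofReal, map_ofNat]
      have e4 : ((‖tc g n‖ ^ 2 : ℝ) : ℂ) = tc g n * (starRingEnd ℂ) (tc g n) := by
        rw [Complex.mul_conj, Complex.normSq_eq_norm_sq]
      rw [Complex.ofReal_mul, Complex.ofReal_mul, Complex.ofReal_mul (‖tc g n‖ ^ 2), e4]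
      push_cast
      ring
    simp only [h3] at h1
    rw [intervalIntegral.integral_ofReal] at h1
    have h5 := (Complex.hasSum_ofReal.1 h1).mul_left (1 / (2 * π))
    refine h5.congr_fun ?_
    intro n
    field_simp

end Vale.Agent.P142
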