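import Vale.Agent.P142.Defs
import Vale.Agent.P142.Dnz
import Vale.Agent.P142.Res
import Vale.Agent.P142.Fub
import Vale.Agent.P142.Qdef
import Vale.Agent.P142.Tc
import Vale.Agent.P142.Area

open Metric Set MeasureTheory Filter Topology Finset
open scoped Real Polynomial

namespace Vale.Agent.P142

namespace BivAux

theorem fne {f : ℂ → ℂ} (hi : InjOn f (ball 0 1)) {ρ σ : ℝ} (hρ1 : ρ < 1) (hσ1 : σ < 1)
    (hne : ρ ≠ σ) {x w : ℂ} (hx : x ∈ sphere (0 : ℂ) ρ) (hw : w ∈ sphere (0 : ℂ) σ) :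
    f x - f w ≠ 0 := by
  rw [mem_sphere_zero_iff_norm] at hx hw
  apply sub_ne_zero.2
  intro h
  have := hi (by rw [mem_ball_zero_iff]; linarith) (by rw [mem_ball_zero_iff]; linarith) h
  subst this
  exact hne (hx.symm.trans hw)

theorem sphere_ne_zero {ρ : ℝ} (hρ : 0 < ρ) {x : ℂ} (hx : x ∈ sphere (0 : ℂ) ρ) : x ≠ 0 := by
  rintro rfl
  rw [mem_sphere_zero_iff_norm, norm_zero] at hx
  linarith

theorem param_int {g : ℂ → ℂ → ℂ} {r R : ℝ} (hr : 0 < r) (hR : 0 < R)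
    (hg : ContinuousOn (fun p : ℂ × ℂ => g p.1 p.2) (sphere 0 r ×ˢ sphere 0 R)) :
    CircleIntegrable (fun w => ∮ x in C(0, r), g x w) 0 R := by
  unfold CircleIntegrable
  apply Continuous.intervalIntegrable
  unfold circleIntegral
  have hc : Continuous (fun p : ℝ × ℝ => g (circleMap 0 r p.2) (circleMap 0 R p.1)) := by
    have h1 : Continuous (fun p : ℝ × ℝ => (circleMap 0 r p.2, circleMap 0 R p.1)) :=
      ((continuous_circleMap 0 r).comp continuous_snd).prodMk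
        ((continuous_circleMap 0 R).comp continuous_fst)
    exact hg.comp_continuous h1 fun p =>
      ⟨circleMap_mem_sphere 0 hr.le p.2, circleMap_mem_sphere 0 hR.le p.1⟩
  have hF : Continuous (Function.uncurry fun (θ φ : ℝ) => deriv (circleMap 0 r) φ •
      g (circleMap 0 r φ) (circleMap 0 R θ)) := by
    simp only [deriv_circleMap, smul_eq_mul]
    exact (((continuous_circleMap 0 r).comp continuous_snd).mul continuous_const).mul hc
  exact intervalIntegral.continuous_parametric_intervalIntegral_of_continuous' hF 0 (2 * π)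

theorem jc {f : ℂ → ℂ} (hf : DifferentiableOn ℂ f (ball 0 1)) (hi : InjOn f (ball 0 1))
    {ρ σ : ℝ} (hρ : 0 < ρ) (hσ : 0 < σ) (hρ1 : ρ < 1) (hσ1 : σ < 1) (hne : ρ ≠ σ) (p q : ℤ) :
    ContinuousOn (fun a : ℂ × ℂ => a.1 ^ p * ((f a.1 - f a.2)⁻¹ * a.2 ^ q))
      (sphere 0 ρ ×ˢ sphere 0 σ) := by
  have hfρ : ContinuousOn f (sphere 0 ρ) :=
    hf.continuousOn.mono (sphere_subset_closedBall.trans (closedBall_subset_ball hρ1))
  have hfσ : ContinuousOn f (sphere 0 σ) :=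
    hf.continuousOn.mono (sphere_subset_closedBall.trans (closedBall_subset_ball hσ1))
  have h1 : ContinuousOn (fun a : ℂ × ℂ => f a.1) (sphere 0 ρ ×ˢ sphere 0 σ) :=
    hfρ.comp continuousOn_fst fun a ha => ha.1
  have h2 : ContinuousOn (fun a : ℂ × ℂ => f a.2) (sphere 0 ρ ×ˢ sphere 0 σ) :=
    hfσ.comp continuousOn_snd fun a ha => ha.2
  refine ContinuousOn.mul ?_ (ContinuousOn.mul ?_ ?_)
  · exact ContinuousOn.zpow₀ continuousOn_fst p fun a ha => Or.inl (sphere_ne_zero hρ ha.1)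
  · exact (h1.sub h2).inv₀ fun a ha => fne hi hρ1 hσ1 hne ha.1 ha.2
  · exact ContinuousOn.zpow₀ continuousOn_snd q fun a ha => Or.inl (sphere_ne_zero hσ ha.2)

theorem swap {f : ℂ → ℂ} (hf : DifferentiableOn ℂ f (ball 0 1)) (hi : InjOn f (ball 0 1))
    {ρ σ : ℝ} (hρ : 0 < ρ) (hσ : 0 < σ) (hρ1 : ρ < 1) (hσ1 : σ < 1) (hne : ρ ≠ σ) (p q : ℤ) :
    (∮ x in C(0, ρ), ∮ w in C(0, σ), x ^ p * ((f x - f w)⁻¹ * w ^ q)) =
      ∮ w in C(0, σ), ∮ x in C(0, ρ), x ^ p * ((f x - f w)⁻¹ * w ^ q) :=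
  fub (g := fun x w => x ^ p * ((f x - f w)⁻¹ * w ^ q)) hρ hσ (jc hf hi hρ hσ hρ1 hσ1 hne p q)

/-- coefficients of `K` as double integrals -/
theorem tcK {f : ℂ → ℂ} {n : ℕ} {K : ℂ → ℂ} (hK : DifferentiableOn ℂ K (ball 0 1))
    (hKr : ∀ x ∈ ball (0 : ℂ) 1, ∀ r : ℝ, 0 < r → r < ‖x‖ →
      K x = x ^ (n + 1) * ((2 * π * Complex.I)⁻¹ * ∮ w in C(0, r), (f x - f w)⁻¹ / w ^ (n + 1)))
    {ρ σ : ℝ} (hσ : 0 < σ) (hσρ : σ < ρ) (hρ1 : ρ < 1) (i : ℕ) :
    (2 * π * Complex.I) ^ 2 * tc K i = ∮ x in C(0, ρ), ∮ w in C(0, σ),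
      x ^ ((n : ℤ) - i) * ((f x - f w)⁻¹ * w ^ (-((n : ℤ) + 1))) := by
  have hρ : 0 < ρ := hσ.trans hσρ
  have hpi : (2 * π * Complex.I : ℂ) ≠ 0 := Complex.two_pi_I_ne_zero
  rw [tc_eq hK hρ hρ1 i]
  have h1 : (∮ z in C(0, ρ), K z / z ^ (i + 1)) = ∮ x in C(0, ρ), (2 * π * Complex.I)⁻¹ *
      ∮ w in C(0, σ), x ^ ((n : ℤ) - i) * ((f x - f w)⁻¹ * w ^ (-((n : ℤ) + 1))) := by
    apply circleIntegral.integral_congr hρ.le
    intro x hx
    have hx0 := sphere_ne_zero hρ hx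
    rw [mem_sphere_zero_iff_norm] at hx
    simp only
    rw [hKr x (by rw [mem_ball_zero_iff]; linarith) σ hσ (by linarith),
      circleIntegral.integral_const_mul]
    have h2 : (∮ w in C(0, σ), (f x - f w)⁻¹ / w ^ (n + 1)) =
        ∮ w in C(0, σ), (f x - f w)⁻¹ * w ^ (-((n : ℤ) + 1)) := by
      apply circleIntegral.integral_congr hσ.le
      intro w hw
      simp only
      rw [zpow_neg, div_eq_mul_inv]
      norm_cast
    rw [h2]
    have h3 : x ^ (n + 1) / x ^ (i + 1) = x ^ ((n : ℤ) - i) := by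
      rw [← zpow_natCast, ← zpow_natCast, ← zpow_sub₀ hx0]
      congr 1
      push_cast
      ring
    rw [← h3]
    ring
  rw [h1, circleIntegral.integral_const_mul]
  field_simp

/-- the double integral after moving the circle of `x` inside the circle of `w` -/
theorem move {f : ℂ → ℂ} (hf : DifferentiableOn ℂ f (ball 0 1)) (hi : InjOn f (ball 0 1))
    {ρ σ τ : ℝ} (hτ : 0 < τ) (hτσ : τ < σ) (hσρ : σ < ρ) (hρ1 : ρ < 1) (p q : ℤ) :
    (∮ x in C(0, ρ), ∮ w in C(0, σ), x ^ p * ((f x - f w)⁻¹ * w ^ q)) =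
      (∮ w in C(0, σ), ∮ x in C(0, τ), x ^ p * ((f x - f w)⁻¹ * w ^ q)) +
      2 * π * Complex.I * ∮ w in C(0, σ), w ^ (p + q) * (deriv f w)⁻¹ := by
  have hσ : 0 < σ := hτ.trans hτσ
  have hρ : 0 < ρ := hσ.trans hσρ
  have hσ1 : σ < 1 := by linarith
  rw [swap hf hi hρ hσ hρ1 hσ1 hσρ.ne', ← circleIntegral.integral_const_mul,
    ← circleIntegral.integral_add]
  · apply circleIntegral.integral_congr hσ.le
    intro w hw
    have hw0 := sphere_ne_zero hσ hw
    rw [mem_sphere_zero_iff_norm] at hw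
    have h1 := res hf hi hτ hρ1 (w := w) (by linarith) (by linarith) p
    have h2 : ∀ s : ℝ, (∮ x in C(0, s), x ^ p * ((f x - f w)⁻¹ * w ^ q)) =
        w ^ q * ∮ x in C(0, s), x ^ p * (f x - f w)⁻¹ := by
      intro s
      rw [← circleIntegral.integral_const_mul]
      congr 1
      funext x
      ring
    simp only
    rw [h2, h2, zpow_add₀ hw0]
    linear_combination (w ^ q) * h1
  · exact param_int hτ hσ (jc hf hi hτ hσ (by linarith) hσ1 hτσ.ne p q)
  · apply ContinuousOn.circleIntegrable hσ.le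
    refine continuousOn_const.mul (ContinuousOn.mul ?_ ?_)
    · exact ContinuousOn.zpow₀ continuousOn_id _ fun a ha => Or.inl (sphere_ne_zero hσ ha)
    · refine ContinuousOn.inv₀ ((hf.deriv isOpen_ball).continuousOn.mono
        (sphere_subset_closedBall.trans (closedBall_subset_ball hσ1))) ?_
      intro w hw
      exact deriv_ne_zero isOpen_ball hf hi
        (closedBall_subset_ball hσ1 (sphere_subset_closedBall hw))

end BivAux

open BivAux

theorem biv {f : ℂ → ℂ} (hf : DifferentiableOn ℂ f (ball 0 1)) (hi : InjOn f (ball 0 1))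
    (h0 : f 0 = 0) :
    ∃ b : ℕ → ℕ → ℂ,
      (∀ j k, b j k + b k j = tc (fun w => (deriv f w)⁻¹) (j + k + 1)) ∧
      ∀ n J, ∑ j ∈ range J, (j : ℝ) * ‖b j n‖ ^ 2 ≤
        ∑ k ∈ range (n + 1), ((k : ℝ) + 1) * ‖tc (fun w => (deriv f w)⁻¹) (n - k)‖ ^ 2 := by
  have hpi : (2 * π * Complex.I : ℂ) ≠ 0 := Complex.two_pi_I_ne_zero
  have hpi2 : (2 * π * Complex.I : ℂ) ^ 2 ≠ 0 := pow_ne_zero 2 hpi
  choose Q K hK hKQ hKr using fun n => qdef hf hi h0 n
  have hu : DifferentiableOn ℂ (fun w => (deriv f w)⁻¹) (ball 0 1) :=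
    (hf.deriv isOpen_ball).inv fun w hw => deriv_ne_zero isOpen_ball hf hi hw
  -- the single integral
  have hA : ∀ i : ℕ, (2 * π * Complex.I) * tc (fun w => (deriv f w)⁻¹) i =
      ∮ w in C(0, 1 / 2), w ^ (-((i : ℤ) + 1)) * (deriv f w)⁻¹ := by
    intro i
    rw [tc_eq hu (R := 1 / 2) (by norm_num) (by norm_num) i, mul_inv_cancel_left₀ hpi]
    apply circleIntegral.integral_congr (by norm_num)
    intro w hw
    simp only
    rw [zpow_neg, div_eq_mul_inv, mul_comm]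
    norm_cast
  -- low coefficients
  have hlow : ∀ n i : ℕ, i ≤ n → tc (K n) i = tc (fun w => (deriv f w)⁻¹) i := by
    intro n i hin
    apply mul_left_cancel₀ hpi2
    rw [tcK (hK n) (hKr n) (ρ := 3 / 4) (σ := 1 / 2) (by norm_num) (by norm_num) (by norm_num) i,
      move hf hi (τ := 1 / 4) (by norm_num) (by norm_num) (by norm_num) (by norm_num)]
    have h1 : (∮ w in C(0, 1 / 2), ∮ x in C(0, 1 / 4),
        x ^ ((n : ℤ) - i) * ((f x - f w)⁻¹ * w ^ (-((n : ℤ) + 1)))) =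
        ∮ w in C(0, 1 / 2), (0 : ℂ) := by
      apply circleIntegral.integral_congr (by norm_num)
      intro w hw
      rw [mem_sphere_zero_iff_norm] at hw
      have h2 := res0 hf hi (r := 1 / 4) (by norm_num) (w := w) (by rw [hw]; norm_num)
        (by rw [hw]; norm_num) (n - i)
      have h3 : (∮ x in C(0, 1 / 4), x ^ ((n : ℤ) - i) * ((f x - f w)⁻¹ *
          w ^ (-((n : ℤ) + 1)))) = w ^ (-((n : ℤ) + 1)) *
          ∮ x in C(0, 1 / 4), x ^ (n - i) * (f x - f w)⁻¹ := by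
        rw [← circleIntegral.integral_const_mul]
        congr 1
        funext x
        have : x ^ ((n : ℤ) - i) = x ^ (n - i) := by
          rw [← zpow_natCast, Nat.cast_sub hin]
        rw [this]
        ring
      simp only
      rw [h3, h2, mul_zero]
    have h4 : (∮ w in C(0, 1 / 2), (0 : ℂ)) = 0 := by
      simp [circleIntegral]
    rw [h1, h4, zero_add]
    have h5 : ((n : ℤ) - i + -((n : ℤ) + 1)) = -((i : ℤ) + 1) := by ring
    rw [h5, ← hA i]
    ring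
  refine ⟨fun j n => tc (K n) (n + 1 + j), ?_, ?_⟩
  · intro j n
    apply mul_left_cancel₀ hpi2
    rw [mul_add]
    rw [tcK (hK n) (hKr n) (ρ := 3 / 4) (σ := 1 / 2) (by norm_num) (by norm_num) (by norm_num)
      (n + 1 + j), tcK (hK j) (hKr j) (ρ := 1 / 2) (σ := 1 / 4) (by norm_num) (by norm_num)
      (by norm_num) (j + 1 + n),
      move hf hi (τ := 1 / 4) (by norm_num) (by norm_num) (by norm_num) (by norm_num)]
    have h5 : ((n : ℤ) - ((n + 1 + j : ℕ) : ℤ) + -((n : ℤ) + 1)) =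
        -(((j + n + 1 : ℕ) : ℤ) + 1) := by
      push_cast
      ring
    rw [h5, ← hA (j + n + 1)]
    have h6 : (∮ w in C(0, 1 / 2), ∮ x in C(0, 1 / 4),
        x ^ ((n : ℤ) - ((n + 1 + j : ℕ) : ℤ)) * ((f x - f w)⁻¹ * w ^ (-((n : ℤ) + 1)))) =
        -∮ x in C(0, 1 / 2), ∮ w in C(0, 1 / 4),
          x ^ ((j : ℤ) - ((j + 1 + n : ℕ) : ℤ)) * ((f x - f w)⁻¹ * w ^ (-((j : ℤ) + 1))) := by
      have hneg : ∀ (G : ℂ → ℂ) (R : ℝ), (∮ x in C(0, R), -G x) = -∮ x in C(0, R), G x := by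
        intro G R
        rw [← neg_one_mul (∮ x in C(0, R), G x), ← circleIntegral.integral_const_mul]
        congr 1
        funext x
        ring
      rw [← hneg]
      congr 1
      funext w
      rw [← hneg]
      congr 1
      funext x
      have e1 : ((n : ℤ) - ((n + 1 + j : ℕ) : ℤ)) = -((j : ℤ) + 1) := by
        push_cast; ring
      have e2 : ((j : ℤ) - ((j + 1 + n : ℕ) : ℤ)) = -((n : ℤ) + 1) := by
        push_cast; ring
      rw [e1, e2]
      have e3 : (f x - f w)⁻¹ = -(f w - f x)⁻¹ := by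
        rw [← neg_sub (f w) (f x), inv_neg]
      rw [e3]
      ring
    rw [h6]
    ring
  · intro n J
    have h := area hf hi h0 (Q n) n (K n) (hK n) (hKQ n) J
    refine h.trans (le_of_eq ?_)
    refine Finset.sum_congr rfl fun k _ => ?_
    rw [hlow n (n - k) (Nat.sub_le n k)]

end Vale.Agent.P142
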