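import Mathlib

open Metric Set MeasureTheory Filter Topology Finset
open scoped Real Polynomial

namespace Vale.Agent.P142

namespace EsumAux

/-- telescoping comparison for negative real powers. -/
theorem rpow_step (s x : ℝ) (hs : 0 < s) (hx : 1 < x) :
    x ^ (-(s + 1)) ≤ (1 / s) * ((x - 1) ^ (-s) - x ^ (-s)) := by
  have hx0 : (0 : ℝ) < x := by linarith
  have h1 : (0 : ℝ) < 1 - 1 / x := by
    have : 1 / x < 1 := by rw [div_lt_one hx0]; exact hx
    linarith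
  have h2 : x - 1 = x * (1 - 1 / x) := by field_simp
  have h3 : (x - 1) ^ (-s) = x ^ (-s) * (1 - 1 / x) ^ (-s) := by
    rw [h2, Real.mul_rpow hx0.le h1.le]
  have h4 : 1 + s / x ≤ (1 - 1 / x) ^ (-s) := by
    rw [Real.rpow_def_of_pos h1]
    have h5 : Real.log (1 - 1 / x) ≤ -(1 / x) := by
      have := Real.log_le_sub_one_of_pos h1
      linarith
    have h6 := Real.add_one_le_exp (Real.log (1 - 1 / x) * -s)
    have h7 : s / x ≤ Real.log (1 - 1 / x) * -s := by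
      have : s * Real.log (1 - 1 / x) ≤ s * (-(1 / x)) := mul_le_mul_of_nonneg_left h5 hs.le
      have h8 : s / x = s * (1 / x) := by ring
      rw [h8]; nlinarith
    linarith
  have hp : (0 : ℝ) < x ^ (-s) := Real.rpow_pos_of_pos hx0 _
  have h9 : x ^ (-(s + 1)) = x ^ (-s) / x := by
    rw [show -(s + 1) = -s - 1 by ring, Real.rpow_sub hx0, Real.rpow_one]
  rw [h9, h3]
  have h10 : x ^ (-s) * (1 + s / x) ≤ x ^ (-s) * (1 - 1 / x) ^ (-s) :=
    mul_le_mul_of_nonneg_left h4 hp.le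
  have h11 : x ^ (-s) / x = (1 / s) * (x ^ (-s) * (1 + s / x) - x ^ (-s)) := by
    field_simp
    ring
  rw [h11]
  apply mul_le_mul_of_nonneg_left _ (by positivity)
  linarith

theorem bsum (m d : ℕ) (hm : 2 ≤ m) :
    ∑ n ∈ Finset.Ico m (m + d), (n : ℝ) ^ (-(25 / 8 : ℝ)) ≤
      8 / 17 * (((m : ℝ) - 1) ^ (-(17 / 8 : ℝ)) - ((m : ℝ) + d - 1) ^ (-(17 / 8 : ℝ))) := by
  induction d with
  | zero => simp
  | succ d ih =>
    rw [← add_assoc, Finset.sum_Ico_succ_top (by omega)]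
    have hx : (1 : ℝ) < ((m + d : ℕ) : ℝ) := by exact_mod_cast (by omega : 1 < m + d)
    have h := rpow_step (17 / 8) ((m + d : ℕ) : ℝ) (by norm_num) hx
    have e1 : -(17 / 8 + 1 : ℝ) = -(25 / 8 : ℝ) := by norm_num
    rw [e1] at h
    have e2 : ((m + d : ℕ) : ℝ) = (m : ℝ) + d := by push_cast; ring
    have e3 : (m : ℝ) + ((d + 1 : ℕ) : ℝ) - 1 = (m : ℝ) + d := by push_cast; ring
    rw [e3]
    rw [e2] at h ⊢
    have e4 : (1 / (17 / 8) : ℝ) = 8 / 17 := by norm_num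
    rw [e4] at h
    linarith

theorem asum (N d : ℕ) (hN : 2 < N) :
    ∑ n ∈ Finset.Ico N (N + d), ((n - N + 1 : ℕ) : ℝ) * (n : ℝ) ^ (-(25 / 8 : ℝ)) ≤
      64 / 153 * ((N : ℝ) - 2) ^ (-(9 / 8 : ℝ)) := by
  induction d generalizing N with
  | zero =>
    have hN2 : (2 : ℝ) < N := by exact_mod_cast hN
    simp only [add_zero, Finset.Ico_self, Finset.sum_empty]
    have : (0 : ℝ) ≤ ((N : ℝ) - 2) ^ (-(9 / 8 : ℝ)) := Real.rpow_nonneg (by linarith) _
    positivity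
  | succ d ih =>
    have hN2 : (2 : ℝ) < N := by exact_mod_cast hN
    have hsplit : ∑ n ∈ Finset.Ico N (N + (d + 1)),
          ((n - N + 1 : ℕ) : ℝ) * (n : ℝ) ^ (-(25 / 8 : ℝ)) =
        ∑ n ∈ Finset.Ico (N + 1) (N + 1 + d),
          ((n - (N + 1) + 1 : ℕ) : ℝ) * (n : ℝ) ^ (-(25 / 8 : ℝ)) +
        ∑ n ∈ Finset.Ico N (N + (d + 1)), (n : ℝ) ^ (-(25 / 8 : ℝ)) := by
      have e : N + 1 + d = N + (d + 1) := by ring
      rw [e]
      rw [Finset.sum_eq_sum_Ico_succ_bot (by omega : N < N + (d + 1))]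
      rw [Finset.sum_eq_sum_Ico_succ_bot (by omega : N < N + (d + 1))
        (fun n => (n : ℝ) ^ (-(25 / 8 : ℝ)))]
      have hc : ∑ n ∈ Finset.Ico (N + 1) (N + (d + 1)),
            ((n - N + 1 : ℕ) : ℝ) * (n : ℝ) ^ (-(25 / 8 : ℝ)) =
          ∑ n ∈ Finset.Ico (N + 1) (N + (d + 1)),
            ((n - (N + 1) + 1 : ℕ) : ℝ) * (n : ℝ) ^ (-(25 / 8 : ℝ)) +
          ∑ n ∈ Finset.Ico (N + 1) (N + (d + 1)), (n : ℝ) ^ (-(25 / 8 : ℝ)) := by
        rw [← Finset.sum_add_distrib]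
        apply Finset.sum_congr rfl
        intro n hn
        rw [Finset.mem_Ico] at hn
        have : n - N + 1 = (n - (N + 1) + 1) + 1 := by omega
        rw [this]; push_cast; ring
      rw [hc]
      simp
      ring
    rw [hsplit]
    have h1 := ih (N + 1) (by omega)
    have h2 := bsum N (d + 1) (by omega)
    have h3 : (0 : ℝ) ≤ ((N : ℝ) + ((d + 1 : ℕ) : ℝ) - 1) ^ (-(17 / 8 : ℝ)) :=
      Real.rpow_nonneg (by push_cast; linarith [(Nat.cast_nonneg d : (0 : ℝ) ≤ d)]) _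
    have h4 := rpow_step (9 / 8) ((N : ℝ) - 1) (by norm_num) (by linarith)
    have e1 : -(9 / 8 + 1 : ℝ) = -(17 / 8 : ℝ) := by norm_num
    rw [e1] at h4
    have e2 : (N : ℝ) - 1 - 1 = (N : ℝ) - 2 := by ring
    have e3 : ((N + 1 : ℕ) : ℝ) - 2 = (N : ℝ) - 1 := by push_cast; ring
    have e4 : (1 / (9 / 8) : ℝ) = 8 / 9 := by norm_num
    rw [e2, e4] at h4
    rw [e3] at h1
    linarith

end EsumAux

/-- the upper bound for the weights. -/
theorem esum (N L : ℕ) (hN : 2 < N) :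
    ∑ n ∈ Finset.Ico N L, ((n - N + 1 : ℕ) : ℝ) * (n : ℝ) ^ (-(25 / 8 : ℝ)) ≤
      64 / 153 * ((N : ℝ) - 2) ^ (-(9 / 8 : ℝ)) := by
  rcases le_or_gt N L with h | h
  · obtain ⟨d, rfl⟩ := Nat.exists_eq_add_of_le h
    exact EsumAux.asum N d hN
  · rw [Finset.Ico_eq_empty (by omega)]
    have hN2 : (2 : ℝ) < N := by exact_mod_cast hN
    have : (0 : ℝ) ≤ ((N : ℝ) - 2) ^ (-(9 / 8 : ℝ)) := Real.rpow_nonneg (by linarith) _
    simp only [Finset.sum_empty]
    positivity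

end Vale.Agent.P142
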