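import Vale.Agent.P142.Num
import Vale.Agent.P142.Esum

/-! # P142: the weighted sum -/

open Metric Set MeasureTheory Filter Topology Finset
open scoped Real Polynomial

namespace Vale.Agent.P142

namespace CombAux

/-- the weight `n^(-25/8)` -/
noncomputable def wn (n : ℕ) : ℝ := (n : ℝ) ^ (-(25 / 8 : ℝ))

theorem wn_nonneg (n : ℕ) : 0 ≤ wn n := Real.rpow_nonneg (Nat.cast_nonneg n) _

theorem wn_zero : wn 0 = 0 := by
  unfold wn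
  rw [Nat.cast_zero, Real.zero_rpow (by norm_num)]

theorem wn_le_one (n : ℕ) : wn n ≤ 1 := by
  rcases Nat.eq_zero_or_pos n with rfl | hn
  · rw [wn_zero]; exact zero_le_one
  · unfold wn
    have h1 : (1 : ℝ) ≤ n := by exact_mod_cast hn
    exact Real.rpow_le_one_of_one_le_of_nonpos h1 (by norm_num)

/-- the pair inequality -/
theorem pair_le (U V : ℂ) (j n : ℕ) :
    ‖U + V‖ ^ 2 * (((j : ℝ) * (n : ℝ)) / ((j : ℝ) ^ (33 / 8 : ℝ) + (n : ℝ) ^ (33 / 8 : ℝ))) ≤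
      (j : ℝ) * wn n * ‖U‖ ^ 2 + (n : ℝ) * wn j * ‖V‖ ^ 2 := by
  have hr : 0 ≤ (j : ℝ) * wn n * ‖U‖ ^ 2 + (n : ℝ) * wn j * ‖V‖ ^ 2 := by
    have := wn_nonneg n
    have := wn_nonneg j
    positivity
  rcases Nat.eq_zero_or_pos j with hj | hj
  · rw [hj] at hr ⊢
    simpa using hr
  rcases Nat.eq_zero_or_pos n with hn | hn
  · rw [hn] at hr ⊢
    simpa using hr
  have hj' : (0 : ℝ) < j := by exact_mod_cast hj
  have hn' : (0 : ℝ) < n := by exact_mod_cast hn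
  have ej : wn j = j / (j : ℝ) ^ (33 / 8 : ℝ) := by
    unfold wn
    rw [show (-(25 / 8 : ℝ)) = 1 - 33 / 8 by norm_num, Real.rpow_sub hj', Real.rpow_one]
  have en : wn n = n / (n : ℝ) ^ (33 / 8 : ℝ) := by
    unfold wn
    rw [show (-(25 / 8 : ℝ)) = 1 - 33 / 8 by norm_num, Real.rpow_sub hn', Real.rpow_one]
  have hJ : 0 < (j : ℝ) ^ (33 / 8 : ℝ) := Real.rpow_pos_of_pos hj' _
  have hN : 0 < (n : ℝ) ^ (33 / 8 : ℝ) := Real.rpow_pos_of_pos hn' _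
  rw [ej, en]
  set J := (j : ℝ) ^ (33 / 8 : ℝ)
  set M := (n : ℝ) ^ (33 / 8 : ℝ)
  have h1 : ‖U + V‖ ^ 2 ≤ (‖U‖ + ‖V‖) ^ 2 :=
    pow_le_pow_left₀ (norm_nonneg _) (norm_add_le _ _) 2
  have h2 : (‖U‖ + ‖V‖) ^ 2 * ((j * n) / (J + M)) ≤
      j * (n / M) * ‖U‖ ^ 2 + n * (j / J) * ‖V‖ ^ 2 := by
    have e : j * (n / M) * ‖U‖ ^ 2 + n * (j / J) * ‖V‖ ^ 2 -
        (‖U‖ + ‖V‖) ^ 2 * ((j * n) / (J + M)) =
        (j * n) * (J * ‖U‖ - M * ‖V‖) ^ 2 / (J * M * (J + M)) := by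
      field_simp
      ring
    have h3 : 0 ≤ (j * n) * (J * ‖U‖ - M * ‖V‖) ^ 2 / (J * M * (J + M)) := by positivity
    linarith
  refine le_trans (mul_le_mul_of_nonneg_right h1 (by positivity)) h2

/-- lower bound for the left hand side -/
theorem lower_bd (a : ℕ → ℂ) (b : ℕ → ℕ → ℂ) (hS : ∀ j k, b j k + b k j = a (j + k + 1)) (L : ℕ) :
    ∑ N ∈ range L, ‖a N‖ ^ 2 * ((1 / 2) * ∑ j ∈ range N, ((j : ℝ) * ((N - 1 - j : ℕ) : ℝ)) /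
        ((j : ℝ) ^ (33 / 8 : ℝ) + ((N - 1 - j : ℕ) : ℝ) ^ (33 / 8 : ℝ))) ≤
      ∑ n ∈ range L, wn n * ∑ j ∈ range L, (j : ℝ) * ‖b j n‖ ^ 2 := by
  have h1 : ∀ N : ℕ, ‖a N‖ ^ 2 * ((1 / 2) * ∑ j ∈ range N, ((j : ℝ) * ((N - 1 - j : ℕ) : ℝ)) /
        ((j : ℝ) ^ (33 / 8 : ℝ) + ((N - 1 - j : ℕ) : ℝ) ^ (33 / 8 : ℝ))) ≤
      ∑ j ∈ range N, (j : ℝ) * wn (N - 1 - j) * ‖b j (N - 1 - j)‖ ^ 2 := by
    intro N
    have h2 : ∑ j ∈ range N, (j : ℝ) * wn (N - 1 - j) * ‖b j (N - 1 - j)‖ ^ 2 =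
        (1 / 2) * ∑ j ∈ range N, ((j : ℝ) * wn (N - 1 - j) * ‖b j (N - 1 - j)‖ ^ 2 +
          ((N - 1 - j : ℕ) : ℝ) * wn j * ‖b (N - 1 - j) j‖ ^ 2) := by
      have h3 : ∑ j ∈ range N, ((N - 1 - j : ℕ) : ℝ) * wn j * ‖b (N - 1 - j) j‖ ^ 2 =
          ∑ j ∈ range N, (j : ℝ) * wn (N - 1 - j) * ‖b j (N - 1 - j)‖ ^ 2 := by
        rw [← Finset.sum_range_reflect]
        refine Finset.sum_congr rfl fun j hj => ?_
        rw [Finset.mem_range] at hj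
        have : N - 1 - (N - 1 - j) = j := by omega
        rw [this]
      rw [Finset.sum_add_distrib, h3]
      ring
    rw [h2]
    have h4 : ‖a N‖ ^ 2 * ((1 / 2) * ∑ j ∈ range N, ((j : ℝ) * ((N - 1 - j : ℕ) : ℝ)) /
        ((j : ℝ) ^ (33 / 8 : ℝ) + ((N - 1 - j : ℕ) : ℝ) ^ (33 / 8 : ℝ))) =
        (1 / 2) * ∑ j ∈ range N, ‖a N‖ ^ 2 * (((j : ℝ) * ((N - 1 - j : ℕ) : ℝ)) /
        ((j : ℝ) ^ (33 / 8 : ℝ) + ((N - 1 - j : ℕ) : ℝ) ^ (33 / 8 : ℝ))) := by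
      rw [Finset.mul_sum, Finset.mul_sum, Finset.mul_sum]
      exact Finset.sum_congr rfl fun j _ => by ring
    rw [h4]
    refine mul_le_mul_of_nonneg_left (Finset.sum_le_sum fun j hj => ?_) (by norm_num)
    rw [Finset.mem_range] at hj
    have h5 : a N = b j (N - 1 - j) + b (N - 1 - j) j := by
      rw [hS]
      congr 1
      omega
    rw [h5]
    exact pair_le _ _ j (N - 1 - j)
  refine (Finset.sum_le_sum fun N _ => h1 N).trans ?_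
  have h6 : ∑ N ∈ range L, ∑ j ∈ range N, (j : ℝ) * wn (N - 1 - j) * ‖b j (N - 1 - j)‖ ^ 2 =
      ∑ j ∈ range L, ∑ N ∈ Finset.Ico (j + 1) L,
        (j : ℝ) * wn (N - 1 - j) * ‖b j (N - 1 - j)‖ ^ 2 := by
    refine Finset.sum_comm' fun N j => ?_
    simp only [Finset.mem_range, Finset.mem_Ico]
    omega
  have h7 : ∑ n ∈ range L, wn n * ∑ j ∈ range L, (j : ℝ) * ‖b j n‖ ^ 2 =
      ∑ j ∈ range L, ∑ n ∈ range L, (j : ℝ) * wn n * ‖b j n‖ ^ 2 := by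
    rw [Finset.sum_comm]
    refine Finset.sum_congr rfl fun n _ => ?_
    rw [Finset.mul_sum]
    exact Finset.sum_congr rfl fun j _ => by ring
  rw [h6, h7]
  refine Finset.sum_le_sum fun j _ => ?_
  rw [Finset.sum_Ico_eq_sum_range]
  have h8 : ∀ i : ℕ, j + 1 + i - 1 - j = i := fun i => by omega
  simp only [h8]
  refine Finset.sum_le_sum_of_subset_of_nonneg ?_ fun n _ _ => ?_
  · intro n hn
    rw [Finset.mem_range] at hn ⊢
    omega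
  · have := wn_nonneg n
    positivity

/-- rewriting of the right hand side -/
theorem upper_eq (a : ℕ → ℂ) (L : ℕ) :
    ∑ n ∈ range L, wn n * ∑ k ∈ range (n + 1), ((k : ℝ) + 1) * ‖a (n - k)‖ ^ 2 =
      ∑ N ∈ range L, ‖a N‖ ^ 2 * ∑ n ∈ Finset.Ico N L, ((n - N + 1 : ℕ) : ℝ) * wn n := by
  have h1 : ∀ n : ℕ, wn n * ∑ k ∈ range (n + 1), ((k : ℝ) + 1) * ‖a (n - k)‖ ^ 2 =
      ∑ k ∈ range (n + 1), ‖a k‖ ^ 2 * (((n - k + 1 : ℕ) : ℝ) * wn n) := by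
    intro n
    rw [← Finset.sum_range_reflect, Finset.mul_sum]
    refine Finset.sum_congr rfl fun k hk => ?_
    rw [Finset.mem_range] at hk
    have e1 : n + 1 - 1 - k = n - k := by omega
    have e2 : n - (n - k) = k := by omega
    rw [e1, e2]
    push_cast
    ring
  rw [Finset.sum_congr rfl fun n _ => h1 n]
  have h2 : ∑ n ∈ range L, ∑ k ∈ range (n + 1), ‖a k‖ ^ 2 * (((n - k + 1 : ℕ) : ℝ) * wn n) =
      ∑ k ∈ range L, ∑ n ∈ Finset.Ico k L, ‖a k‖ ^ 2 * (((n - k + 1 : ℕ) : ℝ) * wn n) := by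
    refine Finset.sum_comm' fun n k => ?_
    simp only [Finset.mem_range, Finset.mem_Ico]
    omega
  rw [h2]
  exact Finset.sum_congr rfl fun k _ => by rw [Finset.mul_sum]

/-- the upper weights are bounded -/
theorem weight_le (N L : ℕ) :
    ∑ n ∈ Finset.Ico N L, ((n - N + 1 : ℕ) : ℝ) * wn n ≤ 7 := by
  have h1 : ∑ n ∈ Finset.Ico N L, ((n - N + 1 : ℕ) : ℝ) * wn n ≤
      ∑ n ∈ range (L + 3), ((n : ℝ) + 1) * wn n := by
    refine (Finset.sum_le_sum (g := fun n : ℕ => ((n : ℝ) + 1) * wn n) fun n _ => ?_).trans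
      (Finset.sum_le_sum_of_subset_of_nonneg ?_ fun n _ _ => ?_)
    · refine mul_le_mul_of_nonneg_right ?_ (wn_nonneg n)
      have : n - N + 1 ≤ n + 1 := by omega
      exact_mod_cast this
    · intro n hn
      rw [Finset.mem_Ico] at hn
      rw [Finset.mem_range]
      omega
    · have := wn_nonneg n
      positivity
  have h2 : ∑ n ∈ range (L + 3), ((n : ℝ) + 1) * wn n =
      ∑ n ∈ range 3, ((n : ℝ) + 1) * wn n + ∑ n ∈ Finset.Ico 3 (L + 3), ((n : ℝ) + 1) * wn n := by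
    rw [Finset.sum_range_add_sum_Ico _ (by omega)]
  have h3 : ∑ n ∈ range 3, ((n : ℝ) + 1) * wn n ≤ 5 := by
    simp only [Finset.sum_range_succ, Finset.sum_range_zero, wn_zero]
    have e1 := wn_le_one 1
    have e2 := wn_le_one 2
    push_cast
    linarith
  have h4 : ∑ n ∈ Finset.Ico 3 (L + 3), ((n : ℝ) + 1) * wn n ≤
      4 * ∑ n ∈ Finset.Ico 3 (L + 3), ((n - 3 + 1 : ℕ) : ℝ) * (n : ℝ) ^ (-(25 / 8 : ℝ)) := by
    rw [Finset.mul_sum]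
    refine Finset.sum_le_sum fun n hn => ?_
    rw [Finset.mem_Ico] at hn
    have e : ((n : ℝ) + 1) ≤ 4 * ((n - 3 + 1 : ℕ) : ℝ) := by
      have : n + 1 ≤ 4 * (n - 3 + 1) := by omega
      exact_mod_cast this
    have := mul_le_mul_of_nonneg_right e (wn_nonneg n)
    calc ((n : ℝ) + 1) * wn n ≤ 4 * ((n - 3 + 1 : ℕ) : ℝ) * wn n := this
      _ = _ := by unfold wn; ring
  have h5 := esum 3 (L + 3) (by norm_num)
  have h6 : ((3 : ℕ) : ℝ) - 2 = 1 := by norm_num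
  rw [h6, Real.one_rpow] at h5
  linarith

theorem shift_le {c : ℝ} (hc : 64 / 153 < c) :
    ∃ N1 : ℕ, 3 ≤ N1 ∧ ∀ N ≥ N1, 64 / 153 * ((N : ℝ) - 2) ^ (-(9 / 8 : ℝ)) ≤
      c * (N : ℝ) ^ (-(9 / 8 : ℝ)) := by
  have h1 : Tendsto (fun N : ℕ => ((N : ℝ) / (N + (-2))) ^ (9 / 8 : ℝ)) atTop (𝓝 (1 ^ (9 / 8 : ℝ))) :=
    (tendsto_natCast_div_add_atTop (-2 : ℝ)).rpow_const (Or.inl one_ne_zero)
  rw [Real.one_rpow] at h1
  have h2 : (1 : ℝ) < c * (153 / 64) := by linarith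
  obtain ⟨N1, hN1⟩ := Filter.eventually_atTop.1 (h1.eventually_lt_const h2)
  refine ⟨max 3 N1, le_max_left _ _, fun N hN => ?_⟩
  have h3 := hN1 N ((le_max_right _ _).trans hN)
  have hN3 : (3 : ℝ) ≤ N := by exact_mod_cast (le_max_left _ _).trans hN
  have hp : 0 < (N : ℝ) := by linarith
  have hp2 : 0 < (N : ℝ) - 2 := by linarith
  rw [← sub_eq_add_neg, Real.div_rpow hp.le hp2.le] at h3
  rw [Real.rpow_neg hp.le, Real.rpow_neg hp2.le]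
  have hA : 0 < (N : ℝ) ^ (9 / 8 : ℝ) := Real.rpow_pos_of_pos hp _
  have hB : 0 < ((N : ℝ) - 2) ^ (9 / 8 : ℝ) := Real.rpow_pos_of_pos hp2 _
  rw [div_lt_iff₀ hB] at h3
  rw [← div_eq_mul_inv, ← div_eq_mul_inv, div_le_div_iff₀ hB hA]
  nlinarith

end CombAux

open CombAux

theorem comb (a : ℕ → ℂ) (b : ℕ → ℕ → ℂ) (hS : ∀ j k, b j k + b k j = a (j + k + 1))
    (hG : ∀ n J, ∑ j ∈ range J, (j : ℝ) * ‖b j n‖ ^ 2 ≤
      ∑ k ∈ range (n + 1), ((k : ℝ) + 1) * ‖a (n - k)‖ ^ 2) :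
    ∃ C : ℝ, ∀ N, ∑ n ∈ range N, ‖a n‖ ^ 2 * ((n : ℝ) + 1) ^ (-(9 / 8 : ℝ)) ≤ C := by
  obtain ⟨c, hc, N0, hnum⟩ := num
  set c' : ℝ := (c + 64 / 153) / 2 with hc'
  have hc1 : 64 / 153 < c' := by rw [hc']; linarith
  have hc2 : c' < c := by rw [hc']; linarith
  obtain ⟨N1, hN13, hN1⟩ := shift_le hc1
  set M : ℕ := max N0 N1 with hM
  have hM1 : N1 ≤ M := le_max_right _ _
  have hM0 : N0 ≤ M := le_max_left _ _
  set A : ℝ := ∑ n ∈ range M, ‖a n‖ ^ 2 with hA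
  have hA0 : 0 ≤ A := Finset.sum_nonneg fun n _ => by positivity
  -- the main inequality
  have key : ∀ L : ℕ, M ≤ L → (c - c') * ∑ N ∈ Finset.Ico M L, ‖a N‖ ^ 2 *
      (N : ℝ) ^ (-(9 / 8 : ℝ)) ≤ 7 * A := by
    intro L hL
    have h1 := lower_bd a b hS L
    have h2 : ∑ n ∈ range L, wn n * ∑ j ∈ range L, (j : ℝ) * ‖b j n‖ ^ 2 ≤
        ∑ n ∈ range L, wn n * ∑ k ∈ range (n + 1), ((k : ℝ) + 1) * ‖a (n - k)‖ ^ 2 :=
      Finset.sum_le_sum fun n _ => mul_le_mul_of_nonneg_left (hG n L) (wn_nonneg n)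
    rw [upper_eq] at h2
    have h3 := h1.trans h2
    rw [← Finset.sum_range_add_sum_Ico _ hL, ← Finset.sum_range_add_sum_Ico _ hL] at h3
    have h4 : 0 ≤ ∑ N ∈ range M, ‖a N‖ ^ 2 * ((1 / 2) * ∑ j ∈ range N,
        ((j : ℝ) * ((N - 1 - j : ℕ) : ℝ)) /
        ((j : ℝ) ^ (33 / 8 : ℝ) + ((N - 1 - j : ℕ) : ℝ) ^ (33 / 8 : ℝ))) :=
      Finset.sum_nonneg fun N _ => mul_nonneg (by positivity)
        (mul_nonneg (by norm_num) (Finset.sum_nonneg fun j _ => by positivity))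
    have h5 : ∑ N ∈ range M, ‖a N‖ ^ 2 * ∑ n ∈ Finset.Ico N L, ((n - N + 1 : ℕ) : ℝ) * wn n ≤
        7 * A := by
      rw [hA, Finset.mul_sum]
      refine Finset.sum_le_sum fun N _ => ?_
      rw [mul_comm 7]
      exact mul_le_mul_of_nonneg_left (weight_le N L) (by positivity)
    have h6 : ∑ N ∈ Finset.Ico M L, ‖a N‖ ^ 2 * ∑ n ∈ Finset.Ico N L,
        ((n - N + 1 : ℕ) : ℝ) * wn n ≤
        c' * ∑ N ∈ Finset.Ico M L, ‖a N‖ ^ 2 * (N : ℝ) ^ (-(9 / 8 : ℝ)) := by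
      rw [Finset.mul_sum]
      refine Finset.sum_le_sum fun N hN => ?_
      rw [Finset.mem_Ico] at hN
      have e1 := esum N L (by omega)
      have e2 := hN1 N (by omega)
      have e3 := e1.trans e2
      calc ‖a N‖ ^ 2 * ∑ n ∈ Finset.Ico N L, ((n - N + 1 : ℕ) : ℝ) * wn n
          ≤ ‖a N‖ ^ 2 * (c' * (N : ℝ) ^ (-(9 / 8 : ℝ))) :=
            mul_le_mul_of_nonneg_left e3 (by positivity)
        _ = _ := by ring
    have h7 : c * ∑ N ∈ Finset.Ico M L, ‖a N‖ ^ 2 * (N : ℝ) ^ (-(9 / 8 : ℝ)) ≤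
        ∑ N ∈ Finset.Ico M L, ‖a N‖ ^ 2 * ((1 / 2) * ∑ j ∈ range N,
        ((j : ℝ) * ((N - 1 - j : ℕ) : ℝ)) /
        ((j : ℝ) ^ (33 / 8 : ℝ) + ((N - 1 - j : ℕ) : ℝ) ^ (33 / 8 : ℝ))) := by
      rw [Finset.mul_sum]
      refine Finset.sum_le_sum fun N hN => ?_
      rw [Finset.mem_Ico] at hN
      calc c * (‖a N‖ ^ 2 * (N : ℝ) ^ (-(9 / 8 : ℝ)))
          = ‖a N‖ ^ 2 * (c * (N : ℝ) ^ (-(9 / 8 : ℝ))) := by ring
        _ ≤ _ := mul_le_mul_of_nonneg_left (hnum N (by omega)) (by positivity)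
    rw [sub_mul]
    linarith
  refine ⟨A + 7 * A / (c - c'), fun N => ?_⟩
  have hcc : 0 < c - c' := by linarith
  have h1 : ∑ n ∈ range N, ‖a n‖ ^ 2 * ((n : ℝ) + 1) ^ (-(9 / 8 : ℝ)) ≤
      ∑ n ∈ range (M + N), ‖a n‖ ^ 2 * ((n : ℝ) + 1) ^ (-(9 / 8 : ℝ)) := by
    refine Finset.sum_le_sum_of_subset_of_nonneg ?_ fun n _ _ => by positivity
    intro n hn
    rw [Finset.mem_range] at hn ⊢
    omega
  rw [← Finset.sum_range_add_sum_Ico _ (Nat.le_add_right M N)] at h1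
  have h2 : ∑ n ∈ range M, ‖a n‖ ^ 2 * ((n : ℝ) + 1) ^ (-(9 / 8 : ℝ)) ≤ A := by
    rw [hA]
    refine Finset.sum_le_sum fun n _ => ?_
    have : ((n : ℝ) + 1) ^ (-(9 / 8 : ℝ)) ≤ 1 :=
      Real.rpow_le_one_of_one_le_of_nonpos (by linarith [(Nat.cast_nonneg n : (0 : ℝ) ≤ n)])
        (by norm_num)
    exact mul_le_of_le_one_right (by positivity) this
  have h3 : ∑ n ∈ Finset.Ico M (M + N), ‖a n‖ ^ 2 * ((n : ℝ) + 1) ^ (-(9 / 8 : ℝ)) ≤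
      ∑ n ∈ Finset.Ico M (M + N), ‖a n‖ ^ 2 * (n : ℝ) ^ (-(9 / 8 : ℝ)) := by
    refine Finset.sum_le_sum fun n hn => ?_
    rw [Finset.mem_Ico] at hn
    have hn0 : (0 : ℝ) < n := by
      have : 0 < n := by omega
      exact_mod_cast this
    exact mul_le_mul_of_nonneg_left
      (Real.rpow_le_rpow_of_nonpos hn0 (by linarith) (by norm_num)) (by positivity)
  have h4 := key (M + N) (Nat.le_add_right M N)
  have h5 : ∑ n ∈ Finset.Ico M (M + N), ‖a n‖ ^ 2 * (n : ℝ) ^ (-(9 / 8 : ℝ)) ≤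
      7 * A / (c - c') := by
    rw [le_div_iff₀ hcc, mul_comm]
    exact h4
  linarith

end Vale.Agent.P142
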