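import Vale.Agent.P142.Defs
import Vale.Agent.P142.Dnz

/-!
# P142 [COV]: the inverse map and the change of variables
-/

open Metric Set MeasureTheory Filter Topology
open scoped Real

namespace Vale.Agent.P142

namespace CovAux

/-- the real determinant of the multiplication by a complex number -/
theorem det_smul_one (a : ℂ) : (a • (1 : ℂ →L[ℝ] ℂ)).det = ‖a‖ ^ 2 := by
  have h1 : ((a • (1 : ℂ →L[ℝ] ℂ) : ℂ →L[ℝ] ℂ) : ℂ →ₗ[ℝ] ℂ) = Algebra.lmul ℝ ℂ a := by
    ext <;> simp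
  rw [ContinuousLinearMap.det, h1, ← Algebra.norm_apply, Algebra.norm_complex_apply,
    Complex.normSq_eq_norm_sq]

end CovAux

open CovAux

theorem cov {W : Set ℂ} {φ : ℂ → ℂ} (hW : IsOpen W) (hφ : DifferentiableOn ℂ φ W)
    (hb : BijOn φ W (ball 0 1)) :
    ∃ f : ℂ → ℂ, DifferentiableOn ℂ f (ball 0 1) ∧ InjOn f (ball 0 1) ∧
      (∀ z ∈ W, f (φ z) = z) ∧
      ∀ s : ℝ, ∫⁻ z in W, ENNReal.ofReal (‖deriv φ z‖ ^ s) =
        ∫⁻ z in ball (0 : ℂ) 1, ENNReal.ofReal (‖deriv f z‖ ^ (2 - s)) := by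
  set f : ℂ → ℂ := Function.invFunOn φ W with hf
  have hinv : InvOn f φ W (ball 0 1) := hb.invOn_invFunOn
  have hl : ∀ z ∈ W, f (φ z) = z := fun z hz => hinv.1 hz
  have hr : ∀ w ∈ ball (0:ℂ) 1, φ (f w) = w := fun w hw => hinv.2 hw
  have hfW : BijOn f (ball 0 1) W := hb.symm hinv.symm
  have hne : ∀ z ∈ W, deriv φ z ≠ 0 := fun z hz => deriv_ne_zero hW hφ hb.injOn hz
  have hderiv : ∀ w ∈ ball (0:ℂ) 1, HasDerivAt f (deriv φ (f w))⁻¹ w := by
    intro w hw
    have hz : f w ∈ W := hfW.mapsTo hw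
    have hda : DifferentiableAt ℂ φ (f w) := hφ.differentiableAt (hW.mem_nhds hz)
    have han : AnalyticAt ℂ φ (f w) := hφ.analyticAt (hW.mem_nhds hz)
    have hs : HasStrictDerivAt φ (deriv φ (f w)) (f w) := han.hasStrictDerivAt
    have hmap : map φ (𝓝 (f w)) = 𝓝 (φ (f w)) := hs.map_nhds_eq (hne _ hz)
    rw [hr w hw] at hmap
    have hcont : ContinuousAt f w := by
      rw [ContinuousAt, ← hmap, tendsto_map'_iff]
      refine tendsto_id.congr' ?_
      filter_upwards [hW.mem_nhds hz] with z hz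
      exact (hl z hz).symm
    refine HasDerivAt.of_local_left_inverse hcont hda.hasDerivAt (hne _ hz) ?_
    filter_upwards [isOpen_ball.mem_nhds hw] with y hy
    exact hr y hy
  refine ⟨f, fun w hw => (hderiv w hw).differentiableAt.differentiableWithinAt, hfW.injOn, hl, ?_⟩
  intro s
  have h1 := lintegral_image_eq_lintegral_abs_det_fderiv_mul (volume : Measure ℂ)
    measurableSet_ball (f := f) (f' := fun w => (deriv f w) • (1 : ℂ →L[ℝ] ℂ)) (s := ball 0 1)
    (fun w hw => by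
      have h2 : HasDerivAt f (deriv f w) w := (hderiv w hw).differentiableAt.hasDerivAt
      exact h2.complexToReal_fderiv.hasFDerivWithinAt) hfW.injOn
    (fun z => ENNReal.ofReal (‖deriv φ z‖ ^ s))
  rw [hfW.image_eq] at h1
  rw [h1]
  refine setLIntegral_congr_fun measurableSet_ball fun w hw => ?_
  have h3 : deriv f w = (deriv φ (f w))⁻¹ := (hderiv w hw).deriv
  have h4 : deriv φ (f w) ≠ 0 := hne _ (hfW.mapsTo hw)
  have h5 : 0 < ‖deriv φ (f w)‖ := norm_pos_iff.2 h4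
  rw [det_smul_one, h3, norm_inv, ← ENNReal.ofReal_mul (abs_nonneg _),
    abs_of_nonneg (by positivity)]
  congr 1
  rw [Real.inv_rpow h5.le, ← Real.rpow_neg h5.le, inv_pow, ← Real.rpow_natCast,
    ← Real.rpow_neg h5.le, ← Real.rpow_add h5]
  congr 1
  push_cast
  ring

end Vale.Agent.P142
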