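import Mathlib

open Metric Set MeasureTheory Filter Topology
open scoped Real

namespace Vale.Agent.P142

/-- The class S: injective holomorphic functions on the unit disc with `f 0 = 0`, `f' 0 = 1`. -/
def IsS (f : ℂ → ℂ) : Prop :=
  DifferentiableOn ℂ f (ball 0 1) ∧ InjOn f (ball 0 1) ∧ f 0 = 0 ∧ deriv f 0 = 1

/-- Integral means `M_t[f'](r)`. -/
noncomputable def Mt (f : ℂ → ℂ) (t r : ℝ) : ℝ :=
  (1 / (2 * π)) * ∫ θ in (-π)..π, ‖deriv f (r * Complex.exp (θ * Complex.I))‖ ^ t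

/-- `beta_f(t) = limsup_{r -> 1-} log M_t[f'](r) / log (1 / (1 - r))`. -/
noncomputable def betaf (f : ℂ → ℂ) (t : ℝ) : EReal :=
  limsup (fun r : ℝ => ((Real.log (Mt f t r) / Real.log (1 / (1 - r)) : ℝ) : EReal)) (𝓝[<] 1)

/-- The universal integral means spectrum `B_S(t) = sup_{f in S} beta_f(t)`. -/
noncomputable def BS (t : ℝ) : EReal := ⨆ f : {f : ℂ → ℂ // IsS f}, betaf f.1 t

/-- `n`-th Taylor coefficient at `0` (as a Cauchy integral). -/
noncomputable def tc (g : ℂ → ℂ) (n : ℕ) : ℂ :=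
  (2 * π * Complex.I)⁻¹ * ∮ z in C(0, 1 / 2), g z / z ^ (n + 1)

end Vale.Agent.P142
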