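import Vale.Agent.P142.Defs
import Vale.Agent.P142.Dnz

/-! # P142: area integrals, negative exponents -/

open Metric Set MeasureTheory Filter Topology Finset
open scoped Real Polynomial

namespace Vale.Agent.P142

namespace IntgAux

/-- pointwise Young inequality -/
theorem young {u δ p : ℝ} (hu : 0 < u) (hδ : 0 < δ) (hp0 : 0 ≤ p) (hp : p < 16 / 9) :
    u ^ (-p) ≤ δ ^ (9 / 8 * (1 - p / 2)) * u ^ (-2 : ℝ) + δ ^ (-(9 / 16 * p)) := by
  have hx : 0 < u ^ (-2 : ℝ) := Real.rpow_pos_of_pos hu _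
  have hd : 0 < δ ^ (-(9 / 8) : ℝ) := Real.rpow_pos_of_pos hδ _
  have h1 : 0 ≤ δ ^ (9 / 8 * (1 - p / 2)) * u ^ (-2 : ℝ) := by positivity
  have h2 : 0 ≤ δ ^ (-(9 / 16 * p)) := by positivity
  rcases le_or_gt (u ^ (-2 : ℝ)) (δ ^ (-(9 / 8) : ℝ)) with h | h
  · have e1 : u ^ (-p) = (u ^ (-2 : ℝ)) ^ (p / 2) := by
      rw [← Real.rpow_mul hu.le]
      congr 1
      ring
    have e2 : (δ ^ (-(9 / 8) : ℝ)) ^ (p / 2) = δ ^ (-(9 / 16 * p)) := by
      rw [← Real.rpow_mul hδ.le]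
      congr 1
      ring
    have := Real.rpow_le_rpow hx.le h (by linarith : 0 ≤ p / 2)
    rw [← e1, e2] at this
    linarith
  · have e1 : u ^ (-p) = (u ^ (-2 : ℝ)) ^ (-(1 - p / 2)) * u ^ (-2 : ℝ) := by
      rw [← Real.rpow_mul hu.le, ← Real.rpow_add hu]
      congr 1
      ring
    have e2 : (δ ^ (-(9 / 8) : ℝ)) ^ (-(1 - p / 2)) = δ ^ (9 / 8 * (1 - p / 2)) := by
      rw [← Real.rpow_mul hδ.le]
      congr 1
      ring
    have h3 : (u ^ (-2 : ℝ)) ^ (-(1 - p / 2)) ≤ (δ ^ (-(9 / 8) : ℝ)) ^ (-(1 - p / 2)) :=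
      Real.rpow_le_rpow_of_nonpos hd h.le (by linarith)
    rw [e2] at h3
    rw [e1]
    have := mul_le_mul_of_nonneg_right h3 hx.le
    linarith

theorem mem_ball_circle {r : ℝ} (hr0 : 0 ≤ r) (hr : r < 1) (θ : ℝ) :
    (r : ℂ) * Complex.exp (θ * Complex.I) ∈ ball (0 : ℂ) 1 := by
  rw [mem_ball_zero_iff, norm_mul, Complex.norm_exp_ofReal_mul_I, mul_one, Complex.norm_real,
    Real.norm_of_nonneg hr0]
  exact hr

variable {f : ℂ → ℂ} (hf : DifferentiableOn ℂ f (ball 0 1)) (hi : InjOn f (ball 0 1))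

include hf hi

theorem cont {r : ℝ} (hr0 : 0 ≤ r) (hr : r < 1) :
    Continuous fun θ : ℝ => ‖deriv f (r * Complex.exp (θ * Complex.I))‖ ^ (-2 : ℝ) := by
  have h1 : ContinuousOn (deriv f) (ball 0 1) := (hf.deriv isOpen_ball).continuousOn
  have h2 : Continuous fun θ : ℝ => deriv f (r * Complex.exp (θ * Complex.I)) :=
    h1.comp_continuous (by fun_prop) fun θ => mem_ball_circle hr0 hr θ
  refine h2.norm.rpow_const fun θ => Or.inl ?_
  exact norm_ne_zero_iff.2 (deriv_ne_zero isOpen_ball hf hi (mem_ball_circle hr0 hr θ))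

/-- the integral over a circle -/
theorem circle_le {C : ℝ} (hC : 0 < C)
    (h : ∀ r : ℝ, 0 ≤ r → r < 1 → Mt f (-2) r ≤ C * (1 - r) ^ (-(9 / 8 : ℝ)))
    {p : ℝ} (hp0 : 0 ≤ p) (hp : p < 16 / 9) {r : ℝ} (hr0 : 0 ≤ r) (hr : r < 1) :
    ∫⁻ θ in Ioo (-π) π, ENNReal.ofReal (‖deriv f (r * Complex.exp (θ * Complex.I))‖ ^ (-p)) ≤
      ENNReal.ofReal (2 * π * (C + 1) * (1 - r) ^ (-(9 / 16 * p))) := by
  have hδ : 0 < 1 - r := by linarith
  set A : ℝ := (1 - r) ^ (9 / 8 * (1 - p / 2)) with hA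
  set D : ℝ := (1 - r) ^ (-(9 / 16 * p)) with hD
  have hA0 : 0 < A := Real.rpow_pos_of_pos hδ _
  have hD0 : 0 < D := Real.rpow_pos_of_pos hδ _
  have hcont := cont hf hi hr0 hr
  have hcont2 : Continuous fun θ : ℝ =>
      A * ‖deriv f (r * Complex.exp (θ * Complex.I))‖ ^ (-2 : ℝ) + D :=
    (continuous_const.mul hcont).add continuous_const
  have h1 : ∫⁻ θ in Ioo (-π) π,
      ENNReal.ofReal (‖deriv f (r * Complex.exp (θ * Complex.I))‖ ^ (-p)) ≤
      ∫⁻ θ in Ioo (-π) π,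
      ENNReal.ofReal (A * ‖deriv f (r * Complex.exp (θ * Complex.I))‖ ^ (-2 : ℝ) + D) := by
    refine lintegral_mono fun θ => ENNReal.ofReal_le_ofReal ?_
    exact young (norm_pos_iff.2 (deriv_ne_zero isOpen_ball hf hi (mem_ball_circle hr0 hr θ)))
      hδ hp0 hp
  refine h1.trans ?_
  have hint : IntegrableOn (fun θ : ℝ =>
      A * ‖deriv f (r * Complex.exp (θ * Complex.I))‖ ^ (-2 : ℝ) + D) (Ioo (-π) π) :=
    (hcont2.integrableOn_Icc (a := -π) (b := π)).mono_set Ioo_subset_Icc_self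
  rw [← ofReal_integral_eq_lintegral_ofReal hint
    (Filter.Eventually.of_forall fun θ => by positivity)]
  refine ENNReal.ofReal_le_ofReal ?_
  rw [← integral_Ioc_eq_integral_Ioo, ← intervalIntegral.integral_of_le (by linarith [Real.pi_pos])]
  have hsplit : ∫ θ in (-π)..π, (A * ‖deriv f (r * Complex.exp (θ * Complex.I))‖ ^ (-2 : ℝ) + D) =
      A * (∫ θ in (-π)..π, ‖deriv f (r * Complex.exp (θ * Complex.I))‖ ^ (-2 : ℝ)) +
        (π - -π) • D := by
    rw [← intervalIntegral.integral_const_mul, ← intervalIntegral.integral_const,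
      intervalIntegral.integral_add]
    · exact (continuous_const.mul hcont).intervalIntegrable _ _
    · exact continuous_const.intervalIntegrable _ _
  rw [hsplit]
  have h2 := h r hr0 hr
  unfold Mt at h2
  have hπ := Real.pi_pos
  have h3 : ∫ θ in (-π)..π, ‖deriv f (r * Complex.exp (θ * Complex.I))‖ ^ (-2 : ℝ) ≤
      2 * π * (C * (1 - r) ^ (-(9 / 8 : ℝ))) := by
    rw [one_div, inv_mul_le_iff₀ (by positivity)] at h2
    exact h2
  have h4 : A * (1 - r) ^ (-(9 / 8 : ℝ)) = D := by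
    rw [hA, hD, ← Real.rpow_add hδ]
    congr 1
    ring
  calc A * (∫ θ in (-π)..π, ‖deriv f (r * Complex.exp (θ * Complex.I))‖ ^ (-2 : ℝ)) +
        (π - -π) • D
      ≤ A * (2 * π * (C * (1 - r) ^ (-(9 / 8 : ℝ)))) + (π - -π) • D := by
        have := mul_le_mul_of_nonneg_left h3 hA0.le
        linarith
    _ = 2 * π * C * (A * (1 - r) ^ (-(9 / 8 : ℝ))) + 2 * π * D := by
        rw [smul_eq_mul]; ring
    _ = 2 * π * (C + 1) * D := by rw [h4]; ring

end IntgAux

open IntgAux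

theorem intneg {f : ℂ → ℂ} (hf : DifferentiableOn ℂ f (ball 0 1)) (hi : InjOn f (ball 0 1))
    {C : ℝ} (hC : 0 < C)
    (h : ∀ r : ℝ, 0 ≤ r → r < 1 → Mt f (-2) r ≤ C * (1 - r) ^ (-(9 / 8 : ℝ)))
    {p : ℝ} (hp0 : 0 ≤ p) (hp : p < 16 / 9) :
    ∫⁻ z in ball (0 : ℂ) 1, ENNReal.ofReal (‖deriv f z‖ ^ (-p)) < ⊤ := by
  rw [← lintegral_indicator measurableSet_ball, ← Complex.lintegral_comp_polarCoord_symm]
  set G : ℂ → ENNReal := (ball (0 : ℂ) 1).indicator
    fun z => ENNReal.ofReal (‖deriv f z‖ ^ (-p)) with hG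
  have hmeas : (volume : Measure (ℝ × ℝ)).restrict polarCoord.target =
      (volume.restrict (Ioi (0 : ℝ))).prod (volume.restrict (Ioo (-π) π)) := by
    rw [Measure.prod_restrict, ← Measure.volume_eq_prod]
    rfl
  rw [hmeas]
  refine lt_of_le_of_lt (lintegral_prod_le _) ?_
  -- bound of the inner integral
  have hinner : ∀ r ∈ Ioi (0 : ℝ), ∫⁻ θ in Ioo (-π) π,
      ENNReal.ofReal (r, θ).1 • G (Complex.polarCoord.symm (r, θ)) ≤
      (Ioo (0 : ℝ) 1).indicator
        (fun r => ENNReal.ofReal (2 * π * (C + 1) * (1 - r) ^ (-(9 / 16 * p)))) r := by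
    intro r hr
    have hr0 : 0 < r := hr
    have hpt : ∀ θ : ℝ, Complex.polarCoord.symm (r, θ) = (r : ℂ) * Complex.exp (θ * Complex.I) := by
      intro θ
      rw [Complex.polarCoord_symm_apply, Complex.exp_mul_I]
      push_cast
      rfl
    by_cases hr1 : r < 1
    · have hmem : r ∈ Set.Ioo (0 : ℝ) 1 := ⟨hr0, hr1⟩
      rw [Set.indicator_of_mem hmem]
      refine le_trans (lintegral_mono fun θ => ?_) (circle_le hf hi hC h hp0 hp hr0.le hr1)
      rw [hpt, hG, Set.indicator_of_mem (mem_ball_circle hr0.le hr1 θ)]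
      refine mul_le_of_le_one_left zero_le ?_
      exact ENNReal.ofReal_le_one.2 hr1.le
    · have hz : ∀ θ : ℝ, ENNReal.ofReal (r, θ).1 • G (Complex.polarCoord.symm (r, θ)) = 0 := by
        intro θ
        rw [hG, Set.indicator_of_notMem, smul_zero]
        rw [mem_ball_zero_iff, Complex.norm_polarCoord_symm, abs_of_pos hr0]
        exact hr1
      simp only [hz, lintegral_zero]
      exact zero_le
  refine lt_of_le_of_lt (setLIntegral_mono' measurableSet_Ioi hinner) ?_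
  refine lt_of_le_of_lt (setLIntegral_le_lintegral _ _) ?_
  rw [lintegral_indicator measurableSet_Ioo]
  have hint : IntervalIntegrable (fun r : ℝ => (1 - r) ^ (-(9 / 16 * p))) volume 0 1 := by
    have h1 : IntervalIntegrable (fun x : ℝ => x ^ (-(9 / 16 * p))) volume 0 1 :=
      intervalIntegral.intervalIntegrable_rpow' (by linarith)
    have h2 := h1.comp_sub_left 1
    simpa using h2.symm
  have hint2 : IntegrableOn (fun r : ℝ => 2 * π * (C + 1) * (1 - r) ^ (-(9 / 16 * p)))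
      (Ioo (0 : ℝ) 1) := by
    have h1 := (intervalIntegrable_iff_integrableOn_Ioo_of_le zero_le_one).1 hint
    exact h1.const_mul _
  exact hint2.lintegral_lt_top

end Vale.Agent.P142
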