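import Vale.Agent.P142.Tc
import Vale.Agent.P142.Dnz

open Metric Set MeasureTheory Filter Topology Finset
open scoped Real Polynomial

namespace Vale.Agent.P142

/-! ### [MEAN] -/

/-- `(n+1)^{9/8} r^{2n} ≤ e² (1-r)^{-9/8}` -/
theorem mean_weight {r : ℝ} (hr0 : 0 ≤ r) (hr1 : r < 1) (n : ℕ) :
    r ^ (2 * n) ≤ Real.exp 2 * (1 - r) ^ (-(9 / 8 : ℝ)) * ((n : ℝ) + 1) ^ (-(9 / 8 : ℝ)) := by
  have h1r : 0 < 1 - r := sub_pos.2 hr1
  have hn : (0 : ℝ) < (n : ℝ) + 1 := by positivity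
  rw [mul_assoc, ← Real.mul_rpow h1r.le hn.le]
  set x : ℝ := (1 - r) * ((n : ℝ) + 1) with hx
  have hx0 : 0 < x := by positivity
  -- `r ≤ exp (-(1-r))`
  have h1 : r ≤ Real.exp (-(1 - r)) := by
    have := Real.add_one_le_exp (-(1 - r))
    linarith
  have h2 : r ^ (2 * n) ≤ Real.exp 2 * Real.exp (-(2 * x)) := by
    calc r ^ (2 * n) ≤ Real.exp (-(1 - r)) ^ (2 * n) := pow_le_pow_left₀ hr0 h1 _
      _ = Real.exp (2 * (1 - r) + -(2 * x)) := by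
          rw [← Real.exp_nat_mul, hx]
          push_cast
          ring_nf
      _ ≤ Real.exp (2 + -(2 * x)) := by
          refine Real.exp_le_exp.2 ?_
          linarith
      _ = Real.exp 2 * Real.exp (-(2 * x)) := Real.exp_add _ _
  have h3 : x ^ (9 / 8 : ℝ) ≤ Real.exp (2 * x) := by
    have h4 : x ^ (9 / 8 : ℝ) ≤ 1 + x ^ 2 := by
      rcases le_total x 1 with h | h
      · have := Real.rpow_le_one hx0.le h (by norm_num : (0 : ℝ) ≤ 9 / 8)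
        nlinarith [sq_nonneg x]
      · have := Real.rpow_le_rpow_of_exponent_le h (by norm_num : (9 / 8 : ℝ) ≤ 2)
        rw [Real.rpow_two] at this
        linarith
    have h5 := Real.quadratic_le_exp_of_nonneg (by positivity : 0 ≤ 2 * x)
    nlinarith
  have h6 : Real.exp (-(2 * x)) ≤ x ^ (-(9 / 8 : ℝ)) := by
    rw [Real.exp_neg, Real.rpow_neg hx0.le]
    exact inv_anti₀ (Real.rpow_pos_of_pos hx0 _) h3
  exact h2.trans (mul_le_mul_of_nonneg_left h6 (Real.exp_pos _).le)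

theorem mean {f : ℂ → ℂ} (hf : DifferentiableOn ℂ f (ball 0 1)) (hi : InjOn f (ball 0 1))
    (hC : ∃ C : ℝ, ∀ N, ∑ n ∈ range N, ‖tc (fun w => (deriv f w)⁻¹) n‖ ^ 2 *
      ((n : ℝ) + 1) ^ (-(9 / 8 : ℝ)) ≤ C) :
    ∃ C : ℝ, 0 < C ∧ ∀ r : ℝ, 0 ≤ r → r < 1 → Mt f (-2) r ≤ C * (1 - r) ^ (-(9 / 8 : ℝ)) := by
  obtain ⟨C, hC⟩ := hC
  set u : ℂ → ℂ := fun w => (deriv f w)⁻¹ with hu
  have hud : DifferentiableOn ℂ u (ball 0 1) := by
    refine (hf.deriv isOpen_ball).inv fun z hz => ?_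
    exact deriv_ne_zero isOpen_ball hf hi hz
  have hC0 : 0 ≤ C := by
    have := hC 0
    simpa using this
  refine ⟨Real.exp 2 * (C + 1), by positivity, fun r hr0 hr1 => ?_⟩
  have h1r : 0 < 1 - r := sub_pos.2 hr1
  have hP := tc_parseval hud hr0 hr1
  have hM : Mt f (-2) r =
      (1 / (2 * π)) * ∫ θ in (-π)..π, ‖u (r * Complex.exp (θ * Complex.I))‖ ^ (2 : ℕ) := by
    unfold Mt
    congr 2
    funext θ
    simp only [hu]
    rw [norm_inv, inv_pow, Real.rpow_neg (norm_nonneg _), Real.rpow_two]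
  rw [hM, ← hP.tsum_eq]
  refine Real.tsum_le_of_sum_range_le (fun n => by positivity) fun N => ?_
  have hK : 0 ≤ Real.exp 2 * (1 - r) ^ (-(9 / 8 : ℝ)) := by positivity
  calc ∑ n ∈ range N, ‖tc u n‖ ^ 2 * r ^ (2 * n)
      ≤ ∑ n ∈ range N, (Real.exp 2 * (1 - r) ^ (-(9 / 8 : ℝ))) *
          (‖tc u n‖ ^ 2 * ((n : ℝ) + 1) ^ (-(9 / 8 : ℝ))) := by
        refine Finset.sum_le_sum fun n _ => ?_
        have := mul_le_mul_of_nonneg_left (mean_weight hr0 hr1 n) (sq_nonneg ‖tc u n‖)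
        calc ‖tc u n‖ ^ 2 * r ^ (2 * n) ≤ _ := this
          _ = _ := by ring
    _ = (Real.exp 2 * (1 - r) ^ (-(9 / 8 : ℝ))) *
          ∑ n ∈ range N, ‖tc u n‖ ^ 2 * ((n : ℝ) + 1) ^ (-(9 / 8 : ℝ)) := by
        rw [Finset.mul_sum]
    _ ≤ (Real.exp 2 * (1 - r) ^ (-(9 / 8 : ℝ))) * (C + 1) :=
        mul_le_mul_of_nonneg_left ((hC N).trans (by linarith)) hK
    _ = Real.exp 2 * (C + 1) * (1 - r) ^ (-(9 / 8 : ℝ)) := by ring

end Vale.Agent.P142
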