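import Vale.Agent.P142.NumP

open Metric Set MeasureTheory Filter Topology Finset
open scoped Real Polynomial

namespace Vale.Agent.P142

namespace NumAux

/-! ### the binomial inequality -/

/-- a function vanishing at `0` with nonnegative derivative on `(0,1)` is nonnegative. -/
theorem nonneg_of_deriv (f f' : ℝ → ℝ) (hc : ContinuousOn f (Set.Icc 0 1))
    (hd : ∀ x ∈ Set.Ioo (0 : ℝ) 1, HasDerivAt f (f' x) x)
    (hf' : ∀ x ∈ Set.Ioo (0 : ℝ) 1, 0 ≤ f' x) (h0 : f 0 = 0) :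
    ∀ x ∈ Set.Icc (0 : ℝ) 1, 0 ≤ f x := by
  have hm : MonotoneOn f (Set.Icc 0 1) := by
    apply monotoneOn_of_deriv_nonneg (convex_Icc 0 1) hc
    · intro x hx
      rw [interior_Icc] at hx
      exact (hd x hx).differentiableAt.differentiableWithinAt
    · intro x hx
      rw [interior_Icc] at hx
      rw [(hd x hx).deriv]
      exact hf' x hx
  intro x hx
  have := hm (Set.left_mem_Icc.mpr zero_le_one) hx hx.1
  rw [h0] at this
  exact this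

theorem hd_sub (b : ℝ) (x : ℝ) (hx : x ∈ Set.Ioo (0 : ℝ) 1) :
    HasDerivAt (fun x : ℝ => (1 - x) ^ b) (-(b * (1 - x) ^ (b - 1))) x := by
  have h1 : HasDerivAt (fun x : ℝ => 1 - x) (-1) x := by
    simpa using (hasDerivAt_id x).const_sub 1
  have h2 := h1.rpow_const (p := b) (Or.inl (by linarith [hx.2] : (1 : ℝ) - x ≠ 0))
  convert h2 using 1
  ring

theorem hd_add (b : ℝ) (x : ℝ) (hx : x ∈ Set.Ioo (0 : ℝ) 1) :
    HasDerivAt (fun x : ℝ => (1 + x) ^ b) (b * (1 + x) ^ (b - 1)) x := by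
  have h1 : HasDerivAt (fun x : ℝ => 1 + x) 1 x := by
    simpa using (hasDerivAt_id x).const_add 1
  have h2 := h1.rpow_const (p := b) (Or.inl (by linarith [hx.1] : (1 : ℝ) + x ≠ 0))
  convert h2 using 1
  ring

theorem cont_sub (b : ℝ) (hb : 0 ≤ b) : Continuous (fun x : ℝ => (1 - x) ^ b) :=
  (continuous_const.sub continuous_id).rpow_const (fun _ => Or.inr hb)

theorem cont_add (b : ℝ) (hb : 0 ≤ b) : Continuous (fun x : ℝ => (1 + x) ^ b) :=
  (continuous_const.add continuous_id).rpow_const (fun _ => Or.inr hb)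

theorem step3 : ∀ x ∈ Set.Icc (0 : ℝ) 1,
    0 ≤ 48 * (42075 / 32768) * x + (33 / 8) * (25 / 8) * (17 / 8) *
      ((1 - x) ^ (9 / 8 : ℝ) - (1 + x) ^ (9 / 8 : ℝ)) := by
  apply nonneg_of_deriv _ (fun x => 48 * (42075 / 32768) + (33 / 8) * (25 / 8) * (17 / 8) *
      (-((9 / 8 : ℝ) * (1 - x) ^ ((9 / 8 : ℝ) - 1)) - (9 / 8 : ℝ) * (1 + x) ^ ((9 / 8 : ℝ) - 1)))
  · have h1 := cont_sub (9 / 8) (by norm_num)
    have h2 := cont_add (9 / 8) (by norm_num)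
    exact ((continuous_const.mul continuous_id).add
      (continuous_const.mul (h1.sub h2))).continuousOn
  · intro x hx
    have h1 := hd_sub (9 / 8) x hx
    have h2 := hd_add (9 / 8) x hx
    have h3 : HasDerivAt (fun x : ℝ => 48 * (42075 / 32768) * x) (48 * (42075 / 32768)) x := by
      simpa using (hasDerivAt_id x).const_mul (48 * (42075 / 32768) : ℝ)
    exact h3.add ((h1.sub h2).const_mul _)
  · intro x hx
    have e : (9 / 8 : ℝ) - 1 = 1 / 8 := by norm_num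
    rw [e]
    have h1 : (1 + -x) ^ (1 / 8 : ℝ) ≤ 1 + (1 / 8) * (-x) :=
      rpow_one_add_le_one_add_mul_self (by linarith [hx.2]) (by norm_num) (by norm_num)
    have h2 : (1 + x) ^ (1 / 8 : ℝ) ≤ 1 + (1 / 8) * x :=
      rpow_one_add_le_one_add_mul_self (by linarith [hx.1]) (by norm_num) (by norm_num)
    rw [← sub_eq_add_neg] at h1
    nlinarith
  · norm_num

theorem step2 : ∀ x ∈ Set.Icc (0 : ℝ) 1,
    0 ≤ 4 * (825 / 128) + 24 * (42075 / 32768) * x ^ 2 - (33 / 8) * (25 / 8) *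
      ((1 - x) ^ (17 / 8 : ℝ) + (1 + x) ^ (17 / 8 : ℝ)) := by
  apply nonneg_of_deriv _ (fun x => 24 * (42075 / 32768) * (2 * x) - (33 / 8) * (25 / 8) *
      (-((17 / 8 : ℝ) * (1 - x) ^ ((17 / 8 : ℝ) - 1)) + (17 / 8 : ℝ) * (1 + x) ^ ((17 / 8 : ℝ) - 1)))
  · have h1 := cont_sub (17 / 8) (by norm_num)
    have h2 := cont_add (17 / 8) (by norm_num)
    exact ((continuous_const.add (continuous_const.mul (continuous_pow 2))).sub
      (continuous_const.mul (h1.add h2))).continuousOn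
  · intro x hx
    have h1 := hd_sub (17 / 8) x hx
    have h2 := hd_add (17 / 8) x hx
    have h3 : HasDerivAt (fun x : ℝ => 4 * (825 / 128) + 24 * (42075 / 32768) * x ^ 2)
        (24 * (42075 / 32768) * (2 * x)) x := by
      have := ((hasDerivAt_pow 2 x).const_mul (24 * (42075 / 32768) : ℝ)).const_add
        (4 * (825 / 128) : ℝ)
      simpa using this
    exact h3.sub ((h1.add h2).const_mul _)
  · intro x hx
    have e : (17 / 8 : ℝ) - 1 = 9 / 8 := by norm_num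
    rw [e]
    have h := step3 x ⟨hx.1.le, hx.2.le⟩
    linarith
  · norm_num

theorem step1 : ∀ x ∈ Set.Icc (0 : ℝ) 1,
    0 ≤ 4 * (825 / 128) * x + 8 * (42075 / 32768) * x ^ 3 + (33 / 8) *
      ((1 - x) ^ (25 / 8 : ℝ) - (1 + x) ^ (25 / 8 : ℝ)) := by
  apply nonneg_of_deriv _ (fun x => 4 * (825 / 128) + 8 * (42075 / 32768) * (3 * x ^ 2) + (33 / 8) *
      (-((25 / 8 : ℝ) * (1 - x) ^ ((25 / 8 : ℝ) - 1)) - (25 / 8 : ℝ) * (1 + x) ^ ((25 / 8 : ℝ) - 1)))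
  · have h1 := cont_sub (25 / 8) (by norm_num)
    have h2 := cont_add (25 / 8) (by norm_num)
    exact (((continuous_const.mul continuous_id).add (continuous_const.mul (continuous_pow 3))).add
      (continuous_const.mul (h1.sub h2))).continuousOn
  · intro x hx
    have h1 := hd_sub (25 / 8) x hx
    have h2 := hd_add (25 / 8) x hx
    have h3 : HasDerivAt (fun x : ℝ => 4 * (825 / 128) * x + 8 * (42075 / 32768) * x ^ 3)
        (4 * (825 / 128) + 8 * (42075 / 32768) * (3 * x ^ 2)) x := by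
      have := ((hasDerivAt_id x).const_mul (4 * (825 / 128) : ℝ)).fun_add
        ((hasDerivAt_pow 3 x).const_mul (8 * (42075 / 32768) : ℝ))
      simpa using this
    exact h3.add ((h1.sub h2).const_mul _)
  · intro x hx
    have e : (25 / 8 : ℝ) - 1 = 17 / 8 := by norm_num
    rw [e]
    have h := step2 x ⟨hx.1.le, hx.2.le⟩
    linarith
  · norm_num

theorem step0 : ∀ x ∈ Set.Icc (0 : ℝ) 1,
    0 ≤ 2 + 2 * (825 / 128) * x ^ 2 + 2 * (42075 / 32768) * x ^ 4 -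
      ((1 - x) ^ (33 / 8 : ℝ) + (1 + x) ^ (33 / 8 : ℝ)) := by
  apply nonneg_of_deriv _ (fun x => 2 * (825 / 128) * (2 * x) + 2 * (42075 / 32768) * (4 * x ^ 3) -
      (-((33 / 8 : ℝ) * (1 - x) ^ ((33 / 8 : ℝ) - 1)) + (33 / 8 : ℝ) * (1 + x) ^ ((33 / 8 : ℝ) - 1)))
  · have h1 := cont_sub (33 / 8) (by norm_num)
    have h2 := cont_add (33 / 8) (by norm_num)
    exact (((continuous_const.add (continuous_const.mul (continuous_pow 2))).add
      (continuous_const.mul (continuous_pow 4))).sub (h1.add h2)).continuousOn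
  · intro x hx
    have h1 := hd_sub (33 / 8) x hx
    have h2 := hd_add (33 / 8) x hx
    have h3 : HasDerivAt (fun x : ℝ => 2 + 2 * (825 / 128) * x ^ 2 + 2 * (42075 / 32768) * x ^ 4)
        (2 * (825 / 128) * (2 * x) + 2 * (42075 / 32768) * (4 * x ^ 3)) x := by
      have := (((hasDerivAt_pow 2 x).const_mul (2 * (825 / 128) : ℝ)).const_add (2 : ℝ)).fun_add
        ((hasDerivAt_pow 4 x).const_mul (2 * (42075 / 32768) : ℝ))
      simpa using this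
    exact h3.sub (h1.add h2)
  · intro x hx
    have e : (33 / 8 : ℝ) - 1 = 25 / 8 := by norm_num
    rw [e]
    have h := step1 x ⟨hx.1.le, hx.2.le⟩
    linarith
  · norm_num

/-! ### Riemann sums -/

/-- lower Riemann sums of a continuous function with antiderivative `S`. -/
theorem riemann (S q : ℝ → ℝ) (hS : ∀ t, HasDerivAt S (q t) t) (hq : Continuous q) (ε : ℝ)
    (hε : 0 < ε) : ∃ n0 : ℕ, 0 < n0 ∧ ∀ n ≥ n0, (n : ℝ) * (S 1 - S 0 - ε) ≤
      ∑ j ∈ range n, q ((j : ℝ) / n) := by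
  have huc : UniformContinuousOn q (Set.Icc 0 1) :=
    isCompact_Icc.uniformContinuousOn_of_continuous hq.continuousOn
  rw [Metric.uniformContinuousOn_iff] at huc
  obtain ⟨δ, hδ, h⟩ := huc ε hε
  obtain ⟨n0, hn0⟩ := exists_nat_gt (1 / δ)
  refine ⟨n0 + 1, by omega, fun n hn => ?_⟩
  have hnpos : (0 : ℝ) < n := by
    have : 0 < n := by omega
    exact_mod_cast this
  have hnδ : 1 / (n : ℝ) < δ := by
    rw [div_lt_iff₀ hnpos]
    rw [div_lt_iff₀ hδ] at hn0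
    have : (n0 : ℝ) ≤ n := by exact_mod_cast (by omega : n0 ≤ n)
    nlinarith
  have hstep : ∀ j ∈ range n, n * (S (((j + 1 : ℕ) : ℝ) / n) - S ((j : ℝ) / n)) - ε ≤
      q ((j : ℝ) / n) := by
    intro j hj
    rw [Finset.mem_range] at hj
    have hjn : (j : ℝ) + 1 ≤ n := by exact_mod_cast hj
    have hlt : (j : ℝ) / n < ((j + 1 : ℕ) : ℝ) / n := by
      apply div_lt_div_of_pos_right _ hnpos
      push_cast; linarith
    obtain ⟨ξ, hξ, heq⟩ := exists_hasDerivAt_eq_slope S q hlt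
      (fun x _ => (hS x).continuousAt.continuousWithinAt) (fun x _ => hS x)
    have hlen : ((j + 1 : ℕ) : ℝ) / n - (j : ℝ) / n = 1 / n := by
      push_cast; ring
    rw [hlen] at heq
    have heq' : n * (S (((j + 1 : ℕ) : ℝ) / n) - S ((j : ℝ) / n)) = q ξ := by
      rw [heq]; field_simp
    rw [heq']
    have hj0 : 0 ≤ (j : ℝ) / n := by positivity
    have hj1 : ((j + 1 : ℕ) : ℝ) / n ≤ 1 := by
      rw [div_le_one hnpos]; push_cast; exact hjn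
    have hd := h ξ ⟨by linarith [hξ.1], by linarith [hξ.2]⟩ ((j : ℝ) / n)
      ⟨hj0, by linarith⟩ (by
        rw [Real.dist_eq, abs_of_pos (by linarith [hξ.1])]
        linarith [hξ.2])
    rw [Real.dist_eq] at hd
    linarith [(abs_lt.mp hd).2]
  have hsum := Finset.sum_le_sum hstep
  rw [Finset.sum_sub_distrib, ← Finset.mul_sum, Finset.sum_range_sub
    (fun j : ℕ => S ((j : ℝ) / n))] at hsum
  simp only [Finset.sum_const, Finset.card_range, nsmul_eq_mul, Nat.cast_zero, zero_div,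
    div_self hnpos.ne'] at hsum
  calc (n : ℝ) * (S 1 - S 0 - ε) = n * (S 1 - S 0) - n * ε := by ring
    _ ≤ _ := hsum

/-- the antiderivative of `PP ((1-2t)^2)`. -/
noncomputable def SS (t : ℝ) : ℝ :=
  ∑ i ∈ range 13, cf i * (-(1 - 2 * t) ^ (2 * i + 1) / (2 * (2 * i + 1)))

theorem SS_deriv (t : ℝ) : HasDerivAt SS (PP ((1 - 2 * t) ^ 2)) t := by
  unfold SS PP
  apply HasDerivAt.fun_sum
  intro i _
  have h1 : HasDerivAt (fun t : ℝ => 1 - 2 * t) (-2) t := by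
    simpa using ((hasDerivAt_id t).const_mul 2).const_sub 1
  have h2 := (((h1.fun_pow (2 * i + 1)).fun_neg).div_const (2 * (2 * (i : ℝ) + 1))).const_mul (cf i)
  have e : cf i * ((1 - 2 * t) ^ 2) ^ i = cf i * (-(↑(2 * i + 1) * (1 - 2 * t) ^ (2 * i + 1 - 1) * -2) /
      (2 * (2 * (i : ℝ) + 1))) := by
    have : (2 * (i : ℝ) + 1) ≠ 0 := by positivity
    rw [← pow_mul]
    simp only [Nat.add_sub_cancel]
    push_cast
    field_simp
  rw [e]
  exact h2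

theorem PP_cont : Continuous (fun t : ℝ => PP ((1 - 2 * t) ^ 2)) := by
  unfold PP
  fun_prop

theorem SS_val : SS 1 - SS 0 = ∑ i ∈ range 13, cf i / (2 * i + 1) := by
  unfold SS
  rw [← Finset.sum_sub_distrib]
  apply Finset.sum_congr rfl
  intro i _
  have : (2 * (i : ℝ) + 1) ≠ 0 := by positivity
  have e1 : (1 - 2 * (1 : ℝ)) ^ (2 * i + 1) = -1 := by
    norm_num
    exact Odd.neg_one_pow ⟨i, rfl⟩
  have e2 : (1 - 2 * (0 : ℝ)) ^ (2 * i + 1) = 1 := by norm_num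
  rw [e1, e2]
  field_simp
  ring

theorem J_val : (0.38379 : ℝ) ≤ SS 1 - SS 0 := by
  rw [SS_val]
  simp [cf, Finset.sum_range_succ]
  norm_num

/-! ### the summand -/

theorem G_bound (y : ℝ) (h0 : -1 ≤ y) (h1 : y ≤ 1) :
    (1 - y) ^ (33 / 8 : ℝ) + (1 + y) ^ (33 / 8 : ℝ) ≤
      2 * (1 + 825 / 128 * y ^ 2 + 42075 / 32768 * (y ^ 2) ^ 2) := by
  rcases le_total 0 y with h | h
  · have := step0 y ⟨h, h1⟩
    nlinarith
  · have := step0 (-y) ⟨by linarith, by linarith⟩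
    rw [sub_neg_eq_add, ← sub_eq_add_neg] at this
    have e2 : (-y) ^ 2 = y ^ 2 := by ring
    have e4 : (-y) ^ 4 = (y ^ 2) ^ 2 := by ring
    rw [e2, e4] at this
    linarith

theorem term_bound (j k n : ℝ) (hj : 0 ≤ j) (hk : 0 ≤ k) (hn : 0 < n) (hjk : j + k = n) :
    n ^ 2 / (8 * (n / 2) ^ (33 / 8 : ℝ)) * PP ((1 - 2 * (j / n)) ^ 2) ≤
      j * k / (j ^ (33 / 8 : ℝ) + k ^ (33 / 8 : ℝ)) := by
  obtain ⟨y, hy⟩ : ∃ y, y = 1 - 2 * (j / n) := ⟨_, rfl⟩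
  rw [← hy]
  have hj' : j = n / 2 * (1 - y) := by rw [hy]; field_simp; ring
  have hk' : k = n / 2 * (1 + y) := by
    have : k = n - j := by linarith
    rw [this, hy]; field_simp; ring
  have hn2 : 0 < n / 2 := by positivity
  have hy1 : 0 ≤ 1 - y := by
    rw [hj'] at hj
    exact nonneg_of_mul_nonneg_right hj hn2
  have hy2 : 0 ≤ 1 + y := by
    rw [hk'] at hk
    exact nonneg_of_mul_nonneg_right hk hn2
  have hG := G_bound y (by linarith) (by linarith)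
  have hyy : y ^ 2 ≤ 1 := by nlinarith
  have hP := PP_bound (y ^ 2) (sq_nonneg y) hyy
  obtain ⟨G, hGd⟩ : ∃ G, G = (1 - y) ^ (33 / 8 : ℝ) + (1 + y) ^ (33 / 8 : ℝ) := ⟨_, rfl⟩
  have hGpos : 0 < G := by
    have h1 : 0 ≤ (1 - y) ^ (33 / 8 : ℝ) := Real.rpow_nonneg hy1 _
    have h2 : 0 ≤ (1 + y) ^ (33 / 8 : ℝ) := Real.rpow_nonneg hy2 _
    rcases eq_or_lt_of_le hy1 with h | h
    · have h3 : 0 < (1 + y) ^ (33 / 8 : ℝ) := Real.rpow_pos_of_pos (by linarith) _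
      linarith
    · have h3 : 0 < (1 - y) ^ (33 / 8 : ℝ) := Real.rpow_pos_of_pos h _
      linarith
  have hden : j ^ (33 / 8 : ℝ) + k ^ (33 / 8 : ℝ) = (n / 2) ^ (33 / 8 : ℝ) * G := by
    rw [hj', hk', Real.mul_rpow hn2.le hy1, Real.mul_rpow hn2.le hy2, hGd]
    ring
  have hnum : j * k = n ^ 2 * (1 - y ^ 2) / 4 := by rw [hj', hk']; ring
  rw [hden, hnum]
  have hA : 0 < (n / 2) ^ (33 / 8 : ℝ) := Real.rpow_pos_of_pos hn2 _
  obtain ⟨A, hAd⟩ : ∃ A, A = (n / 2) ^ (33 / 8 : ℝ) := ⟨_, rfl⟩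
  rw [← hAd] at hA ⊢
  rw [← hGd] at hG
  have hPG : PP (y ^ 2) * G ≤ 2 * (1 - y ^ 2) := by
    rcases le_total 0 (PP (y ^ 2)) with h | h
    · have := mul_le_mul_of_nonneg_left hG h
      nlinarith
    · have := mul_nonpos_of_nonpos_of_nonneg h hGpos.le
      nlinarith
  rw [le_div_iff₀ (by positivity)]
  have : n ^ 2 / (8 * A) * PP (y ^ 2) * (A * G) = n ^ 2 / 8 * (PP (y ^ 2) * G) := by
    field_simp
  rw [this]
  have := mul_le_mul_of_nonneg_left hPG (by positivity : 0 ≤ n ^ 2 / 8)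
  linarith

theorem two_rpow : (1.0905 : ℝ) ≤ (2 : ℝ) ^ (1 / 8 : ℝ) := by
  have h : ((1.0905 : ℝ) ^ (8 : ℕ)) ^ (1 / 8 : ℝ) = 1.0905 := by
    rw [← Real.rpow_natCast, ← Real.rpow_mul (by norm_num)]
    norm_num
  rw [← h]
  apply Real.rpow_le_rpow (by positivity) _ (by norm_num)
  norm_num

theorem const_eq (n : ℝ) (hn : 0 < n) :
    n ^ 2 / (8 * (n / 2) ^ (33 / 8 : ℝ)) * n / 2 = (2 : ℝ) ^ (1 / 8 : ℝ) * n ^ (-(9 / 8 : ℝ)) := by
  have h1 : (n / 2) ^ (33 / 8 : ℝ) = n ^ (33 / 8 : ℝ) / 2 ^ (33 / 8 : ℝ) :=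
    Real.div_rpow hn.le (by norm_num) _
  have h2 : (2 : ℝ) ^ (33 / 8 : ℝ) = 16 * 2 ^ (1 / 8 : ℝ) := by
    have : (33 / 8 : ℝ) = ((4 : ℕ) : ℝ) + 1 / 8 := by norm_num
    rw [this, Real.rpow_add (by norm_num), Real.rpow_natCast]
    norm_num
  have h3 : n ^ (-(9 / 8 : ℝ)) * n ^ (33 / 8 : ℝ) = n ^ 3 := by
    rw [← Real.rpow_add hn, ← Real.rpow_natCast]
    norm_num
  have hp : 0 < n ^ (33 / 8 : ℝ) := Real.rpow_pos_of_pos hn _
  have hq : (0 : ℝ) < 2 ^ (1 / 8 : ℝ) := Real.rpow_pos_of_pos (by norm_num) _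
  rw [h1, h2]
  have h4 : n ^ (-(9 / 8 : ℝ)) = n ^ 3 / n ^ (33 / 8 : ℝ) := by
    rw [eq_div_iff hp.ne', h3]
  rw [h4]
  field_simp
  ring

end NumAux

theorem num : ∃ c : ℝ, 64 / 153 < c ∧ ∃ N0 : ℕ, ∀ N ≥ N0,
    c * (N : ℝ) ^ (-(9 / 8 : ℝ)) ≤
      (1 / 2) * ∑ j ∈ range N, ((j : ℝ) * ((N - 1 - j : ℕ) : ℝ)) /
        ((j : ℝ) ^ (33 / 8 : ℝ) + ((N - 1 - j : ℕ) : ℝ) ^ (33 / 8 : ℝ)) := by
  obtain ⟨n0, hn0, hR⟩ := NumAux.riemann NumAux.SS _ NumAux.SS_deriv NumAux.PP_cont 0.0001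
    (by norm_num)
  refine ⟨1.0905 * 0.38369, by norm_num, n0 + 1, fun N hN => ?_⟩
  obtain ⟨n, rfl⟩ : ∃ n, N = n + 1 := ⟨N - 1, by omega⟩
  have hn : n0 ≤ n := by omega
  have hnpos : (0 : ℝ) < n := by
    have : 0 < n := by omega
    exact_mod_cast this
  have h1 := hR n hn
  have hJ := NumAux.J_val
  have h2 : (n : ℝ) * 0.38369 ≤ ∑ j ∈ range n, NumAux.PP ((1 - 2 * ((j : ℝ) / n)) ^ 2) := by
    refine le_trans ?_ h1
    apply mul_le_mul_of_nonneg_left _ hnpos.le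
    norm_num at hJ ⊢
    linarith
  rw [Finset.sum_range_succ]
  have hlast : (0 : ℝ) ≤ ((n : ℝ) * ((n + 1 - 1 - n : ℕ) : ℝ)) /
        ((n : ℝ) ^ (33 / 8 : ℝ) + ((n + 1 - 1 - n : ℕ) : ℝ) ^ (33 / 8 : ℝ)) := by
    positivity
  have hsum : ∑ j ∈ range n, (n : ℝ) ^ 2 / (8 * ((n : ℝ) / 2) ^ (33 / 8 : ℝ)) *
      NumAux.PP ((1 - 2 * ((j : ℝ) / n)) ^ 2) ≤
      ∑ j ∈ range n, ((j : ℝ) * ((n + 1 - 1 - j : ℕ) : ℝ)) /
        ((j : ℝ) ^ (33 / 8 : ℝ) + ((n + 1 - 1 - j : ℕ) : ℝ) ^ (33 / 8 : ℝ)) := by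
    apply Finset.sum_le_sum
    intro j hj
    rw [Finset.mem_range] at hj
    apply NumAux.term_bound _ _ _ (by positivity) (by positivity) hnpos
    have : n + 1 - 1 - j = n - j := by omega
    rw [this, Nat.cast_sub hj.le]
    ring
  rw [← Finset.mul_sum] at hsum
  have hA : 0 < (n : ℝ) ^ 2 / (8 * ((n : ℝ) / 2) ^ (33 / 8 : ℝ)) := by positivity
  have h3 := mul_le_mul_of_nonneg_left h2 hA.le
  have hc := NumAux.const_eq (n : ℝ) hnpos
  have hr : ((n + 1 : ℕ) : ℝ) ^ (-(9 / 8 : ℝ)) ≤ (n : ℝ) ^ (-(9 / 8 : ℝ)) := by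
    apply Real.rpow_le_rpow_of_nonpos hnpos _ (by norm_num)
    push_cast; linarith
  have hr0 : 0 ≤ (n : ℝ) ^ (-(9 / 8 : ℝ)) := Real.rpow_nonneg hnpos.le _
  have h4 : 1.0905 * 0.38369 * ((n + 1 : ℕ) : ℝ) ^ (-(9 / 8 : ℝ)) ≤
      (2 : ℝ) ^ (1 / 8 : ℝ) * (n : ℝ) ^ (-(9 / 8 : ℝ)) * 0.38369 := by
    calc 1.0905 * 0.38369 * ((n + 1 : ℕ) : ℝ) ^ (-(9 / 8 : ℝ))
        ≤ 1.0905 * 0.38369 * (n : ℝ) ^ (-(9 / 8 : ℝ)) :=
          mul_le_mul_of_nonneg_left hr (by norm_num)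
      _ = 1.0905 * (0.38369 * (n : ℝ) ^ (-(9 / 8 : ℝ))) := by ring
      _ ≤ (2 : ℝ) ^ (1 / 8 : ℝ) * (0.38369 * (n : ℝ) ^ (-(9 / 8 : ℝ))) :=
          mul_le_mul_of_nonneg_right NumAux.two_rpow (by positivity)
      _ = _ := by ring
  have h5 : (n : ℝ) ^ 2 / (8 * ((n : ℝ) / 2) ^ (33 / 8 : ℝ)) * ((n : ℝ) * 0.38369) =
      2 * ((2 : ℝ) ^ (1 / 8 : ℝ) * (n : ℝ) ^ (-(9 / 8 : ℝ)) * 0.38369) := by
    rw [← hc]; ring
  rw [h5] at h3
  linarith

end Vale.Agent.P142
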