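import Vale.Agent.P142.Tc

open Metric Set MeasureTheory Filter Topology Finset
open scoped Real Polynomial

namespace Vale.Agent.P142

/-- The Laurent series of the derivative of `K y / y ^ (n + 1)`. -/
theorem pars_hasSum_deriv {K : ℂ → ℂ} (hK : DifferentiableOn ℂ K (ball 0 1)) {R : ℝ} (hR : 0 < R)
    (hR1 : R < 1) (n : ℕ) {x : ℂ} (hx : ‖x‖ = R) :
    HasSum (fun i : ℕ => tc K i * ((((i : ℤ) - n - 1 : ℤ) : ℂ) * x ^ ((i : ℤ) - n - 1 - 1)))
      (deriv (fun y => K y / y ^ (n + 1)) x) := by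
  set ρ : ℝ := (R + 1) / 2 with hρ
  have hRρ : R < ρ := by rw [hρ]; linarith
  have hρ0 : 0 < ρ := by linarith
  have hρ1 : ρ < 1 := by rw [hρ]; linarith
  set U : Set ℂ := ball 0 ρ ∩ (closedBall 0 (R / 2))ᶜ with hU
  have hUo : IsOpen U := isOpen_ball.inter isClosed_closedBall.isOpen_compl
  have hmem : ∀ w ∈ U, w ≠ 0 ∧ ‖w‖ < ρ ∧ R / 2 < ‖w‖ := by
    intro w hw
    have h1 : ‖w‖ < ρ := by simpa using hw.1
    have h2 : R / 2 < ‖w‖ := by simpa using hw.2
    refine ⟨?_, h1, h2⟩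
    intro h0
    rw [h0, norm_zero] at h2
    linarith
  have hxU : x ∈ U := by
    refine ⟨by simpa [hx] using hRρ, ?_⟩
    simp only [mem_compl_iff, mem_closedBall, dist_zero_right, hx, not_le]
    linarith
  set F : ℕ → ℂ → ℂ := fun i w => tc K i * w ^ ((i : ℤ) - n - 1) with hF
  have hFd : ∀ i, ∀ w, w ≠ 0 → HasDerivAt (F i)
      (tc K i * ((((i : ℤ) - n - 1 : ℤ) : ℂ) * w ^ ((i : ℤ) - n - 1 - 1))) w := by
    intro i w hw
    exact (hasDerivAt_zpow _ w (Or.inl hw)).const_mul _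
  have hsum := Complex.hasSum_deriv_of_summable_norm (F := F) (U := U) (z := x)
    (u := fun i => ‖tc K i‖ * ρ ^ i * ((R / 2) ^ (n + 1))⁻¹)
    ((tc_summable hK hρ0.le hρ1).mul_right _)
    (fun i w hw => ((hFd i w (hmem w hw).1).differentiableAt).differentiableWithinAt) hUo
    (by
      intro i w hw
      obtain ⟨hw0, hw1, hw2⟩ := hmem w hw
      have h1 : w ^ ((i : ℤ) - n - 1) = w ^ i * (w ^ (n + 1))⁻¹ := by
        rw [show ((i : ℤ) - n - 1) = (i : ℤ) - ((n + 1 : ℕ) : ℤ) by push_cast; ring,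
          zpow_sub₀ hw0, zpow_natCast, zpow_natCast, div_eq_mul_inv]
      simp only [hF, h1, norm_mul, norm_pow, norm_inv]
      rw [mul_assoc]
      refine mul_le_mul_of_nonneg_left ?_ (norm_nonneg _)
      refine mul_le_mul (pow_le_pow_left₀ (norm_nonneg _) hw1.le _) ?_ (by positivity)
        (by positivity)
      exact inv_anti₀ (by positivity) (pow_le_pow_left₀ (by positivity) hw2.le _))
    hxU
  have heq : (fun w : ℂ => ∑' i : ℕ, F i w) =ᶠ[𝓝 x] (fun y => K y / y ^ (n + 1)) := by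
    filter_upwards [hUo.mem_nhds hxU] with w hw
    obtain ⟨hw0, hw1, hw2⟩ := hmem w hw
    have h1 := (tc_hasSum hK (lt_trans hw1 hρ1)).div_const (w ^ (n + 1))
    rw [← h1.tsum_eq]
    refine tsum_congr fun i => ?_
    simp only [hF]
    rw [show ((i : ℤ) - n - 1) = (i : ℤ) - ((n + 1 : ℕ) : ℤ) by push_cast; ring,
      zpow_sub₀ hw0, zpow_natCast, zpow_natCast]
    ring
  rw [heq.deriv_eq] at hsum
  have hx0 : x ≠ 0 := (hmem x hxU).1
  have hfun : (fun i => deriv (F i) x) = (fun i : ℕ =>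
      tc K i * ((((i : ℤ) - n - 1 : ℤ) : ℂ) * x ^ ((i : ℤ) - n - 1 - 1))) :=
    funext fun i => (hFd i x hx0).deriv
  rwa [hfun] at hsum

theorem pars_coeff {K : ℂ → ℂ} (hK : DifferentiableOn ℂ K (ball 0 1)) {R : ℝ} (hR : 0 < R)
    (hR1 : R < 1) (n i : ℕ) (c : ℂ) :
    (∫ θ in (0 : ℝ)..2 * π, deriv (circleMap 0 R) θ •
      ((starRingEnd ℂ) (K (circleMap 0 R θ) / (circleMap 0 R θ) ^ (n + 1)) *
        (c * (circleMap 0 R θ) ^ ((i : ℤ) - n - 1 - 1)))) =
      2 * π * Complex.I * (c * (R : ℂ) ^ (2 * ((i : ℤ) - n - 1)) * (starRingEnd ℂ) (tc K i)) := by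
  have hx0 : ∀ θ : ℝ, circleMap 0 R θ ≠ 0 := fun θ => circleMap_ne_center hR.ne'
  have hconj : ∀ θ : ℝ, (starRingEnd ℂ) (circleMap 0 R θ) = (R : ℂ) ^ 2 / circleMap 0 R θ := by
    intro θ
    rw [eq_div_iff (hx0 θ), mul_comm, Complex.mul_conj, Complex.normSq_eq_norm_sq]
    simp
  have hfun : ∀ θ : ℝ, deriv (circleMap 0 R) θ •
      ((starRingEnd ℂ) (K (circleMap 0 R θ) / (circleMap 0 R θ) ^ (n + 1)) *
        (c * (circleMap 0 R θ) ^ ((i : ℤ) - n - 1 - 1))) =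
      (Complex.I * c * (R : ℂ) ^ (2 * ((i : ℤ) - n - 1))) *
        (starRingEnd ℂ) (K (circleMap 0 R θ) / (circleMap 0 R θ) ^ i) := by
    intro θ
    have h0 := hx0 θ
    have hR0 : (R : ℂ) ≠ 0 := by exact_mod_cast hR.ne'
    rw [deriv_circleMap, smul_eq_mul, map_div₀, map_div₀, map_pow, map_pow, hconj]
    set x := circleMap 0 R θ with hx
    have h1 : x ^ ((i : ℤ) - n - 1 - 1) = x ^ i / x ^ (n + 1) / x := by
      rw [zpow_sub₀ h0, zpow_one, show ((i : ℤ) - n - 1) = (i : ℤ) - ((n + 1 : ℕ) : ℤ) by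
        push_cast; ring, zpow_sub₀ h0, zpow_natCast, zpow_natCast]
    have h2 : (R : ℂ) ^ (2 * ((i : ℤ) - n - 1)) = ((R : ℂ) ^ 2) ^ i / ((R : ℂ) ^ 2) ^ (n + 1) := by
      rw [zpow_mul, show ((i : ℤ) - n - 1) = (i : ℤ) - ((n + 1 : ℕ) : ℤ) by
        push_cast; ring, zpow_sub₀ (by positivity), zpow_natCast, zpow_natCast]
      norm_cast
    rw [h1, h2, div_pow, div_pow]
    field_simp
  have hcirc : (∫ θ in (0 : ℝ)..2 * π, K (circleMap 0 R θ) / (circleMap 0 R θ) ^ i) =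
      2 * π * tc K i := by
    have h1 := tc_eq hK hR hR1 i
    rw [circleIntegral] at h1
    have h2 : ∀ θ : ℝ, deriv (circleMap 0 R) θ •
        (K (circleMap 0 R θ) / (circleMap 0 R θ) ^ (i + 1)) =
        Complex.I * (K (circleMap 0 R θ) / (circleMap 0 R θ) ^ i) := by
      intro θ
      have h0 := hx0 θ
      rw [deriv_circleMap, smul_eq_mul, pow_succ]
      field_simp
    simp only [h2] at h1
    rw [intervalIntegral.integral_const_mul] at h1
    rw [h1]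
    have hpi : (π : ℂ) ≠ 0 := by exact_mod_cast Real.pi_ne_zero
    field_simp
  simp only [hfun]
  rw [intervalIntegral.integral_const_mul]
  have hconjint : (∫ θ in (0 : ℝ)..2 * π,
      (starRingEnd ℂ) (K (circleMap 0 R θ) / (circleMap 0 R θ) ^ i)) =
      (starRingEnd ℂ) (∫ θ in (0 : ℝ)..2 * π, K (circleMap 0 R θ) / (circleMap 0 R θ) ^ i) := by
    rw [intervalIntegral, intervalIntegral, map_sub, integral_conj, integral_conj]
  rw [hconjint, hcirc]
  simp only [map_mul, Complex.conj_ofReal, map_ofNat]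
  ring

theorem pars {K : ℂ → ℂ} (hK : DifferentiableOn ℂ K (ball 0 1)) {R : ℝ} (hR : 0 < R)
    (hR1 : R < 1) (n : ℕ) :
    HasSum (fun i : ℕ => (((((i : ℤ) - n - 1 : ℤ) : ℝ) * ‖tc K i‖ ^ 2 *
        R ^ (2 * ((i : ℤ) - n - 1)) : ℝ) : ℂ))
      ((2 * π * Complex.I)⁻¹ * ∮ x in C(0, R),
        (starRingEnd ℂ) (K x / x ^ (n + 1)) * deriv (fun y => K y / y ^ (n + 1)) x) := by
  have hx0 : ∀ θ : ℝ, circleMap 0 R θ ≠ 0 := fun θ => circleMap_ne_center hR.ne'
  have hxn : ∀ θ : ℝ, ‖circleMap 0 R θ‖ = R := fun θ => by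
    simp [abs_of_pos hR]
  have hcK : Continuous fun θ : ℝ => K (circleMap 0 R θ) := by
    rw [continuous_iff_continuousAt]
    intro θ
    refine ContinuousAt.comp (f := circleMap 0 R) ?_ (continuous_circleMap 0 R).continuousAt
    exact (hK.differentiableAt (isOpen_ball.mem_nhds (by simp [abs_of_pos hR, hR1]))).continuousAt
  have hcG : Continuous fun θ : ℝ => (starRingEnd ℂ) (K (circleMap 0 R θ) / (circleMap 0 R θ) ^ (n + 1)) :=
    Complex.continuous_conj.comp (hcK.div₀ ((continuous_circleMap 0 R).pow _)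
      (fun θ => pow_ne_zero _ (hx0 θ)))
  obtain ⟨B, hB⟩ : ∃ B : ℝ, ∀ θ ∈ Icc (0 : ℝ) (2 * π),
      ‖(starRingEnd ℂ) (K (circleMap 0 R θ) / (circleMap 0 R θ) ^ (n + 1))‖ ≤ B := by
    exact (isCompact_Icc.exists_bound_of_continuousOn hcG.continuousOn)
  have hsum1 : Summable fun i : ℕ => ‖tc K i‖ * |(((i : ℤ) - n - 1 : ℤ) : ℝ)| * R ^ i := by
    set ρ : ℝ := (R + 1) / 2 with hρ
    have hRρ : R < ρ := by rw [hρ]; linarith
    have hρ0 : 0 < ρ := by linarith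
    have hρ1 : ρ < 1 := by rw [hρ]; linarith
    have hq0 : 0 ≤ R / ρ := by positivity
    have hq1 : R / ρ < 1 := by rwa [div_lt_one hρ0]
    have ht : Tendsto (fun i : ℕ => (i : ℝ) * (R / ρ) ^ i + (n + 1) * (R / ρ) ^ i) atTop
        (𝓝 (0 + (n + 1) * 0)) :=
      (tendsto_self_mul_const_pow_of_lt_one hq0 hq1).add
        ((tendsto_pow_atTop_nhds_zero_of_lt_one hq0 hq1).const_mul _)
    obtain ⟨C, hC⟩ := ht.bddAbove_range
    have hC' : ∀ i : ℕ, ((i : ℝ) + (n + 1)) * (R / ρ) ^ i ≤ C := fun i => by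
      have := hC ⟨i, rfl⟩
      simpa [add_mul] using this
    refine Summable.of_nonneg_of_le (fun i => by positivity) (fun i => ?_)
      ((tc_summable hK hρ0.le hρ1).mul_left C)
    have h1 : |(((i : ℤ) - n - 1 : ℤ) : ℝ)| ≤ (i : ℝ) + (n + 1) := by
      push_cast
      rw [abs_le]
      constructor <;> nlinarith [(Nat.cast_nonneg i : (0 : ℝ) ≤ i), (Nat.cast_nonneg n : (0 : ℝ) ≤ n)]
    have h2 : R ^ i = (R / ρ) ^ i * ρ ^ i := by
      rw [div_pow, div_mul_cancel₀ _ (by positivity)]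
    calc ‖tc K i‖ * |(((i : ℤ) - n - 1 : ℤ) : ℝ)| * R ^ i
        = (|(((i : ℤ) - n - 1 : ℤ) : ℝ)| * (R / ρ) ^ i) * (‖tc K i‖ * ρ ^ i) := by rw [h2]; ring
      _ ≤ C * (‖tc K i‖ * ρ ^ i) := by
          refine mul_le_mul_of_nonneg_right ?_ (by positivity)
          exact (mul_le_mul_of_nonneg_right h1 (by positivity)).trans (hC' i)
  have key : HasSum (fun i : ℕ => ∫ θ in (0 : ℝ)..2 * π, deriv (circleMap 0 R) θ •
      ((starRingEnd ℂ) (K (circleMap 0 R θ) / (circleMap 0 R θ) ^ (n + 1)) *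
        ((tc K i * (((i : ℤ) - n - 1 : ℤ) : ℂ)) * (circleMap 0 R θ) ^ ((i : ℤ) - n - 1 - 1))))
      (∮ x in C(0, R),
        (starRingEnd ℂ) (K x / x ^ (n + 1)) * deriv (fun y => K y / y ^ (n + 1)) x) := by
    rw [circleIntegral]
    refine intervalIntegral.hasSum_integral_of_dominated_convergence
      (fun i _ => R * (B * (‖tc K i‖ * |(((i : ℤ) - n - 1 : ℤ) : ℝ)| * R ^ i * (R ^ (n + 2))⁻¹))) ?_ ?_ ?_ ?_ ?_
    · intro i
      refine Continuous.aestronglyMeasurable ?_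
      have h1 : Continuous fun θ : ℝ => (circleMap 0 R θ) ^ ((i : ℤ) - n - 1 - 1) :=
        (continuous_circleMap 0 R).zpow₀ _ (fun θ => Or.inl (hx0 θ))
      have h2 : Continuous (deriv (circleMap 0 R)) := by
        have : deriv (circleMap 0 R) = fun θ => circleMap 0 R θ * Complex.I := by
          funext θ; rw [deriv_circleMap]
        rw [this]; exact (continuous_circleMap 0 R).mul continuous_const
      exact h2.smul (hcG.mul (continuous_const.mul h1))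
    · intro i
      refine Eventually.of_forall fun θ hθ => ?_
      rw [uIoc_of_le (by positivity)] at hθ
      have hθ' : θ ∈ Icc (0 : ℝ) (2 * π) := ⟨hθ.1.le, hθ.2⟩
      rw [norm_smul, norm_mul, norm_mul, norm_mul, deriv_circleMap, norm_mul, hxn, Complex.norm_I,
        mul_one, norm_zpow, hxn]
      refine mul_le_mul_of_nonneg_left ?_ hR.le
      refine mul_le_mul (hB θ hθ') ?_ (by positivity) ((norm_nonneg _).trans (hB θ hθ'))
      have h1 : R ^ ((i : ℤ) - n - 1 - 1) = R ^ i * (R ^ (n + 2))⁻¹ := by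
        rw [show ((i : ℤ) - n - 1 - 1) = (i : ℤ) - ((n + 2 : ℕ) : ℤ) by push_cast; ring,
          zpow_sub₀ hR.ne', zpow_natCast, zpow_natCast, div_eq_mul_inv]
      rw [h1]
      have h2 : ‖(((i : ℤ) - n - 1 : ℤ) : ℂ)‖ = |(((i : ℤ) - n - 1 : ℤ) : ℝ)| := by
        rw [Complex.norm_intCast]
      rw [h2]
      exact le_of_eq (by ring)
    · refine Eventually.of_forall fun θ _ => ?_
      exact ((hsum1.mul_right _).mul_left _).mul_left _
    · exact intervalIntegrable_const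
    · refine Eventually.of_forall fun θ _ => ?_
      have h1 := pars_hasSum_deriv hK hR hR1 n (hxn θ)
      have h2 := (h1.mul_left ((starRingEnd ℂ) (K (circleMap 0 R θ) / (circleMap 0 R θ) ^ (n + 1)))).const_smul
        (deriv (circleMap 0 R) θ)
      have h5 : (fun i : ℕ => deriv (circleMap 0 R) θ •
        ((starRingEnd ℂ) (K (circleMap 0 R θ) / (circleMap 0 R θ) ^ (n + 1)) *
        ((tc K i * (((i : ℤ) - n - 1 : ℤ) : ℂ)) * (circleMap 0 R θ) ^ ((i : ℤ) - n - 1 - 1)))) =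
        (fun i : ℕ => deriv (circleMap 0 R) θ •
        ((starRingEnd ℂ) (K (circleMap 0 R θ) / (circleMap 0 R θ) ^ (n + 1)) *
        (tc K i * ((((i : ℤ) - n - 1 : ℤ) : ℂ) * (circleMap 0 R θ) ^ ((i : ℤ) - n - 1 - 1))))) := by
        funext i
        rw [mul_assoc (tc K i)]
      rw [h5]
      exact h2
  have h3 := key.mul_left ((2 * π * Complex.I)⁻¹)
  have h6 : (fun i : ℕ => (((((i : ℤ) - n - 1 : ℤ) : ℝ) * ‖tc K i‖ ^ 2 *
        R ^ (2 * ((i : ℤ) - n - 1)) : ℝ) : ℂ)) = (fun i : ℕ => (2 * π * Complex.I)⁻¹ *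
      ∫ θ in (0 : ℝ)..2 * π, deriv (circleMap 0 R) θ •
      ((starRingEnd ℂ) (K (circleMap 0 R θ) / (circleMap 0 R θ) ^ (n + 1)) *
        ((tc K i * (((i : ℤ) - n - 1 : ℤ) : ℂ)) * (circleMap 0 R θ) ^ ((i : ℤ) - n - 1 - 1)))) := ?_
  · rw [h6]; exact h3
  funext i
  rw [pars_coeff hK hR hR1 n i]
  have hpi : (π : ℂ) ≠ 0 := by exact_mod_cast Real.pi_ne_zero
  rw [← mul_assoc, inv_mul_cancel₀ (by simp [hpi, Complex.I_ne_zero]), one_mul]
  have h4 : tc K i * (starRingEnd ℂ) (tc K i) = ((‖tc K i‖ ^ 2 : ℝ) : ℂ) := by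
    rw [Complex.mul_conj, Complex.normSq_eq_norm_sq]
  push_cast at h4 ⊢
  rw [← h4]
  ring

end Vale.Agent.P142
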