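import Vale.Agent.P142.PosD
import Vale.Agent.P142.Dnz

/-! P142, [POS]: area integrals of positive powers of the derivative (classical range). -/

open Metric Set MeasureTheory Filter Topology
open scoped Real ENNReal

namespace Vale.Agent.P142
namespace PosAux

/-- integral of `‖w‖^(q-2)` on a disc. -/
lemma disc_int {q M : ℝ} (hq : 0 < q) (hM : 0 ≤ M) :
    ∫⁻ w in {w : ℂ | ‖w‖ ∈ Ioc 0 M}, ENNReal.ofReal (‖w‖ ^ (q - 2)) =
      ENNReal.ofReal (2 * π / q * M ^ q) := by
  rw [lintegral_polar_on _ (by fun_prop) measurableSet_Ioc]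
  have h1 : Ioi (0 : ℝ) ∩ Ioc 0 M = Ioc 0 M := by
    ext x; constructor
    · exact fun h => h.2
    · exact fun h => ⟨h.1, h⟩
  have h2 : ∀ r ∈ Ioc 0 M, ENNReal.ofReal r *
      ∫⁻ θ in Ioo (-π) π, ENNReal.ofReal (‖(r : ℂ) * Complex.exp (θ * Complex.I)‖ ^ (q - 2)) =
      ENNReal.ofReal (2 * π * r ^ (q - 1)) := by
    intro r hr
    have hr0 : 0 < r := hr.1
    have : ∀ θ : ℝ, ‖(r : ℂ) * Complex.exp (θ * Complex.I)‖ = r := by
      intro θ; simp [abs_of_pos hr0]
    simp only [this, lintegral_const, Measure.restrict_apply_univ, Real.volume_Ioo]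
    rw [← ENNReal.ofReal_mul (by positivity), ← ENNReal.ofReal_mul hr0.le]
    congr 1
    have h3 : r ^ (q - 1) = r * r ^ (q - 2) := by
      nth_rewrite 2 [← Real.rpow_one r]
      rw [← Real.rpow_add hr0]; congr 1; ring
    rw [h3]; ring
  rw [h1, setLIntegral_congr_fun measurableSet_Ioc h2, ← ofReal_integral_eq_lintegral_ofReal]
  · rw [← intervalIntegral.integral_of_le hM, intervalIntegral.integral_const_mul,
      integral_rpow (Or.inl (by linarith)), sub_add_cancel, Real.zero_rpow hq.ne']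
    congr 1; ring
  · have : IntervalIntegrable (fun r : ℝ => 2 * π * r ^ (q - 1)) volume 0 M :=
      (intervalIntegral.intervalIntegrable_rpow' (by linarith)).const_mul _
    exact (intervalIntegrable_iff_integrableOn_Ioc_of_le hM).1 this
  · refine (ae_restrict_iff' measurableSet_Ioc).2 (Eventually.of_forall fun r hr => ?_)
    have := hr.1
    positivity

/-- Prawitz: `∫_{|z|<R} |F'|² ≤ C (1-R)^(-2q)` for `F = g^(q/2)`. -/
lemma prawitz {g : ℂ → ℂ} (hg : DifferentiableOn ℂ g (ball 0 1)) (hi : InjOn g (ball 0 1))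
    (hne : ∀ z ∈ ball (0 : ℂ) 1, g z ≠ 0) {l : ℂ → ℂ} (hl : DifferentiableOn ℂ l (ball 0 1))
    (hlg : ∀ z ∈ ball (0 : ℂ) 1, Complex.exp (l z) = g z) {q : ℝ} (hq : 0 < q) {R : ℝ}
    (hR : R < 1) :
    ∫⁻ z in ball (0 : ℂ) R, ENNReal.ofReal
      (‖deriv (fun z => Complex.exp ((q / 2 : ℝ) * l z)) z‖ ^ 2) ≤
      ENNReal.ofReal (q * π / 2 * (‖g 0‖ * (2 / (1 - R)) ^ 2) ^ q) := by
  have hsub : ball (0 : ℂ) R ⊆ ball 0 1 := ball_subset_ball hR.le
  have h00 : (0 : ℂ) ∈ ball (0 : ℂ) 1 := by simp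
  -- derivative
  have hder : ∀ z ∈ ball (0 : ℂ) R,
      ENNReal.ofReal (‖deriv (fun z => Complex.exp ((q / 2 : ℝ) * l z)) z‖ ^ 2) =
        ENNReal.ofReal (‖deriv g z‖ ^ 2) * ENNReal.ofReal (q ^ 2 / 4 * ‖g z‖ ^ (q - 2)) := by
    intro z hz
    have hz1 := hsub hz
    have h1 : HasDerivAt (fun z => Complex.exp ((q / 2 : ℝ) * l z))
        (Complex.exp ((q / 2 : ℝ) * l z) * ((q / 2 : ℝ) * deriv l z)) z :=
      ((hda hl hz1).const_mul _).cexp
    have h2 : HasDerivAt (fun z => Complex.exp (l z)) (Complex.exp (l z) * deriv l z) z :=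
      (hda hl hz1).cexp
    have h3 : (fun z => Complex.exp (l z)) =ᶠ[𝓝 z] g := by
      filter_upwards [isOpen_ball.mem_nhds hz1] with z hz using hlg z hz
    have h4 : deriv g z = g z * deriv l z := by
      rw [← hlg z hz1]
      exact (h2.congr_of_eventuallyEq h3.symm).deriv
    have hgz : 0 < ‖g z‖ := norm_pos_iff.2 (hne z hz1)
    have h5 : ‖Complex.exp ((q / 2 : ℝ) * l z)‖ ^ 2 = ‖g z‖ ^ q := by
      rw [← hlg z hz1, Complex.norm_exp, Complex.norm_exp, ← Real.exp_mul, ← Real.exp_nat_mul]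
      congr 1
      rw [Complex.re_ofReal_mul]
      push_cast
      ring
    have h6 : ‖g z‖ ^ q = ‖g z‖ ^ 2 * ‖g z‖ ^ (q - 2) := by
      rw [← Real.rpow_natCast, ← Real.rpow_add hgz]
      congr 1; push_cast; ring
    rw [← ENNReal.ofReal_mul (by positivity), h1.deriv, h4, norm_mul, mul_pow, h5, h6, norm_mul,
      norm_mul, Complex.norm_real, Real.norm_of_nonneg (by positivity)]
    congr 1
    ring
  rw [setLIntegral_congr_fun measurableSet_ball hder]
  have harea := area_formula (g := g) (g' := deriv g) (S := ball 0 R) measurableSet_ball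
    (fun z hz => hda hg (hsub hz)) (hi.mono hsub)
    (fun w => ENNReal.ofReal (q ^ 2 / 4 * ‖w‖ ^ (q - 2)))
  rw [← harea]
  set M : ℝ := ‖g 0‖ * (2 / (1 - R)) ^ 2 with hM
  have h1R : 0 < 1 - R := by linarith
  have hM0 : 0 ≤ M := by positivity
  have himg : g '' ball 0 R ⊆ {w : ℂ | ‖w‖ ∈ Ioc 0 M} := by
    rintro w ⟨z, hz, rfl⟩
    refine ⟨norm_pos_iff.2 (hne z (hsub hz)), ?_⟩
    refine (growth hg hi hne (hsub hz)).trans ?_
    have hzR : ‖z‖ < R := by simpa using hz
    rw [hM]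
    gcongr
    · have : 0 < 1 - ‖z‖ := by linarith
      positivity
    · linarith
  refine (lintegral_mono_set himg).trans (le_of_eq ?_)
  have h7 : ∀ w : ℂ, ENNReal.ofReal (q ^ 2 / 4 * ‖w‖ ^ (q - 2)) =
      ENNReal.ofReal (q ^ 2 / 4) * ENNReal.ofReal (‖w‖ ^ (q - 2)) := fun w =>
    ENNReal.ofReal_mul (by positivity)
  simp only [h7]
  rw [lintegral_const_mul' _ _ ENNReal.ofReal_ne_top, disc_int hq hM0,
    ← ENNReal.ofReal_mul (by positivity)]
  congr 1
  field_simp
  norm_num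

/-- `∫_D |g|^q < ∞` for `q < 1`. -/
lemma bergman {g : ℂ → ℂ} (hg : DifferentiableOn ℂ g (ball 0 1)) (hi : InjOn g (ball 0 1))
    (hne : ∀ z ∈ ball (0 : ℂ) 1, g z ≠ 0) {q : ℝ} (hq : 0 < q) (hq1 : q < 1) :
    ∫⁻ z in ball (0 : ℂ) 1, ENNReal.ofReal (‖g z‖ ^ q) < ∞ := by
  obtain ⟨l, hl, hlg⟩ := exists_log hg hne
  set F : ℂ → ℂ := fun z => Complex.exp ((q / 2 : ℝ) * l z) with hF
  have hFd : DifferentiableOn ℂ F (ball 0 1) := (hl.const_mul _).cexp
  have hnorm : ∀ z ∈ ball (0 : ℂ) 1, ENNReal.ofReal (‖g z‖ ^ q) = ENNReal.ofReal (‖F z‖ ^ 2) := by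
    intro z hz
    congr 1
    rw [hF, ← hlg z hz, Complex.norm_exp, Complex.norm_exp, ← Real.exp_mul, ← Real.exp_nat_mul]
    congr 1
    rw [Complex.re_ofReal_mul]
    push_cast
    ring
  rw [setLIntegral_congr_fun measurableSet_ball hnorm]
  refine hardy hFd ?_
  -- dyadic decomposition
  set u : ℂ → ℝ≥0∞ := fun z => ENNReal.ofReal (‖deriv F z‖ ^ 2) with hu
  have hpt : ∀ z ∈ ball (0 : ℂ) 1, ENNReal.ofReal ((1 - ‖z‖) ^ 2) * u z ≤
      ∑' k : ℕ, ENNReal.ofReal ((1 / 4 : ℝ) ^ k) *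
        (ball (0 : ℂ) (1 - (1 / 2) ^ (k + 1))).indicator u z := by
    intro z hz
    have hz1 : ‖z‖ < 1 := by simpa using hz
    obtain ⟨k, hk1, hk2⟩ := exists_nat_pow_near_of_lt_one (x := 1 - ‖z‖) (y := 1 / 2)
      (by linarith) (by linarith [norm_nonneg z]) (by norm_num) (by norm_num)
    refine le_trans ?_ (ENNReal.le_tsum k)
    have hmem : z ∈ ball (0 : ℂ) (1 - (1 / 2) ^ (k + 1)) := by
      rw [mem_ball, dist_zero_right]; linarith
    rw [indicator_of_mem hmem]
    gcongr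
    calc (1 - ‖z‖) ^ 2 ≤ ((1 / 2 : ℝ) ^ k) ^ 2 := by
          gcongr
      _ = (1 / 4) ^ k := by rw [← pow_mul, mul_comm, pow_mul]; norm_num
  have hmono : ∫⁻ z in ball (0 : ℂ) 1, ENNReal.ofReal ((1 - ‖z‖) ^ 2) * u z ≤
      ∫⁻ z in ball (0 : ℂ) 1, ∑' k : ℕ, ENNReal.ofReal ((1 / 4 : ℝ) ^ k) *
        (ball (0 : ℂ) (1 - (1 / 2) ^ (k + 1))).indicator u z :=
    setLIntegral_mono' measurableSet_ball hpt
  refine hmono.trans_lt ?_
  have hRk : ∀ k : ℕ, (0 : ℝ) < 1 - (1 / 2) ^ (k + 1) ∧ (1 : ℝ) - (1 / 2) ^ (k + 1) < 1 := by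
    intro k
    have h1 : ((1 : ℝ) / 2) ^ (k + 1) ≤ (1 / 2) ^ 1 :=
      pow_le_pow_of_le_one (by norm_num) (by norm_num) (by omega)
    have h2 : (0 : ℝ) < (1 / 2) ^ (k + 1) := by positivity
    constructor <;> linarith
  have hdF : ContinuousOn (deriv F) (ball 0 1) := (hFd.deriv isOpen_ball).continuousOn
  have hind : ∀ k : ℕ, Measurable ((ball (0 : ℂ) (1 - (1 / 2) ^ (k + 1))).indicator u) := by
    intro k
    refine meas_ind measurableSet_ball ?_
    exact ENNReal.continuous_ofReal.comp_continuousOn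
      ((hdF.mono (ball_subset_ball (hRk k).2.le)).norm.pow 2)
  rw [lintegral_tsum (fun k => ((hind k).const_mul _).aemeasurable)]
  set C : ℝ := q * π / 2 * (‖g 0‖ * 16) ^ q with hC
  have hC0 : 0 ≤ C := by positivity
  have hterm : ∀ k : ℕ, ∫⁻ z in ball (0 : ℂ) 1, ENNReal.ofReal ((1 / 4 : ℝ) ^ k) *
        (ball (0 : ℂ) (1 - (1 / 2) ^ (k + 1))).indicator u z ≤
        ENNReal.ofReal (C * ((1 / 4 : ℝ) ^ (1 - q)) ^ k) := by
    intro k
    rw [lintegral_const_mul' _ _ ENNReal.ofReal_ne_top, lintegral_indicator measurableSet_ball,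
      Measure.restrict_restrict measurableSet_ball,
      inter_eq_self_of_subset_left (ball_subset_ball (hRk k).2.le)]
    have h1 := prawitz hg hi hne hl hlg hq (hRk k).2
    refine (mul_le_mul_right h1 _).trans ?_
    rw [← ENNReal.ofReal_mul (by positivity)]
    refine ENNReal.ofReal_le_ofReal (le_of_eq ?_)
    have h2 : ‖g 0‖ * (2 / (1 - (1 - (1 / 2) ^ (k + 1)))) ^ 2 = (‖g 0‖ * 16) * 4 ^ k := by
      have : (1 : ℝ) - (1 - (1 / 2) ^ (k + 1)) = (1 / 2) ^ (k + 1) := by ring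
      rw [this, div_pow, ← pow_mul, mul_comm (k + 1) 2, pow_mul, one_div, inv_pow, inv_pow,
        div_inv_eq_mul, pow_succ]
      norm_num
      ring
    rw [h2, Real.mul_rpow (by positivity) (by positivity), hC]
    have h3 : ((4 : ℝ) ^ k) ^ q = ((4 : ℝ) ^ q) ^ k := by
      rw [← Real.rpow_natCast, ← Real.rpow_natCast, ← Real.rpow_mul (by norm_num),
        ← Real.rpow_mul (by norm_num), mul_comm]
    have h4 : (1 / 4 : ℝ) ^ (1 - q) = (1 / 4) * 4 ^ q := by
      rw [Real.rpow_sub (by norm_num), Real.rpow_one, one_div, Real.inv_rpow (by norm_num)]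
      field_simp
    rw [h3, h4, mul_pow]
    ring
  refine (ENNReal.tsum_le_tsum hterm).trans_lt ?_
  have hgeo : Summable fun k : ℕ => C * ((1 / 4 : ℝ) ^ (1 - q)) ^ k := by
    refine (summable_geometric_of_lt_one (by positivity) ?_).mul_left C
    exact Real.rpow_lt_one (by norm_num) (by norm_num) (by linarith)
  rw [← ENNReal.ofReal_tsum_of_nonneg (fun k => by positivity) hgeo]
  exact ENNReal.ofReal_lt_top

/-- an injective holomorphic function on the disc omits a value. -/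
lemma exists_omitted {f : ℂ → ℂ} (hf : DifferentiableOn ℂ f (ball 0 1))
    (hi : InjOn f (ball 0 1)) : ∃ w, ∀ z ∈ ball (0 : ℂ) 1, f z ≠ w := by
  by_contra hcon
  push Not at hcon
  have hb : BijOn f (ball 0 1) univ := ⟨mapsTo_univ _ _, hi, fun w _ => by
    obtain ⟨z, hz, h⟩ := hcon w; exact ⟨z, hz, h⟩⟩
  have hinv := hb.invOn_invFunOn
  set ψ : ℂ → ℂ := Function.invFunOn f (ball 0 1) with hψ
  have hleft : ∀ z ∈ ball (0 : ℂ) 1, ψ (f z) = z := fun z hz => hinv.1 hz
  have hd0 : ∀ z ∈ ball (0 : ℂ) 1, deriv f z ≠ 0 := fun z hz => deriv_ne_zero isOpen_ball hf hi hz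
  have hdψ : Differentiable ℂ ψ := by
    intro w
    obtain ⟨z, hz, rfl⟩ := hcon w
    have h1 : HasStrictDerivAt f (deriv f z) z :=
      (hf.analyticAt (isOpen_ball.mem_nhds hz)).hasStrictDerivAt
    refine ((h1.to_local_left_inverse (hd0 z hz) ?_).hasDerivAt).differentiableAt
    filter_upwards [isOpen_ball.mem_nhds hz] with y hy using hleft y hy
  have hbd : Bornology.IsBounded (range ψ) := by
    refine isBounded_ball.subset (s := range ψ) (t := ball (0 : ℂ) 1) ?_
    rintro _ ⟨w, rfl⟩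
    obtain ⟨z, hz, rfl⟩ := hcon w
    rw [hleft z hz]; exact hz
  have h1 := hdψ.apply_eq_apply_of_bounded hbd (f 0) (f (1 / 2))
  rw [hleft 0 (by simp), hleft (1 / 2) (by rw [mem_ball_zero_iff]; norm_num)] at h1
  norm_num at h1

end PosAux

open PosAux

theorem intpos {f : ℂ → ℂ} (hf : DifferentiableOn ℂ f (ball 0 1)) (hi : InjOn f (ball 0 1))
    {t : ℝ} (ht0 : 0 < t) (ht : t < 2 / 3) :
    ∫⁻ z in ball (0 : ℂ) 1, ENNReal.ofReal (‖deriv f z‖ ^ t) < ⊤ := by
  obtain ⟨w0, hw0⟩ := exists_omitted hf hi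
  set g : ℂ → ℂ := fun z => f z - w0 with hgdef
  have hg : DifferentiableOn ℂ g (ball 0 1) := hf.sub_const _
  have hgi : InjOn g (ball 0 1) := fun x hx y hy hxy => hi hx hy (by simpa [g] using hxy)
  have hne : ∀ z ∈ ball (0 : ℂ) 1, g z ≠ 0 := fun z hz => sub_ne_zero.2 (hw0 z hz)
  have hder : ∀ z, deriv f z = deriv g z := by intro z; simp [g]
  simp only [hder]
  -- parameters
  obtain ⟨q, hq1, hq2⟩ : ∃ q : ℝ, 2 * t / (2 - t) < q ∧ q < 1 := by
    apply exists_between
    rw [div_lt_one (by linarith)]; linarith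
  have hq0 : 0 < q := lt_trans (by apply div_pos <;> linarith) hq1
  set a : ℝ := q * (2 - t) / 2 with ha
  have hat : t < a := by
    rw [div_lt_iff₀ (by linarith)] at hq1
    rw [ha]; linarith
  have ha0 : 0 < a := ht0.trans hat
  -- first factor
  have hI1 : ∫⁻ z in ball (0 : ℂ) 1, ENNReal.ofReal (‖deriv g z‖ ^ 2) *
      ENNReal.ofReal ((1 + ‖g z‖) ^ (-(2 * a / t))) < ∞ := by
    rw [← area_formula (g := g) (g' := deriv g) (S := ball 0 1) measurableSet_ball
      (fun z hz => hda hg hz) hgi (fun w => ENNReal.ofReal ((1 + ‖w‖) ^ (-(2 * a / t))))]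
    refine (setLIntegral_le_lintegral _ _).trans_lt ?_
    refine finite_integral_one_add_norm ?_
    rw [Complex.finrank_real_complex]
    push_cast
    rw [lt_div_iff₀ ht0]; linarith
  have hI2 : ∫⁻ z in ball (0 : ℂ) 1, ENNReal.ofReal ((1 + ‖g z‖) ^ q) < ∞ := by
    have h1 : ∫⁻ z in ball (0 : ℂ) 1, ENNReal.ofReal ((1 + ‖g z‖) ^ q) ≤
        ∫⁻ z in ball (0 : ℂ) 1, (1 + ENNReal.ofReal (‖g z‖ ^ q)) := by
      refine lintegral_mono fun z => ?_
      rw [← ENNReal.ofReal_one, ← ENNReal.ofReal_add (by norm_num) (by positivity)]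
      refine ENNReal.ofReal_le_ofReal ?_
      have := Real.rpow_add_le_add_rpow (a := 1) (b := ‖g z‖) (by norm_num) (norm_nonneg _)
        hq0.le hq2.le
      simpa using this
    refine h1.trans_lt ?_
    rw [lintegral_add_left measurable_const]
    refine ENNReal.add_lt_top.2 ⟨?_, bergman hg hgi hne hq0 hq2⟩
    rw [lintegral_const, one_mul, Measure.restrict_apply_univ]
    exact measure_ball_lt_top
  -- Hölder
  have hcg : ContinuousOn g (ball 0 1) := hg.continuousOn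
  have hcdg : ContinuousOn (deriv g) (ball 0 1) := (hg.deriv isOpen_ball).continuousOn
  set A : ℂ → ℝ≥0∞ := fun z => ENNReal.ofReal (‖deriv g z‖ ^ t * (1 + ‖g z‖) ^ (-a)) with hA
  set B : ℂ → ℝ≥0∞ := fun z => ENNReal.ofReal ((1 + ‖g z‖) ^ a) with hB
  have hpq : (2 / t).HolderConjugate (2 / (2 - t)) := by
    rw [Real.holderConjugate_iff]
    constructor
    · rw [one_lt_div ht0]; linarith
    · rw [inv_div, inv_div]; ring
  have hAm : AEMeasurable A (volume.restrict (ball 0 1)) := by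
    refine ContinuousOn.aemeasurable ?_ measurableSet_ball
    refine ENNReal.continuous_ofReal.comp_continuousOn ?_
    refine (hcdg.norm.rpow_const fun z _ => Or.inr ht0.le).mul ?_
    refine (continuousOn_const.add hcg.norm).rpow_const fun z _ => Or.inl ?_
    exact (by positivity : (0 : ℝ) < 1 + ‖g z‖).ne'
  have hBm : AEMeasurable B (volume.restrict (ball 0 1)) := by
    refine ContinuousOn.aemeasurable ?_ measurableSet_ball
    refine ENNReal.continuous_ofReal.comp_continuousOn ?_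
    refine (continuousOn_const.add hcg.norm).rpow_const fun z _ => Or.inl ?_
    exact (by positivity : (0 : ℝ) < 1 + ‖g z‖).ne'
  have hH := ENNReal.lintegral_mul_le_Lp_mul_Lq (volume.restrict (ball (0 : ℂ) 1)) hpq hAm hBm
  have hAB : ∀ z, ENNReal.ofReal (‖deriv g z‖ ^ t) = (A * B) z := by
    intro z
    rw [Pi.mul_apply, hA, hB, ← ENNReal.ofReal_mul (by positivity), mul_assoc,
      ← Real.rpow_add (by positivity)]
    simp
  simp only [hAB]
  refine hH.trans_lt (ENNReal.mul_lt_top ?_ ?_)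
  · refine ENNReal.rpow_lt_top_of_nonneg (by positivity) (ne_of_lt ?_)
    refine lt_of_eq_of_lt (lintegral_congr fun z => ?_) hI1
    rw [hA, ENNReal.ofReal_rpow_of_nonneg (by positivity) (by positivity),
      ← ENNReal.ofReal_mul (by positivity), Real.mul_rpow (by positivity) (by positivity),
      ← Real.rpow_mul (by positivity), ← Real.rpow_mul (by positivity)]
    congr 2
    · rw [mul_div_cancel₀ _ ht0.ne']; exact Real.rpow_natCast _ 2
    · congr 1; ring
  · refine ENNReal.rpow_lt_top_of_nonneg ?_ (ne_of_lt ?_)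
    · have : 0 < 2 - t := by linarith
      positivity
    · refine lt_of_eq_of_lt (lintegral_congr fun z => ?_) hI2
      have h2t : 0 < 2 - t := by linarith
      rw [hB, ENNReal.ofReal_rpow_of_nonneg (by positivity) (by positivity),
        ← Real.rpow_mul (by positivity)]
      congr 2
      rw [ha]
      field_simp

end Vale.Agent.P142
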