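import Vale.Agent.P142.Defs

/-! P142, [POS], part A: area formula for injective holomorphic maps, polar coordinates on annuli. -/

open Metric Set MeasureTheory Filter Topology
open scoped Real ENNReal

namespace Vale.Agent.P142
namespace PosAux

/-- the real determinant of multiplication by a complex number. -/
lemma det_smul_one (c : ℂ) : ((c • (1 : ℂ →L[ℝ] ℂ)) : ℂ →L[ℝ] ℂ).det = ‖c‖ ^ 2 := by
  have h : ((c • (1 : ℂ →L[ℝ] ℂ)) : ℂ →L[ℝ] ℂ).toLinearMap = Algebra.lmul ℝ ℂ c := by
    ext; simp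
  rw [ContinuousLinearMap.det, h]
  have := Algebra.norm_complex_apply c
  rw [Algebra.norm_apply] at this
  rw [this, Complex.normSq_eq_norm_sq]

/-- Area formula for injective holomorphic maps. -/
lemma area_formula {g g' : ℂ → ℂ} {S : Set ℂ} (hS : MeasurableSet S)
    (hd : ∀ z ∈ S, HasDerivAt g (g' z) z) (hi : InjOn g S) (u : ℂ → ℝ≥0∞) :
    ∫⁻ w in g '' S, u w = ∫⁻ z in S, ENNReal.ofReal (‖g' z‖ ^ 2) * u (g z) := by
  rw [lintegral_image_eq_lintegral_abs_det_fderiv_mul volume hS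
    (fun z hz => (hd z hz).complexToReal_fderiv.hasFDerivWithinAt) hi]
  simp only [det_smul_one, abs_pow, abs_norm]

lemma measurableSet_image {g g' : ℂ → ℂ} {S : Set ℂ} (hS : MeasurableSet S)
    (hd : ∀ z ∈ S, HasDerivAt g (g' z) z) (hi : InjOn g S) : MeasurableSet (g '' S) :=
  measurable_image_of_fderivWithin hS
    (fun z hz => (hd z hz).complexToReal_fderiv.hasFDerivWithinAt) hi

/-- Polar coordinates. -/
lemma lintegral_polar (u : ℂ → ℝ≥0∞) (hu : Measurable u) :
    ∫⁻ z, u z = ∫⁻ r in Ioi (0 : ℝ), ENNReal.ofReal r *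
      ∫⁻ θ in Ioo (-π) π, u (r * Complex.exp (θ * Complex.I)) := by
  rw [← Complex.lintegral_comp_polarCoord_symm, polarCoord_target, Measure.volume_eq_prod,
    ← Measure.prod_restrict, lintegral_prod]
  · refine lintegral_congr fun r => ?_
    rw [← lintegral_const_mul']
    · refine lintegral_congr fun θ => ?_
      simp only [smul_eq_mul]
      congr 2
      rw [Complex.polarCoord_symm_apply, Complex.exp_mul_I]
      push_cast
      ring
    · exact ENNReal.ofReal_ne_top
  · refine Measurable.aemeasurable ?_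
    have h1 : Measurable fun p : ℝ × ℝ => Complex.polarCoord.symm p := by
      have : (fun p : ℝ × ℝ => Complex.polarCoord.symm p) =
          fun p => (p.1 : ℂ) * (Complex.exp (p.2 * Complex.I)) := by
        funext p
        rw [Complex.polarCoord_symm_apply, Complex.exp_mul_I]
        push_cast
        ring
      rw [this]
      fun_prop
    exact (measurable_fst.ennreal_ofReal).smul (hu.comp h1)

/-- Polar coordinates on an annulus-type region. -/
lemma lintegral_polar_on' (u : ℂ → ℝ≥0∞) {T : Set ℝ} (hT : MeasurableSet T)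
    (hu : Measurable ({z : ℂ | ‖z‖ ∈ T}.indicator u)) :
    ∫⁻ z in {z : ℂ | ‖z‖ ∈ T}, u z = ∫⁻ r in Ioi (0 : ℝ) ∩ T, ENNReal.ofReal r *
      ∫⁻ θ in Ioo (-π) π, u (r * Complex.exp (θ * Complex.I)) := by
  have hS : MeasurableSet {z : ℂ | ‖z‖ ∈ T} := hT.preimage measurable_norm
  rw [← lintegral_indicator hS, lintegral_polar _ hu, inter_comm,
    ← Measure.restrict_restrict hT, ← lintegral_indicator hT]
  refine setLIntegral_congr_fun measurableSet_Ioi fun r hr => ?_
  have hr : (0 : ℝ) < r := hr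
  by_cases h : r ∈ T
  · rw [indicator_of_mem h]
    congr 1
    refine lintegral_congr fun θ => ?_
    rw [indicator_of_mem]
    simp [abs_of_pos hr, h]
  · rw [indicator_of_notMem h]
    convert mul_zero _
    convert lintegral_zero with θ
    rw [indicator_of_notMem]
    simp [abs_of_pos hr, h]

lemma lintegral_polar_on (u : ℂ → ℝ≥0∞) (hu : Measurable u) {T : Set ℝ} (hT : MeasurableSet T) :
    ∫⁻ z in {z : ℂ | ‖z‖ ∈ T}, u z = ∫⁻ r in Ioi (0 : ℝ) ∩ T, ENNReal.ofReal r *
      ∫⁻ θ in Ioo (-π) π, u (r * Complex.exp (θ * Complex.I)) :=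
  lintegral_polar_on' u hT (hu.indicator (hT.preimage measurable_norm))

lemma radial_inv {a b : ℝ} (ha : 0 < a) (hab : a ≤ b) :
    ∫⁻ r in Ioo a b, ENNReal.ofReal (2 * π * r⁻¹) = ENNReal.ofReal (2 * π * Real.log (b / a)) := by
  rw [← ofReal_integral_eq_lintegral_ofReal]
  · congr 1
    rw [← integral_Ioc_eq_integral_Ioo, ← intervalIntegral.integral_of_le hab,
      intervalIntegral.integral_const_mul, integral_inv_of_pos ha (ha.trans_le hab)]
  · have : IntervalIntegrable (fun r : ℝ => 2 * π * r⁻¹) volume a b := by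
      apply ContinuousOn.intervalIntegrable
      refine continuousOn_const.mul (continuousOn_inv₀.mono ?_)
      intro x hx
      rw [uIcc_of_le hab] at hx
      exact (ha.trans_le hx.1).ne'
    exact ((intervalIntegrable_iff_integrableOn_Ioo_of_le hab).1 this)
  · refine (ae_restrict_iff' measurableSet_Ioo).2 (Eventually.of_forall fun r hr => ?_)
    have hr0 : 0 < r := ha.trans hr.1
    positivity

/-- logarithmic area of a closed annulus. -/
lemma log_area {a b : ℝ} (ha : 0 < a) (hab : a ≤ b) :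
    ∫⁻ z in {z : ℂ | ‖z‖ ∈ Icc a b}, ENNReal.ofReal (‖z‖⁻¹ ^ 2) =
      ENNReal.ofReal (2 * π * Real.log (b / a)) := by
  rw [lintegral_polar_on _ (by fun_prop) measurableSet_Icc]
  have h1 : Ioi (0 : ℝ) ∩ Icc a b = Icc a b := by
    ext x; constructor
    · exact fun h => h.2
    · exact fun h => ⟨ha.trans_le h.1, h⟩
  rw [h1, ← setLIntegral_congr Ioo_ae_eq_Icc, ← radial_inv ha hab]
  refine setLIntegral_congr_fun measurableSet_Ioo fun r hr => ?_
  have hr0 : 0 < r := ha.trans hr.1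
  have : ∀ θ : ℝ, ‖(r : ℂ) * Complex.exp (θ * Complex.I)‖ = r := by
    intro θ; simp [abs_of_pos hr0]
  simp only [this, lintegral_const, Measure.restrict_apply_univ, Real.volume_Ioo]
  rw [← ENNReal.ofReal_mul (by positivity), ← ENNReal.ofReal_mul hr0.le]
  congr 1
  field_simp
  ring

/-- mean value inequality for `‖v‖²`, `v 0 = 1`. -/
lemma mean_ge {v : ℂ → ℂ} (hv : DifferentiableOn ℂ v (ball 0 1)) (h0 : v 0 = 1) {ρ : ℝ}
    (hρ : 0 < ρ) (hρ1 : ρ < 1) :
    ENNReal.ofReal (2 * π) ≤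
      ∫⁻ θ in Ioo (-π) π, ENNReal.ofReal (‖v (ρ * Complex.exp (θ * Complex.I))‖ ^ 2) := by
  have hd : DiffContOnCl ℂ (fun z => v z ^ 2) (ball 0 |ρ|) := by
    refine DifferentiableOn.diffContOnCl ?_
    refine DifferentiableOn.mono (hv.pow 2) ?_
    rw [abs_of_pos hρ]
    refine (closure_ball_subset_closedBall).trans ?_
    exact closedBall_subset_ball hρ1
  have h1 := hd.circleAverage
  simp only [h0, one_pow] at h1
  rw [Real.circleAverage_def] at h1
  have h2 : ∫ θ in (0)..2 * π, (v (circleMap 0 ρ θ)) ^ 2 =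
      ∫ θ in (-π)..π, (v (circleMap 0 ρ θ)) ^ 2 := by
    have hp : Function.Periodic (fun θ => (v (circleMap 0 ρ θ)) ^ 2) (2 * π) := by
      intro θ; simp only [periodic_circleMap 0 ρ θ]
    have := hp.intervalIntegral_add_eq 0 (-π)
    rw [zero_add, show -π + 2 * π = π by ring] at this
    exact this
  have h3 : ∫ θ in (-π)..π, (v (circleMap 0 ρ θ)) ^ 2 = (2 * π : ℝ) := by
    rw [h2] at h1
    have h2π : (2 * π : ℝ) ≠ 0 := by positivity
    have := congrArg (fun x : ℂ => (2 * π : ℝ) • x) h1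
    simp only [smul_smul, mul_inv_cancel₀ h2π, one_smul] at this
    rw [this]; simp
  have h4 := enorm_integral_le_lintegral_enorm (μ := volume.restrict (Ioo (-π) π))
    (fun θ : ℝ => (v (circleMap 0 ρ θ)) ^ 2)
  rw [← integral_Ioc_eq_integral_Ioo, ← intervalIntegral.integral_of_le
    (by linarith [Real.pi_pos]), h3] at h4
  refine le_trans (le_of_eq ?_) (h4.trans (le_of_eq ?_))
  · rw [← ofReal_norm]
    congr 1
    rw [Complex.norm_real, Real.norm_of_nonneg (by positivity)]
  · refine lintegral_congr fun θ => ?_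
    rw [← ofReal_norm, norm_pow, circleMap_zero]

/-- indicator measurability for functions continuous on an open disc. -/
lemma meas_ind {u : ℂ → ℝ≥0∞} {S : Set ℂ} (hS : MeasurableSet S) (hu : ContinuousOn u S) :
    Measurable (S.indicator u) := by
  classical
  rw [← piecewise_eq_indicator]
  exact hu.measurable_piecewise continuousOn_const hS

/-- Length-area lower bound. -/
lemma length_area {v : ℂ → ℂ} (hv : DifferentiableOn ℂ v (ball 0 1)) (h0 : v 0 = 1) {ε r : ℝ}
    (hε : 0 < ε) (hεr : ε ≤ r) (hr : r ≤ 1) :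
    ENNReal.ofReal (2 * π * Real.log (r / ε)) ≤
      ∫⁻ z in {z : ℂ | ‖z‖ ∈ Ioo ε r}, ENNReal.ofReal (‖v z‖ ^ 2 * ‖z‖⁻¹ ^ 2) := by
  have hsub : {z : ℂ | ‖z‖ ∈ Ioo ε r} ⊆ ball 0 1 := by
    intro z hz
    simpa using hz.2.trans_le hr
  have hc : ContinuousOn (fun z => ENNReal.ofReal (‖v z‖ ^ 2 * ‖z‖⁻¹ ^ 2))
      {z : ℂ | ‖z‖ ∈ Ioo ε r} := by
    refine ENNReal.continuous_ofReal.comp_continuousOn ?_
    refine ((hv.continuousOn.mono hsub).norm.pow 2).mul ?_
    refine ContinuousOn.pow (ContinuousOn.inv₀ continuous_norm.continuousOn ?_) 2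
    intro z hz
    exact (hε.trans hz.1).ne'
  rw [lintegral_polar_on' _ measurableSet_Ioo
    (meas_ind (measurableSet_Ioo.preimage measurable_norm) hc)]
  have h1 : Ioi (0 : ℝ) ∩ Ioo ε r = Ioo ε r := by
    ext x; constructor
    · exact fun h => h.2
    · exact fun h => ⟨hε.trans h.1, h⟩
  rw [h1, ← radial_inv hε hεr]
  refine setLIntegral_mono' measurableSet_Ioo fun ρ hρ => ?_
  have hρ0 : 0 < ρ := hε.trans hρ.1
  have hn : ∀ θ : ℝ, ‖(ρ : ℂ) * Complex.exp (θ * Complex.I)‖ = ρ := by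
    intro θ; simp [abs_of_pos hρ0]
  have hm := mean_ge hv h0 hρ0 (hρ.2.trans_le hr)
  simp only [hn]
  have h5 : ∀ θ : ℝ, ENNReal.ofReal (‖v (ρ * Complex.exp (θ * Complex.I))‖ ^ 2 * ρ⁻¹ ^ 2) =
      ENNReal.ofReal (‖v (ρ * Complex.exp (θ * Complex.I))‖ ^ 2) * ENNReal.ofReal (ρ⁻¹ ^ 2) :=
    fun θ => ENNReal.ofReal_mul (by positivity)
  simp only [h5]
  rw [lintegral_mul_const' _ _ ENNReal.ofReal_ne_top]
  calc ENNReal.ofReal (2 * π * ρ⁻¹) = ENNReal.ofReal ρ *
        (ENNReal.ofReal (2 * π) * ENNReal.ofReal (ρ⁻¹ ^ 2)) := by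
        rw [← ENNReal.ofReal_mul (by positivity), ← ENNReal.ofReal_mul hρ0.le]
        congr 1
        field_simp
    _ ≤ _ := by gcongr

end PosAux
end Vale.Agent.P142
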