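import Vale.Agent.P142.PosA

/-! P142, [POS], part B: the Koebe one-quarter theorem by length-area, and the growth theorem for
nonvanishing univalent functions. -/

open Metric Set MeasureTheory Filter Topology
open scoped Real ENNReal

namespace Vale.Agent.P142
namespace PosAux

lemma hda {g : ℂ → ℂ} (hg : DifferentiableOn ℂ g (ball 0 1)) {z : ℂ} (hz : z ∈ ball (0 : ℂ) 1) :
    HasDerivAt g (deriv g z) z :=
  (hg.differentiableAt (isOpen_ball.mem_nhds hz)).hasDerivAt

/-- image of a disc contains the disc of radius = min modulus on the boundary. -/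
lemma ball_subset_image {k : ℂ → ℂ} (hk : DifferentiableOn ℂ k (ball 0 1))
    (hi : InjOn k (ball 0 1)) (h0 : k 0 = 0) {ε δ : ℝ} (hε : 0 < ε) (hε1 : ε < 1)
    (hδ : ∀ z ∈ sphere (0 : ℂ) ε, δ ≤ ‖k z‖) : ball 0 δ ⊆ k '' ball 0 ε := by
  rcases le_or_gt δ 0 with hδ0 | hδ0
  · rw [ball_eq_empty.2 hδ0]; exact empty_subset _
  have hcb : closedBall (0 : ℂ) ε ⊆ ball 0 1 := closedBall_subset_ball hε1
  have hopen : IsOpen (k '' ball 0 ε) := by
    rcases (hk.analyticOnNhd isOpen_ball).is_constant_or_isOpen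
      (convex_ball (0 : ℂ) 1).isPreconnected with ⟨w, hw⟩ | h
    · exfalso
      have h1 : (0 : ℂ) ∈ ball (0 : ℂ) 1 := by simp
      have h2 : (1 / 2 : ℂ) ∈ ball (0 : ℂ) 1 := by
        rw [mem_ball_zero_iff]; norm_num
      have := hi h1 h2 (by rw [hw _ h1, hw _ h2])
      norm_num at this
    · exact h _ (ball_subset_closedBall.trans hcb) isOpen_ball
  have hcl : IsClosed (k '' closedBall 0 ε) :=
    ((isCompact_closedBall (0 : ℂ) ε).image_of_continuousOn (hk.continuousOn.mono hcb)).isClosed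
  have hpre : IsPreconnected (ball (0 : ℂ) δ) := (convex_ball (0 : ℂ) δ).isPreconnected
  refine hpre.subset_left_of_subset_union hopen hcl.isOpen_compl ?_ ?_ ?_
  · exact disjoint_compl_right_iff_subset.2 (image_mono ball_subset_closedBall)
  · intro w hw
    by_cases h : w ∈ k '' closedBall 0 ε
    · left
      obtain ⟨z, hz, rfl⟩ := h
      rw [mem_closedBall, dist_zero_right] at hz
      rcases hz.lt_or_eq with hz | hz
      · exact ⟨z, by simpa using hz, rfl⟩
      · have := hδ z (by simpa using hz)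
        rw [mem_ball, dist_zero_right] at hw
        linarith
    · right; exact h
  · exact ⟨0, by simpa using hδ0, 0, by simpa using hε, h0⟩

/-- The core of the Bieberbach–Eilenberg inequality (length-area). -/
lemma be_core {k : ℂ → ℂ} (hk : DifferentiableOn ℂ k (ball 0 1)) (hi : InjOn k (ball 0 1))
    (h0 : k 0 = 0) (hp : ∀ z ∈ ball (0 : ℂ) 1, ∀ w ∈ ball (0 : ℂ) 1, k z * k w ≠ 1)
    (hk0 : deriv k 0 ≠ 0)
    {ε r δ : ℝ} (hε : 0 < ε) (hεr : ε < r) (hr : r < 1) (hδ0 : 0 < δ)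
    (hδ : ∀ z ∈ sphere (0 : ℂ) ε, δ ≤ ‖k z‖) : δ * r ≤ ε := by
  have hr0 : 0 < r := hε.trans hεr
  have hsub := ball_subset_image hk hi h0 hε (hεr.trans hr) hδ
  have hεb : ball (0 : ℂ) ε ⊆ ball 0 1 := ball_subset_ball (hεr.trans hr).le
  have h00 : (0 : ℂ) ∈ ball (0 : ℂ) 1 := by simp
  set S : Set ℂ := {z : ℂ | ‖z‖ ∈ Ioo ε r} with hSdef
  have hSm : MeasurableSet S := measurableSet_Ioo.preimage measurable_norm
  have hS1 : S ⊆ ball 0 1 := fun z hz => by simpa using hz.2.trans hr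
  have hS0 : ∀ z ∈ S, z ≠ 0 := fun z hz h => by
    rw [h] at hz; have := hz.1; rw [norm_zero] at this; linarith
  have hkne : ∀ z ∈ ball (0 : ℂ) 1, z ≠ 0 → k z ≠ 0 := fun z hz hz0 h =>
    hz0 (hi hz h00 (by rw [h, h0]))
  -- bounds on the image
  have hlow : ∀ z ∈ S, δ ≤ ‖k z‖ := by
    intro z hz
    by_contra h
    push Not at h
    obtain ⟨y, hy, hyz⟩ := hsub (show k z ∈ ball 0 δ by simpa using h)
    have := hi (hεb hy) (hS1 hz) hyz
    rw [this] at hy
    rw [mem_ball, dist_zero_right] at hy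
    linarith [hz.1]
  have hup : ∀ z ∈ S, ‖k z‖ ≤ δ⁻¹ := by
    intro z hz
    by_contra h
    push Not at h
    have h1 : ‖(k z)⁻¹‖ < δ := by
      rw [norm_inv]
      exact inv_lt_of_inv_lt₀ hδ0 h
    obtain ⟨y, hy, hyz⟩ := hsub (show (k z)⁻¹ ∈ ball 0 δ by simpa using h1)
    refine hp z (hS1 hz) y (hεb hy) ?_
    rw [hyz, mul_inv_cancel₀ (hkne z (hS1 hz) (hS0 z hz))]
  -- the two images
  set κ : ℂ → ℂ := fun z => (k z)⁻¹ with hκ
  have hd1 : ∀ z ∈ S, HasDerivAt k (deriv k z) z := fun z hz => hda hk (hS1 hz)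
  have hd2 : ∀ z ∈ S, HasDerivAt κ (-(deriv k z) / (k z) ^ 2) z := fun z hz =>
    (hd1 z hz).inv (hkne z (hS1 hz) (hS0 z hz))
  have hi1 : InjOn k S := hi.mono hS1
  have hi2 : InjOn κ S := fun z hz w hw h => hi1 hz hw (inv_injective h)
  have hm1 := measurableSet_image hSm hd1 hi1
  have hm2 := measurableSet_image hSm hd2 hi2
  have hdisj : Disjoint (k '' S) (κ '' S) := by
    rw [Set.disjoint_left]
    rintro w ⟨z, hz, rfl⟩ ⟨y, hy, hyz⟩
    refine hp z (hS1 hz) y (hS1 hy) ?_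
    rw [← hyz, hκ]
    exact inv_mul_cancel₀ (hkne y (hS1 hy) (hS0 y hy))
  have hsubset : k '' S ∪ κ '' S ⊆ {z : ℂ | ‖z‖ ∈ Icc δ δ⁻¹} := by
    rintro w (⟨z, hz, rfl⟩ | ⟨z, hz, rfl⟩)
    · exact ⟨hlow z hz, hup z hz⟩
    · refine ⟨?_, ?_⟩
      · rw [hκ]
        simp only [norm_inv]
        rw [← inv_inv δ]
        exact inv_anti₀ (hδ0.trans_le (hlow z hz)) (hup z hz)
      · rw [hκ]
        simp only [norm_inv]
        exact inv_anti₀ hδ0 (hlow z hz)
  -- area comparison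
  have hδ1 : δ ≤ δ⁻¹ := by
    have hz : ((ε + r) / 2 : ℂ) ∈ S := by
      have h1 : ‖((ε + r) / 2 : ℂ)‖ = (ε + r) / 2 := by
        rw [show ((ε + r) / 2 : ℂ) = (((ε + r) / 2 : ℝ) : ℂ) by push_cast; ring,
          Complex.norm_real, Real.norm_of_nonneg (by positivity)]
      rw [hSdef, mem_ofPred_eq, h1]
      constructor <;> linarith
    exact (hlow _ hz).trans (hup _ hz)
  -- the holomorphic function v
  set m : ℂ → ℂ := dslope k 0 with hm
  have hmd : DifferentiableOn ℂ m (ball 0 1) :=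
    (Complex.differentiableOn_dslope (isOpen_ball.mem_nhds h00)).2 hk
  have hm0 : m 0 = deriv k 0 := dslope_same k 0
  have hmk : ∀ z, z * m z = k z := by
    intro z
    have := sub_smul_dslope k 0 z
    simpa [h0] using this
  have hmne : ∀ z ∈ ball (0 : ℂ) 1, m z ≠ 0 := by
    intro z hz
    rcases eq_or_ne z 0 with rfl | hz0
    · rwa [hm0]
    · intro h
      exact hkne z hz hz0 (by rw [← hmk z, h, mul_zero])
  set v : ℂ → ℂ := fun z => 1 + z * (deriv m z / m z) with hv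
  have hmd' : DifferentiableOn ℂ (deriv m) (ball 0 1) := hmd.deriv isOpen_ball
  have hvd : DifferentiableOn ℂ v (ball 0 1) :=
    (differentiableOn_const 1).add (differentiableOn_id.mul (hmd'.div hmd hmne))
  have hv0 : v 0 = 1 := by simp [hv]
  have hvk : ∀ z ∈ S, v z * z⁻¹ = deriv k z / k z := by
    intro z hz
    have hz0 := hS0 z hz
    have hmz := hmne z (hS1 hz)
    have h1 : HasDerivAt k (1 * m z + z * deriv m z) z := by
      have := (hasDerivAt_id z).mul (hda hmd (hS1 hz))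
      have he : (id * m : ℂ → ℂ) = k := by funext y; exact hmk y
      rwa [he] at this
    rw [(hd1 z hz).unique h1, ← hmk z, hv]
    field_simp
  have hla := length_area hvd hv0 hε hεr.le hr.le
  have hint : ∀ z ∈ S, ENNReal.ofReal (‖deriv k z‖ ^ 2) * ENNReal.ofReal (‖k z‖⁻¹ ^ 2) =
      ENNReal.ofReal (‖v z‖ ^ 2 * ‖z‖⁻¹ ^ 2) := by
    intro z hz
    rw [← ENNReal.ofReal_mul (by positivity)]
    congr 1
    rw [← mul_pow, ← mul_pow, ← norm_inv, ← norm_inv, ← norm_mul, ← norm_mul, hvk z hz,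
      div_eq_mul_inv]
  have hA1 : ∫⁻ w in k '' S, ENNReal.ofReal (‖w‖⁻¹ ^ 2) =
      ∫⁻ z in S, ENNReal.ofReal (‖v z‖ ^ 2 * ‖z‖⁻¹ ^ 2) := by
    rw [area_formula hSm hd1 hi1]
    exact setLIntegral_congr_fun hSm hint
  have hA2 : ∫⁻ w in κ '' S, ENNReal.ofReal (‖w‖⁻¹ ^ 2) =
      ∫⁻ z in S, ENNReal.ofReal (‖v z‖ ^ 2 * ‖z‖⁻¹ ^ 2) := by
    rw [area_formula hSm hd2 hi2]
    refine setLIntegral_congr_fun hSm fun z hz => ?_
    rw [← hint z hz, ← ENNReal.ofReal_mul (by positivity), ← ENNReal.ofReal_mul (by positivity)]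
    congr 1
    have hne : ‖k z‖ ≠ 0 := norm_ne_zero_iff.2 (hkne z (hS1 hz) (hS0 z hz))
    simp only [hκ, norm_div, norm_neg, norm_pow, norm_inv, inv_inv]
    field_simp
  have hle : ∫⁻ w in k '' S ∪ κ '' S, ENNReal.ofReal (‖w‖⁻¹ ^ 2) ≤
      ENNReal.ofReal (2 * π * Real.log (δ⁻¹ / δ)) := by
    rw [← log_area hδ0 hδ1]
    exact lintegral_mono_set hsubset
  rw [lintegral_union hm2 hdisj, hA1, hA2] at hle
  have hfin := (add_le_add hla hla).trans hle
  have hlog1 : 0 ≤ Real.log (r / ε) := Real.log_nonneg ((one_le_div hε).2 hεr.le)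
  have hlog2 : 0 ≤ Real.log (δ⁻¹ / δ) := Real.log_nonneg ((one_le_div hδ0).2 hδ1)
  rw [← ENNReal.ofReal_add (by positivity) (by positivity),
    ENNReal.ofReal_le_ofReal_iff (by positivity)] at hfin
  have hπ := Real.pi_pos
  have h5 : Real.log (δ⁻¹ / δ) = 2 * Real.log (δ⁻¹) := by
    rw [div_eq_mul_inv, ← pow_two, Real.log_pow]; norm_num
  rw [h5] at hfin
  have h6 : Real.log (r / ε) ≤ Real.log δ⁻¹ := by nlinarith
  rw [Real.log_le_log_iff (by positivity) (by positivity), div_le_iff₀ hε] at h6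
  calc δ * r ≤ δ * (δ⁻¹ * ε) := by gcongr
    _ = ε := by field_simp

/-- Bieberbach–Eilenberg: `|k'(0)| ≤ 1`. -/
lemma be {k : ℂ → ℂ} (hk : DifferentiableOn ℂ k (ball 0 1)) (hi : InjOn k (ball 0 1))
    (h0 : k 0 = 0) (hp : ∀ z ∈ ball (0 : ℂ) 1, ∀ w ∈ ball (0 : ℂ) 1, k z * k w ≠ 1) :
    ‖deriv k 0‖ ≤ 1 := by
  by_contra hcon
  push Not at hcon
  have hk0 : deriv k 0 ≠ 0 := by
    intro h; rw [h, norm_zero] at hcon; linarith
  obtain ⟨c, hc1, hc2⟩ := exists_between hcon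
  have h00 : (0 : ℂ) ∈ ball (0 : ℂ) 1 := by simp
  have hd := hda hk h00
  have h1 : ∀ᶠ z in 𝓝 (0 : ℂ), ‖k z - k 0 - (z - 0) • deriv k 0‖ ≤
      (‖deriv k 0‖ - c) * ‖z - 0‖ :=
    (hasDerivAt_iff_isLittleO.1 hd).def (by linarith)
  obtain ⟨η, hη, hηb⟩ := Metric.eventually_nhds_iff.1 h1
  set r : ℝ := (1 + c) / (2 * c) with hr
  have hr1 : r < 1 := by
    rw [hr, div_lt_one (by linarith)]; linarith
  have hr0 : 0 < r := by positivity
  set ε : ℝ := min (η / 2) (r / 2) with hε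
  have hε0 : 0 < ε := by positivity
  have hεr : ε < r := (min_le_right _ _).trans_lt (by linarith)
  have hεη : ε < η := (min_le_left _ _).trans_lt (by linarith)
  have key := be_core hk hi h0 hp hk0 hε0 hεr hr1 (δ := c * ε) (by positivity) ?_
  · have : c * r ≤ 1 := by
      have h2 : ε * (c * r) ≤ ε * 1 := by linarith
      exact le_of_mul_le_mul_left h2 hε0
    have h3 : c * r = (1 + c) / 2 := by rw [hr]; field_simp
    rw [h3] at this
    linarith
  · intro z hz
    have hz' : ‖z‖ = ε := by simpa using hz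
    have h2 := hηb (y := z) (by rw [dist_zero_right, hz']; exact hεη)
    rw [h0, sub_zero, sub_zero, hz'] at h2
    have h3 : ‖z • deriv k 0‖ - ‖k z‖ ≤ ‖k z - z • deriv k 0‖ := by
      rw [norm_sub_rev]; exact norm_sub_norm_le _ _
    rw [norm_smul, hz'] at h3
    nlinarith

/-- holomorphic logarithm on the disc. -/
lemma exists_log {g : ℂ → ℂ} (hg : DifferentiableOn ℂ g (ball 0 1))
    (hne : ∀ z ∈ ball (0 : ℂ) 1, g z ≠ 0) :
    ∃ l : ℂ → ℂ, DifferentiableOn ℂ l (ball 0 1) ∧ ∀ z ∈ ball (0 : ℂ) 1, Complex.exp (l z) = g z := by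
  have hg' : DifferentiableOn ℂ (deriv g) (ball 0 1) := hg.deriv isOpen_ball
  have h00 : (0 : ℂ) ∈ ball (0 : ℂ) 1 := by simp
  obtain ⟨l, hl0, hl⟩ := (hg'.div hg hne).isExactOn_ball.with_val_at 0 (Complex.log (g 0))
  have hld : DifferentiableOn ℂ l (ball 0 1) := fun z hz =>
    (hl z hz).differentiableAt.differentiableWithinAt
  refine ⟨l, hld, ?_⟩
  -- g * exp (-l) is constant
  have hcd : ∀ z ∈ ball (0 : ℂ) 1, HasDerivAt (fun z => g z * Complex.exp (-l z)) 0 z := by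
    intro z hz
    have h1 := (hda hg hz).mul ((hl z hz).neg.cexp)
    refine HasDerivAt.congr_deriv h1 ?_
    have := hne z hz
    simp only [Pi.div_apply, Pi.neg_apply]
    field_simp
    ring
  have hconst : ∀ z ∈ ball (0 : ℂ) 1, g z * Complex.exp (-l z) = g 0 * Complex.exp (-l 0) := by
    intro z hz
    exact (convex_ball (0 : ℂ) 1).is_const_of_fderivWithin_eq_zero
      (f := fun z => g z * Complex.exp (-l z)) (𝕜 := ℂ)
      (fun y hy => (hcd y hy).differentiableAt.differentiableWithinAt)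
      (fun y hy => by
        have := ((hcd y hy).hasDerivWithinAt (s := ball (0 : ℂ) 1)).hasFDerivWithinAt.fderivWithin
          (isOpen_ball.uniqueDiffWithinAt hy)
        rw [this]; ext; simp) hz h00
  intro z hz
  have h1 := hconst z hz
  rw [hl0, Complex.exp_neg, Complex.exp_neg, Complex.exp_log (hne 0 h00),
    mul_inv_cancel₀ (hne 0 h00)] at h1
  have h2 := Complex.exp_ne_zero (l z)
  field_simp at h1
  exact h1.symm

/-- Koebe one-quarter theorem. -/
lemma koebe {g : ℂ → ℂ} (hg : DifferentiableOn ℂ g (ball 0 1)) (hi : InjOn g (ball 0 1))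
    (hne : ∀ z ∈ ball (0 : ℂ) 1, g z ≠ 0) : ‖deriv g 0‖ ≤ 4 * ‖g 0‖ := by
  obtain ⟨l, hl, hlg⟩ := exists_log hg hne
  have h00 : (0 : ℂ) ∈ ball (0 : ℂ) 1 := by simp
  set h : ℂ → ℂ := fun z => Complex.exp (l z / 2) with hh
  have hhd : DifferentiableOn ℂ h (ball 0 1) := (hl.div_const 2).cexp
  have hh2 : ∀ z ∈ ball (0 : ℂ) 1, h z ^ 2 = g z := by
    intro z hz
    rw [hh, ← hlg z hz]
    simp only
    rw [← Complex.exp_nat_mul]
    congr 1; push_cast; ring
  have hhne : ∀ z, h z ≠ 0 := fun z => Complex.exp_ne_zero _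
  have hsum : ∀ z ∈ ball (0 : ℂ) 1, ∀ w ∈ ball (0 : ℂ) 1, h z + h w ≠ 0 := by
    intro z hz w hw hzw
    have h1 : g z = g w := by
      rw [← hh2 z hz, ← hh2 w hw, eq_neg_of_add_eq_zero_left hzw, neg_sq]
    have h2 := hi hz hw h1
    rw [h2] at hzw
    have : h w = 0 := by
      have : 2 * h w = 0 := by rw [two_mul]; exact hzw
      simpa using this
    exact hhne w this
  set k : ℂ → ℂ := fun z => (h z - h 0) / (h z + h 0) with hk
  have hkd : DifferentiableOn ℂ k (ball 0 1) :=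
    (hhd.sub_const _).div (hhd.add_const _) (fun z hz => hsum z hz 0 h00)
  have hki : InjOn k (ball 0 1) := by
    intro z hz w hw hzw
    simp only [hk] at hzw
    rw [div_eq_div_iff (hsum z hz 0 h00) (hsum w hw 0 h00)] at hzw
    have h1 : h 0 * (h z - h w) = 0 := by linear_combination hzw / 2
    have h2 : h z = h w := by
      rcases mul_eq_zero.1 h1 with h3 | h3
      · exact absurd h3 (hhne 0)
      · exact sub_eq_zero.1 h3
    exact hi hz hw (by rw [← hh2 z hz, ← hh2 w hw, h2])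
  have hk0 : k 0 = 0 := by simp [hk]
  have hkp : ∀ z ∈ ball (0 : ℂ) 1, ∀ w ∈ ball (0 : ℂ) 1, k z * k w ≠ 1 := by
    intro z hz w hw hzw
    simp only [hk] at hzw
    have h1 := hsum z hz 0 h00
    have h2 := hsum w hw 0 h00
    field_simp at hzw
    have h3 : h 0 * (h z + h w) = 0 := by linear_combination -hzw / 2
    rcases mul_eq_zero.1 h3 with h4 | h4
    · exact hhne 0 h4
    · exact hsum z hz w hw h4
  have hbe := be hkd hki hk0 hkp
  -- derivative of k at 0
  have hd1 := hda hhd h00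
  have hd2 : HasDerivAt k (deriv h 0 / (2 * h 0)) 0 := by
    have := (hd1.sub_const (h 0)).div (hd1.add_const (h 0)) (hsum 0 h00 0 h00)
    refine HasDerivAt.congr_deriv this ?_
    have := hhne 0
    rw [div_eq_div_iff (pow_ne_zero 2 (hsum 0 h00 0 h00)) (by simpa using this)]
    ring
  have hd3 : deriv g 0 = 2 * h 0 * deriv h 0 := by
    have h1 : HasDerivAt (fun z => h z ^ 2) (2 * h 0 * deriv h 0) 0 := by
      have := hd1.pow 2
      have he : (h ^ 2 : ℂ → ℂ) = fun z => h z ^ 2 := rfl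
      rw [he] at this
      refine HasDerivAt.congr_deriv this ?_
      simp
    have h2 : (fun z => h z ^ 2) =ᶠ[𝓝 0] g := by
      filter_upwards [isOpen_ball.mem_nhds h00] with z hz using hh2 z hz
    exact (h1.congr_of_eventuallyEq h2.symm).deriv
  rw [hd2.deriv] at hbe
  rw [norm_div, div_le_one (by simpa using hhne 0), norm_mul] at hbe
  rw [hd3, ← hh2 0 h00, norm_mul, norm_mul, norm_pow]
  simp only [Complex.norm_ofNat] at hbe ⊢
  nlinarith [norm_nonneg (h 0)]

end PosAux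
end Vale.Agent.P142
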