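import Vale.Agent.P142.PosB

/-! P142, [POS], part C: growth of nonvanishing univalent functions. -/

open Metric Set MeasureTheory Filter Topology
open scoped Real ENNReal

namespace Vale.Agent.P142
namespace PosAux

/-- Koebe at an arbitrary point. -/
lemma koebe_at {g : ℂ → ℂ} (hg : DifferentiableOn ℂ g (ball 0 1)) (hi : InjOn g (ball 0 1))
    (hne : ∀ z ∈ ball (0 : ℂ) 1, g z ≠ 0) {a : ℂ} (ha : a ∈ ball (0 : ℂ) 1) :
    ‖deriv g a‖ * (1 - ‖a‖ ^ 2) ≤ 4 * ‖g a‖ := by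
  have h00 : (0 : ℂ) ∈ ball (0 : ℂ) 1 := by simp
  have ha1 : ‖a‖ < 1 := by simpa using ha
  set φ : ℂ → ℂ := fun ζ => (ζ + a) / (1 + (starRingEnd ℂ) a * ζ) with hφ
  have hden : ∀ ζ ∈ ball (0 : ℂ) 1, 1 + (starRingEnd ℂ) a * ζ ≠ 0 := by
    intro ζ hζ h
    have h1 : ‖(starRingEnd ℂ) a * ζ‖ < 1 := by
      rw [norm_mul, Complex.norm_conj]
      have : ‖ζ‖ < 1 := by simpa using hζ
      nlinarith [norm_nonneg a, norm_nonneg ζ]
    have h2 : (starRingEnd ℂ) a * ζ = -1 := by linear_combination h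
    rw [h2] at h1
    simp at h1
  have hmem : ∀ ζ ∈ ball (0 : ℂ) 1, φ ζ ∈ ball (0 : ℂ) 1 := by
    intro ζ hζ
    have hζ1 : ‖ζ‖ < 1 := by simpa using hζ
    rw [mem_ball, dist_zero_right, hφ]
    simp only [norm_div]
    rw [div_lt_one (norm_pos_iff.2 (hden ζ hζ))]
    rw [← sq_lt_sq₀ (norm_nonneg _) (norm_nonneg _)]
    have h1 : ‖ζ + a‖ ^ 2 = ‖ζ‖ ^ 2 + ‖a‖ ^ 2 + 2 * (ζ * (starRingEnd ℂ) a).re := by
      rw [← Complex.normSq_eq_norm_sq, ← Complex.normSq_eq_norm_sq, ← Complex.normSq_eq_norm_sq,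
        Complex.normSq_add]
    have h2 : ‖1 + (starRingEnd ℂ) a * ζ‖ ^ 2 = 1 + ‖a‖ ^ 2 * ‖ζ‖ ^ 2 +
        2 * (ζ * (starRingEnd ℂ) a).re := by
      have : ‖a‖ ^ 2 * ‖ζ‖ ^ 2 = Complex.normSq ((starRingEnd ℂ) a * ζ) := by
        rw [Complex.normSq_eq_norm_sq, norm_mul, Complex.norm_conj, mul_pow]
      rw [this, ← Complex.normSq_eq_norm_sq, Complex.normSq_add]
      simp
      ring
    rw [h1, h2]
    have h3 : 0 < (1 - ‖a‖ ^ 2) * (1 - ‖ζ‖ ^ 2) := by
      apply mul_pos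
      · nlinarith [norm_nonneg a]
      · nlinarith [norm_nonneg ζ]
    nlinarith
  have hφd : ∀ ζ ∈ ball (0 : ℂ) 1, HasDerivAt φ
      ((1 - (starRingEnd ℂ) a * a) / (1 + (starRingEnd ℂ) a * ζ) ^ 2) ζ := by
    intro ζ hζ
    have h1 : HasDerivAt (fun ζ : ℂ => ζ + a) 1 ζ := (hasDerivAt_id ζ).add_const a
    have h2 : HasDerivAt (fun ζ : ℂ => 1 + (starRingEnd ℂ) a * ζ) ((starRingEnd ℂ) a) ζ := by
      have := ((hasDerivAt_id ζ).const_mul ((starRingEnd ℂ) a)).const_add 1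
      refine HasDerivAt.congr_deriv this ?_
      simp
    refine HasDerivAt.congr_deriv (h1.div h2 (hden ζ hζ)) ?_
    congr 1
    ring
  have hφi : InjOn φ (ball 0 1) := by
    intro z hz w hw hzw
    simp only [hφ] at hzw
    rw [div_eq_div_iff (hden z hz) (hden w hw)] at hzw
    have h1 : (1 - (starRingEnd ℂ) a * a) * (z - w) = 0 := by linear_combination hzw
    rcases mul_eq_zero.1 h1 with h2 | h2
    · exfalso
      rw [← Complex.normSq_eq_conj_mul_self, Complex.normSq_eq_norm_sq] at h2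
      have h3 : ((1 - ‖a‖ ^ 2 : ℝ) : ℂ) = 0 := by push_cast; exact_mod_cast h2
      have h4 : 1 - ‖a‖ ^ 2 = 0 := by exact_mod_cast h3
      nlinarith [norm_nonneg a]
    · exact sub_eq_zero.1 h2
  have hφ0 : φ 0 = a := by simp [hφ]
  have hcd : ∀ ζ ∈ ball (0 : ℂ) 1, HasDerivAt (g ∘ φ) (deriv g (φ ζ) *
      ((1 - (starRingEnd ℂ) a * a) / (1 + (starRingEnd ℂ) a * ζ) ^ 2)) ζ := fun ζ hζ =>
    (hda hg (hmem ζ hζ)).comp ζ (hφd ζ hζ)
  have key := koebe (g := g ∘ φ) (fun ζ hζ => (hcd ζ hζ).differentiableAt.differentiableWithinAt)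
    (fun z hz w hw h => hφi hz hw (hi (hmem z hz) (hmem w hw) h)) (fun z hz => hne _ (hmem z hz))
  rw [(hcd 0 h00).deriv, Function.comp, hφ0] at key
  simp only [mul_zero, add_zero, one_pow, div_one, norm_mul] at key
  rw [← Complex.normSq_eq_conj_mul_self, Complex.normSq_eq_norm_sq] at key
  have h5 : ‖(1 : ℂ) - ((‖a‖ ^ 2 : ℝ) : ℂ)‖ = 1 - ‖a‖ ^ 2 := by
    rw [← Complex.ofReal_one, ← Complex.ofReal_sub, Complex.norm_real, Real.norm_of_nonneg]
    nlinarith [norm_nonneg a]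
  rwa [h5] at key

/-- Growth. -/
lemma growth {g : ℂ → ℂ} (hg : DifferentiableOn ℂ g (ball 0 1)) (hi : InjOn g (ball 0 1))
    (hne : ∀ z ∈ ball (0 : ℂ) 1, g z ≠ 0) {z : ℂ} (hz : z ∈ ball (0 : ℂ) 1) :
    ‖g z‖ ≤ ‖g 0‖ * ((1 + ‖z‖) / (1 - ‖z‖)) ^ 2 := by
  obtain ⟨l, hl, hlg⟩ := exists_log hg hne
  have h00 : (0 : ℂ) ∈ ball (0 : ℂ) 1 := by simp
  have hz1 : ‖z‖ < 1 := by simpa using hz
  set r := ‖z‖ with hr
  have hr0 : 0 ≤ r := norm_nonneg z
  -- derivative of l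
  have hld : ∀ a ∈ ball (0 : ℂ) 1, ‖deriv l a‖ * (1 - ‖a‖ ^ 2) ≤ 4 := by
    intro a ha
    have h1 : HasDerivAt (fun z => Complex.exp (l z)) (Complex.exp (l a) * deriv l a) a :=
      (hda hl ha).cexp
    have h2 : (fun z => Complex.exp (l z)) =ᶠ[𝓝 a] g := by
      filter_upwards [isOpen_ball.mem_nhds ha] with z hz using hlg z hz
    have h3 : deriv g a = Complex.exp (l a) * deriv l a :=
      (h1.congr_of_eventuallyEq h2.symm).deriv
    have h4 := koebe_at hg hi hne ha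
    rw [h3, hlg a ha, norm_mul] at h4
    have h5 : 0 < ‖g a‖ := norm_pos_iff.2 (hne a ha)
    have h6 : ‖g a‖ * (‖deriv l a‖ * (1 - ‖a‖ ^ 2)) ≤ ‖g a‖ * 4 := by
      calc _ = ‖g a‖ * ‖deriv l a‖ * (1 - ‖a‖ ^ 2) := by ring
        _ ≤ 4 * ‖g a‖ := h4
        _ = _ := by ring
    exact le_of_mul_le_mul_left h6 h5
  have hsz : ∀ s ∈ Icc (0 : ℝ) 1, ‖(s : ℂ) * z‖ = s * r := by
    intro s hs
    rw [norm_mul, Complex.norm_real, Real.norm_of_nonneg hs.1]
  have hszb : ∀ s ∈ Icc (0 : ℝ) 1, (s : ℂ) * z ∈ ball (0 : ℂ) 1 := by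
    intro s hs
    rw [mem_ball, dist_zero_right, hsz s hs]
    nlinarith [hs.1, hs.2]
  have hf : ∀ s ∈ Icc (0 : ℝ) 1, HasDerivAt (fun s : ℝ => l ((s : ℂ) * z) - l 0)
      (deriv l ((s : ℂ) * z) * z) s := by
    intro s hs
    have h1 : HasDerivAt (fun s : ℝ => (s : ℂ) * z) z s := by
      have := (Complex.ofRealCLM.hasDerivAt (x := s)).mul_const z
      refine HasDerivAt.congr_deriv this ?_
      simp
    have h2 := ((hda hl (hszb s hs)).comp s h1).sub_const (l 0)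
    exact h2
  set B : ℝ → ℝ := fun s => 2 * (Real.log (1 + s * r) - Real.log (1 - s * r)) with hB
  have hpos : ∀ s ∈ Icc (0 : ℝ) 1, 0 < 1 - s * r := fun s hs => by nlinarith [hs.1, hs.2]
  have hpos' : ∀ s ∈ Icc (0 : ℝ) 1, 0 < 1 + s * r := fun s hs => by nlinarith [hs.1, hs.2]
  have hBd : ∀ s ∈ Icc (0 : ℝ) 1, HasDerivAt B (2 * (r / (1 + s * r) - (-r) / (1 - s * r))) s := by
    intro s hs
    have h1 : HasDerivAt (fun s : ℝ => 1 + s * r) r s := by
      have := ((hasDerivAt_id s).mul_const r).const_add 1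
      refine HasDerivAt.congr_deriv this (by simp)
    have h2 : HasDerivAt (fun s : ℝ => 1 - s * r) (-r) s := by
      have := ((hasDerivAt_id s).mul_const r).const_sub 1
      refine HasDerivAt.congr_deriv this (by simp)
    exact ((h1.log (hpos' s hs).ne').sub (h2.log (hpos s hs).ne')).const_mul 2
  have key := image_norm_le_of_norm_deriv_right_le_deriv_boundary'
    (f := fun s : ℝ => l ((s : ℂ) * z) - l 0) (f' := fun s => deriv l ((s : ℂ) * z) * z)
    (a := 0) (b := 1) (fun s hs => (hf s hs).continuousAt.continuousWithinAt)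
    (fun s hs => (hf s (Ico_subset_Icc_self hs)).hasDerivWithinAt)
    (B := B) (B' := fun s => 2 * (r / (1 + s * r) - (-r) / (1 - s * r)))
    (by simp [hB]) (fun s hs => (hBd s hs).continuousAt.continuousWithinAt)
    (fun s hs => (hBd s (Ico_subset_Icc_self hs)).hasDerivWithinAt)
    (by
      intro s hs
      have hs' := Ico_subset_Icc_self hs
      have h1 := hld _ (hszb s hs')
      rw [hsz s hs'] at h1
      have h2 := hpos s hs'
      have h3 := hpos' s hs'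
      rw [norm_mul, ← hr]
      have h4 : 2 * (r / (1 + s * r) - (-r) / (1 - s * r)) = 4 * r / (1 - (s * r) ^ 2) := by
        have : 1 - (s * r) ^ 2 = (1 + s * r) * (1 - s * r) := by ring
        rw [this, div_sub_div _ _ h3.ne' h2.ne', ← mul_div_assoc]
        congr 1
        ring
      rw [h4, le_div_iff₀ (by nlinarith)]
      nlinarith)
    (show (1 : ℝ) ∈ Icc (0 : ℝ) 1 by simp)
  simp only [Complex.ofReal_one, one_mul] at key
  have h1 : (l z).re - (l 0).re ≤ B 1 := by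
    have := (Complex.abs_re_le_norm (l z - l 0)).trans key
    rw [Complex.sub_re] at this
    exact (le_abs_self _).trans this
  have h2 : Real.exp (B 1) = ((1 + r) / (1 - r)) ^ 2 := by
    have h3 := hpos 1 (by simp)
    have h4 := hpos' 1 (by simp)
    rw [one_mul] at h3 h4
    simp only [hB, one_mul]
    rw [← Real.log_div h4.ne' h3.ne', mul_comm, Real.exp_mul, Real.exp_log (by positivity)]
    exact Real.rpow_natCast _ 2
  rw [← hlg z hz, ← hlg 0 h00, Complex.norm_exp, Complex.norm_exp, ← h2, ← Real.exp_add]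
  exact Real.exp_le_exp.2 (by linarith)

end PosAux
end Vale.Agent.P142
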