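import Vale.Agent.P142.PosC
import Vale.Agent.P142.Tc

/-! P142, [POS], part D: Prawitz-type estimate, `∫_D |g|^q < ∞` for `q < 1`. -/

open Metric Set MeasureTheory Filter Topology
open scoped Real ENNReal

namespace Vale.Agent.P142
namespace PosAux

lemma ball_eq : {z : ℂ | ‖z‖ ∈ Iio (1 : ℝ)} = ball (0 : ℂ) 1 := by
  ext z; simp

/-- Polar coordinates + Parseval. -/
lemma polar_parseval {G : ℂ → ℂ} (hG : DifferentiableOn ℂ G (ball 0 1)) {w : ℝ → ℝ≥0∞}
    (hw : Continuous w) (hwt : ∀ r, w r ≠ ∞) :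
    ∫⁻ z in ball (0 : ℂ) 1, w ‖z‖ * ENNReal.ofReal (‖G z‖ ^ 2) =
      ∑' n, ∫⁻ r in Ioo (0 : ℝ) 1, ENNReal.ofReal r * (w r *
        ENNReal.ofReal (2 * π * ‖tc G n‖ ^ 2 * r ^ (2 * n))) := by
  rw [← ball_eq, lintegral_polar_on' _ measurableSet_Iio, Ioi_inter_Iio, ← lintegral_tsum]
  · refine setLIntegral_congr_fun measurableSet_Ioo fun r hr => ?_
    have hr0 : 0 < r := hr.1
    have hn : ∀ θ : ℝ, ‖(r : ℂ) * Complex.exp (θ * Complex.I)‖ = r := by
      intro θ; simp [abs_of_pos hr0]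
    simp only [hn]
    rw [ENNReal.tsum_mul_left, ENNReal.tsum_mul_left, lintegral_const_mul' _ _ (hwt r)]
    congr 2
    have hpar := tc_parseval hG hr0.le hr.2
    have hcont : Continuous fun θ : ℝ => ‖G (r * Complex.exp (θ * Complex.I))‖ ^ 2 :=
      (TcAux.cont_circle hG hr0.le hr.2).norm.pow 2
    rw [← ofReal_integral_eq_lintegral_ofReal]
    · rw [← integral_Ioc_eq_integral_Ioo, ← intervalIntegral.integral_of_le
        (by linarith [Real.pi_pos]), ← ENNReal.ofReal_tsum_of_nonneg]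
      · congr 1
        have h1 := hpar.tsum_eq
        have h2 : ∑' n, 2 * π * ‖tc G n‖ ^ 2 * r ^ (2 * n) =
            2 * π * ∑' n, ‖tc G n‖ ^ 2 * r ^ (2 * n) := by
          rw [← tsum_mul_left]
          congr 1; funext n; ring
        rw [h2, h1, ← mul_assoc, mul_one_div_cancel (by positivity), one_mul]
      · intro n; positivity
      · have := hpar.summable.mul_left (2 * π)
        refine this.congr fun n => by ring
    · exact (hcont.integrableOn_Icc (a := -π) (b := π)).mono_set Ioo_subset_Icc_self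
    · exact Eventually.of_forall fun θ => by positivity
  · intro n
    exact Measurable.aemeasurable (by fun_prop)
  · rw [ball_eq]
    refine meas_ind measurableSet_ball ?_
    refine ContinuousOn.ennreal_mul (hw.comp continuous_norm).continuousOn ?_ ?_ ?_
    · exact ENNReal.continuous_ofReal.comp_continuousOn (hG.continuousOn.norm.pow 2)
    · exact fun z _ => Or.inr ENNReal.ofReal_ne_top
    · exact fun z _ => Or.inr (hwt _)

lemma tc_deriv {F : ℂ → ℂ} (hF : DifferentiableOn ℂ F (ball 0 1)) (n : ℕ) :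
    tc (deriv F) n = (n + 1) * tc F (n + 1) := by
  unfold tc
  have hsub : sphere (0 : ℂ) (1 / 2) ⊆ ball 0 1 := by
    intro z hz
    have : ‖z‖ = 1 / 2 := by simpa using hz
    rw [mem_ball, dist_zero_right, this]; norm_num
  have hz0 : ∀ z ∈ sphere (0 : ℂ) (1 / 2), z ≠ 0 := by
    intro z hz h
    rw [h] at hz; simp at hz
  have h1 : (∮ z in C(0, 1 / 2), (deriv F z / z ^ (n + 1) -
      (n + 1) * (F z / z ^ (n + 1 + 1)))) = 0 := by
    refine circleIntegral.integral_eq_zero_of_hasDerivWithinAt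
      (f := fun z => F z / z ^ (n + 1)) (by norm_num) fun z hz => ?_
    have hd := (hda hF (hsub hz)).div (hasDerivAt_pow (n + 1) z) (pow_ne_zero _ (hz0 z hz))
    refine HasDerivAt.hasDerivWithinAt (HasDerivAt.congr_deriv hd ?_)
    have := hz0 z hz
    push_cast
    field_simp
    ring
  have hc1 : ContinuousOn (deriv F) (sphere (0 : ℂ) (1 / 2)) :=
    (hF.deriv isOpen_ball).continuousOn.mono hsub
  have hc2 : ContinuousOn F (sphere (0 : ℂ) (1 / 2)) := hF.continuousOn.mono hsub
  have hi1 : CircleIntegrable (fun z => deriv F z / z ^ (n + 1)) 0 (1 / 2) :=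
    (hc1.div (continuousOn_id.pow _) fun z hz => pow_ne_zero _ (hz0 z hz)).circleIntegrable
      (by norm_num)
  have hi2 : CircleIntegrable (fun z => (n + 1 : ℂ) * (F z / z ^ (n + 1 + 1))) 0 (1 / 2) :=
    (continuousOn_const.mul (hc2.div (continuousOn_id.pow _)
      fun z hz => pow_ne_zero _ (hz0 z hz))).circleIntegrable (by norm_num)
  rw [circleIntegral.integral_sub hi1 hi2, sub_eq_zero, circleIntegral.integral_const_mul] at h1
  rw [h1]
  ring

/-- real computation: the radial integrals. -/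
lemma radial_one (c : ℝ) (hc : 0 ≤ c) (n : ℕ) :
    ∫⁻ r in Ioo (0 : ℝ) 1, ENNReal.ofReal r * (1 * ENNReal.ofReal (c * r ^ (2 * n))) =
      ENNReal.ofReal (c / (2 * n + 2)) := by
  have h1 : ∀ r ∈ Ioo (0 : ℝ) 1, ENNReal.ofReal r * (1 * ENNReal.ofReal (c * r ^ (2 * n))) =
      ENNReal.ofReal (c * r ^ (2 * n + 1)) := by
    intro r hr
    rw [one_mul, ← ENNReal.ofReal_mul hr.1.le]
    congr 1; ring
  rw [setLIntegral_congr_fun measurableSet_Ioo h1, ← ofReal_integral_eq_lintegral_ofReal]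
  · rw [← integral_Ioc_eq_integral_Ioo, ← intervalIntegral.integral_of_le (by norm_num),
      intervalIntegral.integral_const_mul, integral_pow]
    congr 1
    push_cast
    simp
    ring
  · exact ((by fun_prop : Continuous fun r : ℝ => c * r ^ (2 * n + 1)).integrableOn_Icc
      (a := 0) (b := 1)).mono_set Ioo_subset_Icc_self
  · refine (ae_restrict_iff' measurableSet_Ioo).2 (Eventually.of_forall fun r hr => ?_)
    have := hr.1.le
    positivity

lemma radial_two (c : ℝ) (hc : 0 ≤ c) (n : ℕ) :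
    ∫⁻ r in Ioo (0 : ℝ) 1, ENNReal.ofReal r * (ENNReal.ofReal ((1 - r) ^ 2) *
      ENNReal.ofReal (c * r ^ (2 * n))) =
      ENNReal.ofReal (c * (2 / ((2 * n + 2) * (2 * n + 3) * (2 * n + 4)))) := by
  have h1 : ∀ r ∈ Ioo (0 : ℝ) 1, ENNReal.ofReal r * (ENNReal.ofReal ((1 - r) ^ 2) *
      ENNReal.ofReal (c * r ^ (2 * n))) =
      ENNReal.ofReal (c * (r ^ (2 * n + 1) - 2 * r ^ (2 * n + 2) + r ^ (2 * n + 3))) := by
    intro r hr
    rw [← ENNReal.ofReal_mul (by positivity), ← ENNReal.ofReal_mul hr.1.le]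
    congr 1; ring
  rw [setLIntegral_congr_fun measurableSet_Ioo h1, ← ofReal_integral_eq_lintegral_ofReal]
  · rw [← integral_Ioc_eq_integral_Ioo, ← intervalIntegral.integral_of_le (by norm_num),
      intervalIntegral.integral_const_mul, intervalIntegral.integral_add,
      intervalIntegral.integral_sub, intervalIntegral.integral_const_mul, integral_pow,
      integral_pow, integral_pow]
    · congr 2
      push_cast
      simp only [one_pow]
      field_simp
      ring
    all_goals exact Continuous.intervalIntegrable (by fun_prop) _ _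
  · exact ((by fun_prop : Continuous fun r : ℝ => c * (r ^ (2 * n + 1) - 2 * r ^ (2 * n + 2) +
      r ^ (2 * n + 3))).integrableOn_Icc (a := 0) (b := 1)).mono_set Ioo_subset_Icc_self
  · refine (ae_restrict_iff' measurableSet_Ioo).2 (Eventually.of_forall fun r hr => ?_)
    have h2 : r ^ (2 * n + 1) - 2 * r ^ (2 * n + 2) + r ^ (2 * n + 3) =
      r ^ (2 * n + 1) * (1 - r) ^ 2 := by ring
    simp only [h2]
    have := hr.1.le
    positivity

/-- Hardy type inequality: finiteness of the weighted Dirichlet integral implies that of the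
Bergman norm. -/
lemma hardy {F : ℂ → ℂ} (hF : DifferentiableOn ℂ F (ball 0 1))
    (h : ∫⁻ z in ball (0 : ℂ) 1, ENNReal.ofReal ((1 - ‖z‖) ^ 2) *
      ENNReal.ofReal (‖deriv F z‖ ^ 2) < ∞) :
    ∫⁻ z in ball (0 : ℂ) 1, ENNReal.ofReal (‖F z‖ ^ 2) < ∞ := by
  have h1 := polar_parseval hF (w := fun _ => 1) continuous_const (fun _ => ENNReal.one_ne_top)
  simp only [one_mul] at h1
  have h2 := polar_parseval (hF.deriv isOpen_ball) (w := fun r => ENNReal.ofReal ((1 - r) ^ 2))
    (ENNReal.continuous_ofReal.comp (by fun_prop)) (fun _ => ENNReal.ofReal_ne_top)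
  rw [h2] at h
  rw [h1, tsum_eq_zero_add' ENNReal.summable]
  refine ENNReal.add_lt_top.2 ⟨?_, ?_⟩
  · have := radial_one (2 * π * ‖tc F 0‖ ^ 2) (by positivity) 0
    simp only [one_mul] at this
    rw [this]
    exact ENNReal.ofReal_lt_top
  · refine lt_of_le_of_lt ?_ (ENNReal.mul_lt_top (ENNReal.ofReal_lt_top (r := 3)) h)
    rw [← ENNReal.tsum_mul_left]
    refine ENNReal.tsum_le_tsum fun n => ?_
    have h3 := radial_one (2 * π * ‖tc F (n + 1)‖ ^ 2) (by positivity) (n + 1)
    simp only [one_mul] at h3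
    rw [h3, radial_two _ (by positivity), tc_deriv hF, ← ENNReal.ofReal_mul (by norm_num)]
    refine ENNReal.ofReal_le_ofReal ?_
    rw [norm_mul, mul_pow]
    have h4 : ‖(n + 1 : ℂ)‖ = n + 1 := by
      have : (n + 1 : ℂ) = ((n + 1 : ℝ) : ℂ) := by push_cast; ring
      rw [this, Complex.norm_real, Real.norm_of_nonneg (by positivity)]
    rw [h4]
    push_cast
    have h5 : (1 : ℝ) / (2 * (n + 1) + 2) ≤
        3 * ((n + 1) ^ 2 * (2 / ((2 * n + 2) * (2 * n + 3) * (2 * n + 4)))) := by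
      have h6 : 3 * (((n : ℝ) + 1) ^ 2 * (2 / ((2 * n + 2) * (2 * n + 3) * (2 * n + 4)))) =
          (3 * (n + 1) / (2 * n + 3)) * (1 / (2 * (n + 1) + 2)) := by
        field_simp
        ring
      rw [h6]
      have h7 : (1 : ℝ) ≤ 3 * (n + 1) / (2 * n + 3) := by
        rw [le_div_iff₀ (by positivity)]
        have : (0 : ℝ) ≤ n := by positivity
        linarith
      have h8 : (0 : ℝ) ≤ 1 / (2 * (n + 1) + 2) := by positivity
      nlinarith
    have h9 : (0 : ℝ) ≤ 2 * π * ‖tc F (n + 1)‖ ^ 2 := by positivity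
    calc 2 * π * ‖tc F (n + 1)‖ ^ 2 / (2 * (n + 1) + 2) =
          (2 * π * ‖tc F (n + 1)‖ ^ 2) * (1 / (2 * (n + 1) + 2)) := by ring
      _ ≤ (2 * π * ‖tc F (n + 1)‖ ^ 2) *
          (3 * ((n + 1) ^ 2 * (2 / ((2 * n + 2) * (2 * n + 3) * (2 * n + 4))))) := by gcongr
      _ = _ := by ring

end PosAux
end Vale.Agent.P142
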