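import Vale.Agent.P142.Defs

open Metric Set MeasureTheory Filter Topology Finset
open scoped Real Polynomial

namespace Vale.Agent.P142

/-! ### [TC] Taylor coefficients (file Tc.lean) -/

theorem tc_eq {g : ℂ → ℂ} (hg : DifferentiableOn ℂ g (ball 0 1)) {R : ℝ} (hR : 0 < R)
    (hR1 : R < 1) (n : ℕ) :
    tc g n = (2 * π * Complex.I)⁻¹ * ∮ z in C(0, R), g z / z ^ (n + 1) := by
  sorry

theorem tc_hasSum {g : ℂ → ℂ} (hg : DifferentiableOn ℂ g (ball 0 1)) {z : ℂ} (hz : ‖z‖ < 1) :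
    HasSum (fun n => tc g n * z ^ n) (g z) := by
  sorry

theorem tc_summable {g : ℂ → ℂ} (hg : DifferentiableOn ℂ g (ball 0 1)) {R : ℝ} (hR : 0 ≤ R)
    (hR1 : R < 1) : Summable (fun n => ‖tc g n‖ * R ^ n) := by
  sorry

/-- Parseval. -/
theorem tc_parseval {g : ℂ → ℂ} (hg : DifferentiableOn ℂ g (ball 0 1)) {R : ℝ} (hR : 0 ≤ R)
    (hR1 : R < 1) :
    HasSum (fun n => ‖tc g n‖ ^ 2 * R ^ (2 * n))
      ((1 / (2 * π)) * ∫ θ in (-π)..π, ‖g (R * Complex.exp (θ * Complex.I))‖ ^ (2 : ℕ)) := by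
  sorry

/-! ### [DNZ] an injective holomorphic function has nonvanishing derivative (Dnz.lean) -/

theorem deriv_ne_zero {U : Set ℂ} (hU : IsOpen U) {f : ℂ → ℂ} (hf : DifferentiableOn ℂ f U)
    (hi : InjOn f U) {z : ℂ} (hz : z ∈ U) : deriv f z ≠ 0 := by
  sorry

/-! ### [WIND] winding integrals (Wind.lean) -/

/-- value attained: integral of `f'/(f - a)` is `2 pi i` (for `a = f x0`, `|x0| < R`) and `0`
if `a` is not attained in the closed disc. -/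
theorem wind {f : ℂ → ℂ} (hf : DifferentiableOn ℂ f (ball 0 1)) (hi : InjOn f (ball 0 1))
    {R : ℝ} (hR : 0 < R) (hR1 : R < 1) {a : ℂ} (ha : ∀ x ∈ sphere (0 : ℂ) R, f x ≠ a) :
    ((∃ x ∈ ball (0 : ℂ) R, f x = a) ∧
        (∮ x in C(0, R), deriv f x / (f x - a)) = 2 * π * Complex.I) ∨
      ((∀ x ∈ closedBall (0 : ℂ) R, f x ≠ a) ∧ (∮ x in C(0, R), deriv f x / (f x - a)) = 0) := by
  sorry

/-- Any nonconstant or constant polynomial in `1/f`: the winding number is nonpositive. -/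
theorem windP {f : ℂ → ℂ} (hf : DifferentiableOn ℂ f (ball 0 1)) (hi : InjOn f (ball 0 1))
    (h0 : f 0 = 0) {R : ℝ} (hR : 0 < R) (hR1 : R < 1) (Q : ℂ[X])
    (hQ : ∀ x ∈ sphere (0 : ℂ) R, Q.eval (f x)⁻¹ ≠ 0) :
    ∃ k : ℕ, (∮ x in C(0, R), deriv (fun y => Q.eval (f y)⁻¹) x / Q.eval (f x)⁻¹) =
      -(2 * π * Complex.I) * k := by
  sorry

/-! ### [CT] Cauchy transform of a disc (Ct.lean) -/

theorem ct_integrable {F : ℂ} {M : ℝ} :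
    IntegrableOn (fun c : ℂ => (F - c)⁻¹) (ball 0 M) := by
  sorry

theorem ct_norm_bound {F : ℂ} {M : ℝ} (hF : ‖F‖ < M) :
    ∫ c in ball (0 : ℂ) M, ‖(F - c)⁻¹‖ ≤ 4 * π * M := by
  sorry

theorem ct {F : ℂ} {M : ℝ} (hF : ‖F‖ < M) :
    ∫ c in ball (0 : ℂ) M, (F - c)⁻¹ = π * (starRingEnd ℂ) F := by
  sorry

/-! ### [AREA0] the area inequality, integral form (Area0.lean) -/

theorem area0 {f : ℂ → ℂ} (hf : DifferentiableOn ℂ f (ball 0 1)) (hi : InjOn f (ball 0 1))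
    (h0 : f 0 = 0) {R : ℝ} (hR : 0 < R) (hR1 : R < 1) (Q : ℂ[X]) :
    ∃ y : ℝ, y ≤ 0 ∧
      (∮ x in C(0, R), (starRingEnd ℂ) (Q.eval (f x)⁻¹) * deriv (fun y => Q.eval (f y)⁻¹) x) =
        2 * π * Complex.I * y := by
  sorry

/-! ### [PARS] the area integral in terms of Laurent coefficients (Pars.lean) -/

theorem pars {K : ℂ → ℂ} (hK : DifferentiableOn ℂ K (ball 0 1)) {R : ℝ} (hR : 0 < R)
    (hR1 : R < 1) (n : ℕ) :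
    HasSum (fun i : ℕ => (((((i : ℤ) - n - 1 : ℤ) : ℝ) * ‖tc K i‖ ^ 2 *
        R ^ (2 * ((i : ℤ) - n - 1)) : ℝ) : ℂ))
      ((2 * π * Complex.I)⁻¹ * ∮ x in C(0, R),
        (starRingEnd ℂ) (K x / x ^ (n + 1)) * deriv (fun y => K y / y ^ (n + 1)) x) := by
  sorry

/-! ### [AREA] the area inequality, coefficient form (Area.lean) -/

theorem area {f : ℂ → ℂ} (hf : DifferentiableOn ℂ f (ball 0 1)) (hi : InjOn f (ball 0 1))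
    (h0 : f 0 = 0) (Q : ℂ[X]) (n : ℕ) (K : ℂ → ℂ) (hK : DifferentiableOn ℂ K (ball 0 1))
    (hKQ : ∀ x ∈ ball (0 : ℂ) 1, x ≠ 0 → K x = x ^ (n + 1) * Q.eval (f x)⁻¹) (J : ℕ) :
    ∑ j ∈ range J, (j : ℝ) * ‖tc K (n + 1 + j)‖ ^ 2 ≤
      ∑ k ∈ range (n + 1), ((k : ℝ) + 1) * ‖tc K (n - k)‖ ^ 2 := by
  sorry

/-! ### [QDEF] the Faber-type polynomials (Qdef.lean) -/

theorem qdef {f : ℂ → ℂ} (hf : DifferentiableOn ℂ f (ball 0 1)) (hi : InjOn f (ball 0 1))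
    (h0 : f 0 = 0) (n : ℕ) :
    ∃ (Q : ℂ[X]) (K : ℂ → ℂ), DifferentiableOn ℂ K (ball 0 1) ∧
      (∀ x ∈ ball (0 : ℂ) 1, x ≠ 0 → K x = x ^ (n + 1) * Q.eval (f x)⁻¹) ∧
      ∀ x ∈ ball (0 : ℂ) 1, ∀ r : ℝ, 0 < r → r < ‖x‖ →
        K x = x ^ (n + 1) * ((2 * π * Complex.I)⁻¹ * ∮ w in C(0, r), (f x - f w)⁻¹ / w ^ (n + 1)) := by
  sorry

/-! ### [RES] residue computation in an annulus (Res.lean) -/

theorem res {f : ℂ → ℂ} (hf : DifferentiableOn ℂ f (ball 0 1)) (hi : InjOn f (ball 0 1))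
    {r R : ℝ} (hr : 0 < r) (hR1 : R < 1) {w : ℂ} (hrw : r < ‖w‖) (hwR : ‖w‖ < R) (p : ℤ) :
    (∮ x in C(0, R), x ^ p * (f x - f w)⁻¹) - (∮ x in C(0, r), x ^ p * (f x - f w)⁻¹) =
      2 * π * Complex.I * (w ^ p * (deriv f w)⁻¹) := by
  sorry

theorem res0 {f : ℂ → ℂ} (hf : DifferentiableOn ℂ f (ball 0 1)) (hi : InjOn f (ball 0 1))
    {r : ℝ} (hr : 0 < r) {w : ℂ} (hrw : r < ‖w‖) (hw1 : ‖w‖ < 1) (p : ℕ) :
    (∮ x in C(0, r), x ^ p * (f x - f w)⁻¹) = 0 := by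
  sorry

/-! ### [FUB] Fubini for circle integrals (Fub.lean) -/

theorem fub {g : ℂ → ℂ → ℂ} {r R : ℝ} (hr : 0 < r) (hR : 0 < R)
    (hg : ContinuousOn (fun p : ℂ × ℂ => g p.1 p.2) (sphere 0 r ×ˢ sphere 0 R)) :
    (∮ x in C(0, r), ∮ w in C(0, R), g x w) = ∮ w in C(0, R), ∮ x in C(0, r), g x w := by
  sorry

/-! ### [BIV] the two-variable relations (Biv.lean) -/

theorem biv {f : ℂ → ℂ} (hf : DifferentiableOn ℂ f (ball 0 1)) (hi : InjOn f (ball 0 1))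
    (h0 : f 0 = 0) :
    ∃ b : ℕ → ℕ → ℂ,
      (∀ j k, b j k + b k j = tc (fun w => (deriv f w)⁻¹) (j + k + 1)) ∧
      ∀ n J, ∑ j ∈ range J, (j : ℝ) * ‖b j n‖ ^ 2 ≤
        ∑ k ∈ range (n + 1), ((k : ℝ) + 1) * ‖tc (fun w => (deriv f w)⁻¹) (n - k)‖ ^ 2 := by
  sorry

/-! ### [NUM] numerics (Num.lean) -/

/-- the lower bound for the weights; `64/153 = 0.4183006...`, the limit of
`N^(9/8) * sum` is `0.4187547...`. -/
theorem num : ∃ c : ℝ, 64 / 153 < c ∧ ∃ N0 : ℕ, ∀ N ≥ N0,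
    c * (N : ℝ) ^ (-(9 / 8 : ℝ)) ≤
      (1 / 2) * ∑ j ∈ range N, ((j : ℝ) * ((N - 1 - j : ℕ) : ℝ)) /
        ((j : ℝ) ^ (33 / 8 : ℝ) + ((N - 1 - j : ℕ) : ℝ) ^ (33 / 8 : ℝ)) := by
  sorry

/-- the upper bound for the weights. -/
theorem esum (N L : ℕ) (hN : 2 < N) :
    ∑ n ∈ Finset.Ico N L, ((n - N + 1 : ℕ) : ℝ) * (n : ℝ) ^ (-(25 / 8 : ℝ)) ≤
      64 / 153 * ((N : ℝ) - 2) ^ (-(9 / 8 : ℝ)) := by
  sorry

/-! ### [COMB] the weighted sum (Comb.lean) -/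

theorem comb (a : ℕ → ℂ) (b : ℕ → ℕ → ℂ) (hS : ∀ j k, b j k + b k j = a (j + k + 1))
    (hG : ∀ n J, ∑ j ∈ range J, (j : ℝ) * ‖b j n‖ ^ 2 ≤
      ∑ k ∈ range (n + 1), ((k : ℝ) + 1) * ‖a (n - k)‖ ^ 2) :
    ∃ C : ℝ, ∀ N, ∑ n ∈ range N, ‖a n‖ ^ 2 * ((n : ℝ) + 1) ^ (-(9 / 8 : ℝ)) ≤ C := by
  sorry

/-! ### [MEAN] integral means (Mean.lean) -/

theorem mean {f : ℂ → ℂ} (hf : DifferentiableOn ℂ f (ball 0 1)) (hi : InjOn f (ball 0 1))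
    (hC : ∃ C : ℝ, ∀ N, ∑ n ∈ range N, ‖tc (fun w => (deriv f w)⁻¹) n‖ ^ 2 *
      ((n : ℝ) + 1) ^ (-(9 / 8 : ℝ)) ≤ C) :
    ∃ C : ℝ, 0 < C ∧ ∀ r : ℝ, 0 ≤ r → r < 1 → Mt f (-2) r ≤ C * (1 - r) ^ (-(9 / 8 : ℝ)) := by
  sorry

/-! ### [BETA] (Beta.lean) -/

theorem beta_le {f : ℂ → ℂ} (hf : DifferentiableOn ℂ f (ball 0 1)) (hi : InjOn f (ball 0 1))
    {C : ℝ} (hC : 0 < C)
    (h : ∀ r : ℝ, 0 ≤ r → r < 1 → Mt f (-2) r ≤ C * (1 - r) ^ (-(9 / 8 : ℝ))) :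
    betaf f (-2) ≤ ((9 / 8 : ℝ) : EReal) := by
  sorry

/-! ### [INT] area integrals, negative exponents (Intg.lean) -/

theorem intneg {f : ℂ → ℂ} (hf : DifferentiableOn ℂ f (ball 0 1)) (hi : InjOn f (ball 0 1))
    {C : ℝ} (hC : 0 < C)
    (h : ∀ r : ℝ, 0 ≤ r → r < 1 → Mt f (-2) r ≤ C * (1 - r) ^ (-(9 / 8 : ℝ)))
    {p : ℝ} (hp0 : 0 ≤ p) (hp : p < 16 / 9) :
    ∫⁻ z in ball (0 : ℂ) 1, ENNReal.ofReal (‖deriv f z‖ ^ (-p)) < ⊤ := by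
  sorry

/-! ### [POS] area integrals, positive exponents (classical) (Pos.lean) -/

theorem intpos {f : ℂ → ℂ} (hf : DifferentiableOn ℂ f (ball 0 1)) (hi : InjOn f (ball 0 1))
    {t : ℝ} (ht0 : 0 < t) (ht : t < 2 / 3) :
    ∫⁻ z in ball (0 : ℂ) 1, ENNReal.ofReal (‖deriv f z‖ ^ t) < ⊤ := by
  sorry

/-! ### [COV] change of variables (Cov.lean) -/

theorem cov {W : Set ℂ} {φ : ℂ → ℂ} (hW : IsOpen W) (hφ : DifferentiableOn ℂ φ W)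
    (hb : BijOn φ W (ball 0 1)) :
    ∃ f : ℂ → ℂ, DifferentiableOn ℂ f (ball 0 1) ∧ InjOn f (ball 0 1) ∧
      (∀ z ∈ W, f (φ z) = z) ∧
      ∀ s : ℝ, ∫⁻ z in W, ENNReal.ofReal (‖deriv φ z‖ ^ s) =
        ∫⁻ z in ball (0 : ℂ) 1, ENNReal.ofReal (‖deriv f z‖ ^ (2 - s)) := by
  sorry

/-! ### [MAIN] -/

theorem main : BS (-2) ≤ ((9 / 8 : ℝ) : EReal) ∧
    ∀ (W : Set ℂ) (φ : ℂ → ℂ), IsOpen W → DifferentiableOn ℂ φ W → BijOn φ W (ball 0 1) →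
      ∀ s : ℝ, 4 / 3 < s → s < 34 / 9 →
        ∫⁻ z in W, ENNReal.ofReal (‖deriv φ z‖ ^ s) < ⊤ := by
  have key : ∀ f : ℂ → ℂ, DifferentiableOn ℂ f (ball 0 1) → InjOn f (ball 0 1) → f 0 = 0 →
      ∃ C : ℝ, 0 < C ∧ ∀ r : ℝ, 0 ≤ r → r < 1 → Mt f (-2) r ≤ C * (1 - r) ^ (-(9 / 8 : ℝ)) := by
    intro f hf hi h0
    obtain ⟨b, hS, hG⟩ := biv hf hi h0
    exact mean hf hi (comb _ b hS hG)
  refine ⟨?_, ?_⟩
  · refine iSup_le ?_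
    rintro ⟨f, hf, hi, h0, -⟩
    obtain ⟨C, hC, h⟩ := key f hf hi h0
    exact beta_le hf hi hC h
  · intro W φ hW hφ hb s hs1 hs2
    obtain ⟨f, hf, hi, -, hcov⟩ := cov hW hφ hb
    rw [hcov s]
    rcases lt_or_ge 0 (2 - s) with h2 | h2
    · exact intpos hf hi h2 (by linarith)
    · set g : ℂ → ℂ := fun z => f z - f 0 with hgdef
      have hg : DifferentiableOn ℂ g (ball 0 1) := hf.sub_const _
      have hgi : InjOn g (ball 0 1) := by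
        intro x hx y hy hxy
        exact hi hx hy (by simpa [g] using hxy)
      obtain ⟨C, hC, h⟩ := key g hg hgi (by simp [g])
      have h3 := intneg hg hgi hC h (p := s - 2) (by linarith) (by linarith)
      have h4 : ∀ z, deriv g z = deriv f z := by
        intro z; simp [g]
      simp only [h4] at h3
      rwa [show (-(s - 2)) = 2 - s by ring] at h3

end Vale.Agent.P142
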